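import Vale.Agent.P218I.Spec

/-!
# P218, INST: the projections on the slow directions
-/

open MeasureTheory Set Filter Topology
open scoped ContDiff RealInnerProductSpace Real ComplexConjugate

noncomputable section

namespace Vale.Agent.P218I

open Vale.Agent.P218T Vale.Agent.P218L Vale.Agent.P218M GD
open Vale.Agent.P218H (h2_wf avg_row f2 nrm4)
open Vale.Agent.P218W (W jet cl)

namespace Xiv

variable {M : Mod} {k : ℕ} {G : GD M k} {Z : Fin M.n₁ → ℝ} {j : Fin M.n₁} {y : ℝ × ℝ}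

/-- the end function in a cylindrical chart -/
theorem we_P (g : M.Geo) (U : G.XX Z) (hy : M.R < y.1) :
    we U (M.P (.inl j) y) = q M (.inl j) y * (U.2.1.1 j).1 0 y := by
  refine (Finset.sum_eq_single (.inl j) (fun e _ he => (g.lift_other he hy).eq_of_nhds)
    fun h => (h (Finset.mem_univ _)).elim).trans (g.lift_P (fun z θ hz => ?_) hy)
  simp only [g.per_qn _ z θ hz, LD.jx, W.per]

theorem q_le (g : M.Geo) (e : M.I) (hy : M.R < y.1) : |q M e y| ≤ 1 := by
  have h := g.qn_mem e hy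
  have h2 := (g.sq e).1
  rw [← sq_le_one_iff_abs_le_one]
  nlinarith [h.1, h.2]

theorem j0_le (U : G.XX Z) (hy : y.1 ∈ Icc G.z₀ (G.ρ + 9)) (i : Fin 6) :
    ‖(U.2.1.1 j).1 i y‖ ≤ zn U := by
  have h := ((G.coo Z U).2.1 j i).apply_le y
  have e : (G.coo Z U).2.1 j i y = (U.2.1.1 j).1 i (cl G.z₀ (G.ρ + 9) y.1, y.2) := rfl
  rw [e, cl, min_eq_right hy.2, max_eq_right hy.1] at h
  exact h.trans ((half_le_self (norm_nonneg _)).trans ((norm_le_pi_norm _ i).trans
    ((norm_le_pi_norm _ j).trans ((nrm4 _).2.1.trans (norm_fst_le (G.coo Z U, U.2.2.2))))))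

theorem v_le (U : G.XX Z) : ‖U.1‖ ≤ zn U :=
  (nrm4 (G.coo Z U)).1.trans (norm_fst_le (G.coo Z U, U.2.2.2))

theorem cut0 {a z : ℝ} (h : z ≤ a) : cut a z = 0 :=
  Real.smoothTransition.zero_of_nonpos (by linarith)

variable (slow : SLOW) (o : G.Ok)
include slow o

/-- almost every point of the support of `b (j, 0)` lies on the end `j` -/
theorem ae_b (j : Fin M.n₁) :
    ∀ᵐ x ∂ga M.w, G.b (j, 0) x ≠ 0 → x ∈ M.En (.inl j) (Icc G.ρ (G.ρ + 3)) :=
  mem_of_superset (mem_ae_iff.2 o.cor.supp) fun x hx h =>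
    (((slow M k _ o.ld).1 (j, 0)).2.2.2.2.1 x hx h).1

theorem ae_eq {F F' : E3 → ℂ}
    (h : ∀ y : ℝ × ℝ, y.1 ∈ Icc G.ρ (G.ρ + 3) → F (M.P (.inl j) y) = F' (M.P (.inl j) y)) :
    ∫ x, F x * G.b (j, 0) x ∂ga M.w = ∫ x, F' x * G.b (j, 0) x ∂ga M.w := by
  refine integral_congr_ae ((ae_b slow o j).mono fun x hx => ?_)
  by_cases b : G.b (j, 0) x = 0
  · simp only [b, mul_zero]
  · obtain ⟨y, hy, rfl⟩ := hx b
    simp only [h y hy.1]

theorem intg (U : G.XX Z) (j : Fin M.n₁) :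
    Integrable (fun x => uu U x * G.b (j, 0) x) (ga M.w) := by
  have g := o.ld.geo
  have ht : Icc G.ρ (G.ρ + 3) ⊆ Ioi M.R := fun z hz =>
    mem_Ioi.2 (by linarith [o.ld.lo, o.ld.hi, hz.1])
  have : IsFiniteMeasureOnCompacts (ga M.w) := o.cor.fin
  obtain ⟨-, C, -, h⟩ := (h2_wf avg_row o.cor.toOk0 (α := α₀) (by norm_num) (by norm_num)).1
  have c1 : ContinuousOn (we U) (M.En (.inl j) (Icc G.ρ (G.ρ + 3))) :=
    g.contOn_En ht (ContinuousOn.congr (f := fun y => q M (.inl j) y * (U.2.1.1 j).1 0 y)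
      (fun y hy => ((Complex.continuous_ofReal.continuousAt.comp
        (g.cd_qn _ (ht hy.1)).continuousAt).mul (W.cont _).continuousAt).continuousWithinAt)
      fun y hy => we_P g U (ht hy.1))
  refine IntegrableOn.integrable_of_ae_notMem_eq_zero (ContinuousOn.integrableOn_compact
    (g.isCompact_En isCompact_Icc ht) (((o.cor.scc.continuous.smul
      (h U.1).1.continuous).continuousOn.add (o.cor.sce.continuous.continuousOn.smul c1)).mul
      (o.cor.bb _).1.continuous.continuousOn)) ((ae_b slow o j).mono fun x hx h => ?_)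
  rw [not_not.1 (mt hx h), mul_zero]

theorem bound : ∃ C : ℝ, 0 ≤ C ∧ ∀ (Z : Fin M.n₁ → ℝ) (U : G.XX Z),
    ‖fun j => (G.ka j)⁻¹ * ∫ x, uu U x * G.b (j, 0) x ∂ga M.w‖ ≤ C * zn U := by
  have g := o.ld.geo
  have : IsFiniteMeasureOnCompacts (ga M.w) := o.cor.fin
  obtain ⟨-, C, C0, h⟩ := (h2_wf avg_row o.cor.toOk0 (α := α₀) (by norm_num) (by norm_num)).1
  let D : Fin M.n₁ → ℝ := fun j => ‖(G.ka j)⁻¹‖ * ∫ x, ‖G.b (j, 0) x‖ ∂ga M.w
  refine ⟨‖D‖ * (C + 1), by positivity, fun Z U => ?_⟩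
  have z0 : 0 ≤ zn U := norm_nonneg _
  refine (pi_norm_le_iff_of_nonneg (by positivity)).2 fun j => ?_
  obtain ⟨b1, b2, -⟩ := (slow M k _ o.ld).1 (j, 0)
  have k : ‖∫ x, uu U x * G.b (j, 0) x ∂ga M.w‖ ≤
      (∫ x, ‖G.b (j, 0) x‖ ∂ga M.w) * ((C + 1) * zn U) := by
    rw [← integral_mul_const]
    refine norm_integral_le_of_norm_le
      ((b1.continuous.integrable_of_hasCompactSupport b2).norm.mul_const _)
      ((ae_b slow o j).mono fun x hx => ?_)
    by_cases b : G.b (j, 0) x = 0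
    · simp only [b, mul_zero, norm_zero, zero_mul, le_refl]
    obtain ⟨y, hy, rfl⟩ := hx b
    have l : G.z₀ ≤ y.1 := by linarith [o.ld.hi, hy.1.1]
    have hR : M.R < y.1 := by linarith [o.ld.lo]
    rw [norm_mul, mul_comm, add_mul, one_mul]
    refine mul_le_mul_of_nonneg_left (norm_add_le_of_le
      ((P218H.nrm_smul (o.cor.ccb _) _).trans ((((h U.1).2 none none).sup _).trans
        (mul_le_mul_of_nonneg_left (v_le U) C0)))
      ((P218H.nrm_smul (o.cor.ceb _) _).trans ?_)) (norm_nonneg _)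
    rw [we_P g U hR, norm_mul, Complex.norm_real]
    exact (mul_le_of_le_one_left (norm_nonneg _) (q_le g _ hR)).trans
      (j0_le U ⟨l, by linarith [hy.1.2]⟩ 0)
  rw [norm_mul, mul_assoc]
  refine (mul_le_mul_of_nonneg_left k (norm_nonneg _)).trans ?_
  rw [← mul_assoc]
  exact mul_le_mul_of_nonneg_right ((le_abs_self _).trans (norm_le_pi_norm D j)) (by positivity)

theorem xi_eq (U : G.XX Z) :
    G.XI Z U = fun j => (G.ka j)⁻¹ * ∫ x, uu U x * G.b (j, 0) x ∂ga M.w := by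
  obtain ⟨C, C0, h⟩ := bound slow o
  have l : P218H.Ln fun v : P218H.C2a 3 α₀ => G.cor.wf G.et (f2 v) :=
    (h2_wf avg_row o.cor.toOk0 (by norm_num) (by norm_num)).1.1
  have a : ∀ (U U' : G.XX Z) x, uu (U + U') x = uu U x + uu U' x := fun U U' x => by
    simp only [uu, wc, we, Prod.fst_add, Prod.snd_add, map_add, l.add, Pi.add_apply, smul_add]
    ring
  have s : ∀ (c : ℂ) (U : G.XX Z) x, uu (c • U) x = c * uu U x := fun c U x => by
    simp only [uu, wc, we, Prod.smul_fst, Prod.smul_snd, map_smul, l.smul, Pi.smul_apply,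
      smul_eq_mul, Complex.real_smul]
    ring
  let L : G.XX Z →ₗ[ℂ] Fin M.n₁ → ℂ :=
    { toFun := fun U j => (G.ka j)⁻¹ * ∫ x, uu U x * G.b (j, 0) x ∂ga M.w
      map_add' := fun U U' => funext fun j => by
        simp only [a, add_mul, integral_add (intg slow o U j) (intg slow o U' j), mul_add,
          Pi.add_apply]
      map_smul' := fun c U => funext fun j => by
        simp only [s, mul_assoc, integral_const_mul, Pi.smul_apply, smul_eq_mul, RingHom.id_apply]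
        ring }
  let B := (G.coo Z).prod (.snd ℂ _ _ ∘L .snd ℂ _ _ ∘L .snd ℂ _ _)
  refine toL_apply ⟨L.mkContinuous (C * ‖B‖) fun U => (h Z U).trans ?_, fun _ => rfl⟩ U
  rw [mul_assoc]
  exact mul_le_mul_of_nonneg_left (B.le_opNorm U) C0

end Xiv

open Xiv

theorem xiv' (slow : SLOW) : XIV := fun _ _ => ⟨0, fun _ _ _ o =>
  let ⟨C, _, h⟩ := bound slow o
  ⟨C, fun Z _ U => ⟨xi_eq slow o U ▸ h Z U, congrFun (xi_eq slow o U), intg slow o U⟩⟩⟩

theorem xiv (slow : SLOW) (_ : KAP) (_ : MSG) : XIV := xiv' slow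

/-- the projections of the slow directions and of the shrinker -/
theorem uz' (slow : SLOW) (kap : KAP) (u0 : U0V) (us : USV) : RowP fun _ _ G p =>
    (∀ c', G.XI p.W (G.U0 p.W p.z₃ c') = c') ∧ G.XI p.W (G.US p.W p.z₃) = 0 := by
  refine (Row.and u0 us).mono fun M k G o h => ?_
  filter_upwards [h.1, h.2, ev_ad, ev_Z fun _ _ _ => G.ρ + 3, ev_cs (ev₀_z fun _ _ => G.ρ + 3)]
    with p h1 h2 ad hZ hz
  have g := o.ld.geo
  have l := (h2_wf avg_row o.cor.toOk0 (α := α₀) (by norm_num) (by norm_num)).1.1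
  have w0 : G.cor.wf G.cor.et (f2 (0 : P218H.C2a 3 α₀)) = 0 := by simpa using l.smul 0 0
  have key : ∀ j (y : ℝ × ℝ), y.1 ∈ Icc G.ρ (G.ρ + 3) → M.R < y.1 ∧ y.1 ∈ Icc G.z₀ (p.W j) ∧
      cut 1 (y.1 / p.z₃) = 0 ∧ cut (G.ρ + 6) y.1 = 0 := fun j y hy => by
    have := o.ld.lo
    have := o.ld.hi
    have := G.hz
    exact ⟨by linarith [hy.1], ⟨by linarith [hy.1], by linarith [hy.2, (ad.hW j).1]⟩,
      cut0 (div_le_one_of_le₀ (hy.2.trans hz) (by linarith)), cut0 (by linarith [hy.2])⟩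
  refine ⟨fun c' => ?_, ?_⟩ <;> rw [xi_eq slow o] <;> funext j
  · rw [ae_eq slow o (F' := fun x => c' j * G.Y (j, 0) x) fun y hy => ?_]
    · simp only [mul_assoc, integral_const_mul]
      have : G.ka j ≠ 0 := fun e => by simpa [e] using (kap M k _ o.ld j).2.1
      exact (mul_left_comm _ _ _).trans (by rw [← LD.ka, inv_mul_cancel₀ this, mul_one])
    obtain ⟨k1, k2, k3, k4⟩ := key j y hy
    have per : Per M.R fun y => q M (.inl j) y * yj (G.yv j) 0 y := fun z θ hz => by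
      simp only [g.per_qn _ z θ hz, yj, P218W.wj, W.per]
    have e : ((G.U0 p.W p.z₃ c').2.1.1 j).1 0 y = c' j * (G.u0 p.W p.z₃ j).1 0 (y.1, y.2) := rfl
    have e' : wc (G.U0 p.W p.z₃ c') = 0 := w0
    rw [uu, we_P g _ k1, e, (h1 j).1 0 _ k2, e']
    simp [u0j, Frm.jm, jet, k3, k4, LD.Y, LD.ch, LD.ph, g.lift_P per k1, LD.core]
    ring
  · rw [ae_eq slow o (F' := fun _ => 0) fun y hy => ?_]
    · simp
    obtain ⟨k1, k2, k3, -⟩ := key j y hy
    have e' : wc (G.US p.W p.z₃) = 0 := w0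
    rw [uu, we_P g _ k1, (h2 j).1 0 _ k2 y.2, e']
    simp [jet, usf, k3]

end Vale.Agent.P218I
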