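import Vale.Agent.P218I.Spec

/-!
# P218, INST, row IND: independence of the heights of the observables and of the order
-/

noncomputable section

namespace Vale.Agent.P218I

open Vale.Agent.P218T Vale.Agent.P218L
open Vale.Agent.P218N (V3 AD Pi' Jt jt mix km Ef Bc Tf Df dB dF jA jA2 te)

namespace Ind

section inv

variable {B : Type*} [NormedAddCommGroup B] [NormedSpace ℝ B] {τ : B} {H : E3 × ℂ × B → V3}

/-- invariance under a translation of the parameters -/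
def Inv (τ : B) (H : E3 × ℂ × B → V3) : Prop := ∀ z, H (z + (0, 0, τ)) = H z

theorem Inv.fd (h : Inv τ H) (z : E3 × ℂ × B) : fderiv ℝ H (z + (0, 0, τ)) = fderiv ℝ H z := by
  rw [← fderiv_comp_add_right, funext h]

theorem Inv.dB (h : Inv τ H) (b : Fin 3) : Inv τ (dB b H) := fun z => by
  simp only [P218N.dB, h.fd]

theorem Inv.dF (h : Inv τ H) : Inv τ (dF H) := fun z => by simp only [P218N.dF, h.fd]

theorem Inv.app (h : Inv τ H) (x : E3) (a : ℂ) (t : B) : H (x, a, t + τ) = H (x, a, t) := by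
  simpa using h (x, a, t)

theorem Inv.jA (h : Inv τ H) (x : E3) (j : Jt) (t : B) : jA H x j (t + τ) = jA H x j t :=
  funext fun b => by simp only [P218N.jA, (h.dB b).app, h.dF.app]

theorem Inv.jA2 (h : Inv τ H) (x : E3) (j : Jt) (t : B) : jA2 H x j (t + τ) = jA2 H x j t :=
  funext₂ fun c b => by simp only [P218N.jA2, (h.dB b).jA, h.dF.jA, h.dF.app]

end inv

variable {ι α : Type} [Fintype ι] [Fintype α] (D : AD ι α) (x : E3) (j : Jt)
  (a : ι × Fin 3 → ℂ) (l : α → ℂ) (s e κ κ' : ι → ℂ)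

theorem inv (κ : ι → ℂ) : Inv ((0, 0, 0, 0, κ) : Pi' ι α) D.XX := fun z => by
  simp [AD.XX, AD.ov, AD.X0]

theorem sh : ((a, l, s, e, κ) : Pi' ι α) = (a, l, s, e, κ') + (0, 0, 0, 0, κ - κ') := by simp

theorem XX_eq (c : ℂ) : D.XX (x, c, a, l, s, e, κ) = D.XX (x, c, a, l, s, e, κ') := by
  rw [sh a l s e κ κ', (inv D _).app]

theorem dF_eq (c : ℂ) : dF D.XX (x, c, a, l, s, e, κ) = dF D.XX (x, c, a, l, s, e, κ') := by
  rw [sh a l s e κ κ', (inv D _).dF.app]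

theorem jA_eq : jA D.XX x j (a, l, s, e, κ) = jA D.XX x j (a, l, s, e, κ') := by
  rw [sh a l s e κ κ', (inv D _).jA]

theorem jA2_eq : jA2 D.XX x j (a, l, s, e, κ) = jA2 D.XX x j (a, l, s, e, κ') := by
  rw [sh a l s e κ κ', (inv D _).jA2]

theorem lw_eq (c : ℂ) : D.lw x (a, l, s, 0, κ) c = D.lw x (a, l, s, 0, κ') c :=
  funext fun _ => by simp [AD.lw]

theorem Rm_eq : D.Rm x j (a, l, s, 0, κ) = D.Rm x j (a, l, s, 0, κ') := by
  simp only [AD.Rm, AD.E, AD.Ln, AD.lag, AD.Om, AD.th, AD.gw, XX_eq D x a l s 0 κ κ',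
    dF_eq D x a l s 0 κ κ', jA_eq D x j a l s 0 κ κ', jA2_eq D x j a l s 0 κ κ',
    lw_eq D x a l s κ κ', Pi.zero_apply, zero_mul]

theorem If_eq : D.If x j (a, l, s, 0, κ) = D.If x j (a, l, s, 0, κ') := by
  simp only [AD.If, AD.Wj, AD.Om, AD.gw, XX_eq D x a l s 0 κ κ', jA_eq D x j a l s 0 κ κ',
    Pi.zero_apply, zero_mul]

theorem IO_eq (i : ι) (h : κ i = κ' i) :
    D.IO i x j (a, l, s, e, κ) = D.IO i x j (a, l, s, e, κ') := by
  simp only [AD.IO, AD.Wj, XX_eq D x a l s e κ κ', jA_eq D x j a l s e κ κ', h]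

end Ind

open Ind GD

theorem ind : IND := by
  intro M k G a
  refine ⟨fun J m W U c v => ?_, fun J W U c => ⟨?_, ?_⟩⟩
  · have hR : ∀ x j, (G.ad W).Rm x j (par m (U, bs c v)) = (G.ad W).Rm x j (par 0 (U, bs c v)) :=
      fun x j => Rm_eq _ x j _ _ _ _ _
    have hI : ∀ x j, (G.ad W).If x j (par m (U, bs c v)) = (G.ad W).If x j (par 0 (U, bs c v)) :=
      fun x j => If_eq _ x j _ _ _ _ _
    have h1 : Qc m (U, bs c v) = Qc 0 (U, bs c v) := funext fun x => hR _ _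
    have h2 : Qn m (U, bs c v) = Qn 0 (U, bs c v) := funext fun x => by simp only [Qn, hR]
    have h3 : Ec a.z₃ m (U, bs c v) = Ec a.z₃ 0 (U, bs c v) := funext₂ fun j p => by
      simp [Ec, Ef, te, bs]
    have h4 : Bj a.J₀ J m (U, bs c v) = Bj a.J₀ J 0 (U, bs c v) := funext fun j => by
      simp [Bj, Bc, bs]
    refine ⟨?_, ?_, fun j => ⟨?_, ?_⟩⟩
    · simp only [obj, FF, N1, Fe, N2, n3c, h1, h2, h3, h4]
    · simp only [obj, ff, hI]
    · simp [obj, Df, bs]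
    · simp only [obj, oo]
      congr 1
      exact funext fun x => IO_eq _ x _ _ _ _ _ _ _ j rfl
  · have h4 : Bj a.J₀ J 0 (U, bs c (0 : ℝ)) = Bj a.J₀ a.J₀ 0 (U, bs c (1 : ℝ)) :=
      funext fun j => by simp [Bj, Bc, bs, Zb, Vb, pb]
    simp only [obj, FF, Fe, h4]
    rfl
  · simp only [obj, ff]
    congr 1
    simp [Tf, bs, Zb, Vb]

end Vale.Agent.P218I
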