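import Vale.Agent.P218I.CjA
import Vale.Agent.P218I.Ind
import Vale.Agent.P218C.Meas

/-!
# P218, INST: conjugation
-/

open MeasureTheory Set Filter Topology
open scoped ContDiff Real ComplexConjugate

noncomputable section

namespace Vale.Agent.P218I

open Vale.Agent.P218T Vale.Agent.P218L Vale.Agent.P218M GD
open Vale.Agent.P218H (HH f1 f2 tri)
open Vale.Agent.P218N (V3 cx nu jt mix km Jt cja cjf)
open Vale.Agent.P218W (W Ret toW jet XE XK WI cl ret_cl ret_max)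

attribute [local simp] map_ofNat

/-- the integrands are regular at the points of the box over the base point -/
def GDR : Prop := RowP fun M _ G p => ∀ U, G.Nn p U < p.r →
  (∀ x ∈ SW p.W,
    (G.ad p.W).Gd x (jt (ft p.z₃ (U, bs p.c p.v)) x) (par p.m (U, bs p.c p.v))) ∧
  (∀ x ∈ M.S, ‖x‖ ≤ G.ρ + 8 → (G.ad p.W).Gd x (jt (uu U) x) (par p.m (U, bs p.c p.v))) ∧
  ∀ j, 0 < (Vb (U, bs p.c p.v) j).re ∧
    ∀ θ, ‖pb (U, bs p.c p.v) j θ‖ ^ 2 ≤ 2 * ‖Vb (U, bs p.c p.v) j‖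

namespace Cja

variable {M : Mod} {k : ℕ} {G : GD M k} {Z : Fin M.n₁ → ℝ}

/-- conjugation of the unknowns and the parameters -/
abbrev cy (y : G.XX Z × Pm (Fin M.n₁)) : G.XX Z × Pm (Fin M.n₁) := (cU y.1, star y.2)

theorem bs_star {ι : Type} (c : ι → ℂ) (v : ℝ) : bs (star c) v = star (bs c v) := by
  simp [bs, Prod.ext_iff]

theorem km_re (m : ℝ) : conj (km m) = km m := by simp [km, ← Complex.exp_conj]

theorem par_conj (m : Fin M.n₁ → ℝ) (y : G.XX Z × Pm (Fin M.n₁)) :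
    par m (cy y) = star (par m y) :=
  Prod.ext rfl (Prod.ext rfl (Prod.ext rfl (Prod.ext rfl (funext fun _ => (km_re _).symm))))

theorem zt_conj (Z : ℝ) (l : ℂ) (z : ℝ) : zt Z (star l) z = star (zt Z l z) ∧
    zt₁ Z (star l) z = star (zt₁ Z l z) ∧ zt₂ Z (star l) z = star (zt₂ Z l z) := by
  simp [zt, zt₁, zt₂]

theorem Vj_conj (z₃ : ℝ) (j : Fin M.n₁) (Z : ℝ) (c l : ℂ) (i : Fin 6) (y : ℝ × ℝ) :
    G.Vj z₃ j Z (star c) (star l) i y = conj (G.Vj z₃ j Z c l i y) := by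
  have e : G.bt z₃ j (star c) = fun y => conj (G.bt z₃ j c y) := funext fun y => by
    simp [bt, VS]
  rw [Vj, Vj, e, jet_conj, map_add, (zt_conj _ _ _).1, (zt_conj _ _ _).2.1, (zt_conj _ _ _).2.2,
    (cjf 0 0 0 0 0 _ _ _ c 0 0 0).1]
  rfl

theorem Vt_conj (z₃ : ℝ) (y : G.XX Z × Pm (Fin M.n₁)) (j p) :
    Vt z₃ (cy y) j p = star (Vt z₃ y j p) := funext fun i =>
  (congrArg (· + _) (Vj_conj z₃ j (Z j) (y.2.1 j) (y.2.2.1 j) i p)).trans (map_add conj _ _).symm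

theorem ft_conj (z₃ : ℝ) (y : G.XX Z × Pm (Fin M.n₁)) :
    ft z₃ (cy y) = fun x => conj (ft z₃ y x) := funext fun x => by
  simp only [ft, uu_conj, map_add, map_sum, ← Mod.lift_map conj (map_zero _), map_mul, map_sub,
    ← Vj_conj, Complex.conj_ofReal, VS]
  rfl

theorem n3c_conj (h : ∀ j, G.z₀ ≤ Z j) (z₃ : ℝ) (m j) (y : G.XX Z × Pm (Fin M.n₁)) :
    n3c z₃ m j (cy y) = star (n3c z₃ m j y) := toW_conj (ret_cl (h j)) fun z _ θ => by
  have e := (cjf 0 0 0 (y.2.2.2.1 j) (km (m j)) (zt (Z j) (y.2.2.1 j) z) (zt₁ (Z j) (y.2.2.1 j) z)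
    (zt₂ (Z j) (y.2.2.1 j) z) 0 0 (Vt z₃ y j (z, θ)) 0).2.1
  rw [← (zt_conj _ _ _).1, ← (zt_conj _ _ _).2.1, ← (zt_conj _ _ _).2.2, ← Vt_conj,
    show star (km (m j)) = km (m j) from km_re _] at e
  rw [map_mul, Complex.conj_ofReal]
  exact congrArg _ e

theorem Zb_conj (y : G.XX Z × Pm (Fin M.n₁)) (j) : Zb (cy y) j = star (Zb y j) := by simp [Zb]

theorem Vb_conj (y : G.XX Z × Pm (Fin M.n₁)) (j) : Vb (cy y) j = star (Vb y j) := by
  simp [Vb, Zb_conj]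

theorem pb_conj (y : G.XX Z × Pm (Fin M.n₁)) (j) : pb (cy y) j = star (pb y j) :=
  funext fun θ => by simp [pb, Zb_conj, cX, cjE]

theorem Bj_conj (J₀ J : ℕ) (m) {y : G.XX Z × Pm (Fin M.n₁)} {j} (h : 0 < (Vb y j).re)
    (h' : ∀ θ, ‖pb y j θ‖ ^ 2 ≤ 2 * ‖Vb y j‖) : Bj J₀ J m (cy y) j = star (Bj J₀ J m y j) := by
  have e := ((cjf J₀ J y.2.2.2.2 (y.2.2.2.1 j) (km (m j)) (Zb y j) 0 0 0 _ 0 _).2.2 h).2 h'
  rw [← Zb_conj, ← Vb_conj, ← pb_conj, show star (km (m j)) = km (m j) from km_re _] at e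
  exact e

theorem jt_sm (a : E3 → ℝ) (φ : E3 → ℂ) (x : E3) :
    jt (fun p => a p • conj (φ p)) x = star (jt (fun p => a p • φ p) x) := by
  rw [← jt_conj]
  simp

theorem gd_mix {ι α : Type} [Fintype ι] [Fintype α] {D : P218N.AD ι α} {x : E3} {j : Jt}
    {t : P218N.Pi' ι α} (h : D.Gd x j t) (j' : Jt) : D.Gd x (mix j j') t := ⟨h.rg, h.rw, h.sl⟩

variable (hr : (G.ad Z).Re) {m : Fin M.n₁ → ℝ} {y : G.XX Z × Pm (Fin M.n₁)}
include hr

theorem Rm_conj {x : E3} (h : (G.ad Z).Gd x (jt (uu y.1) x) (par m y)) (j : Jt) :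
    (G.ad Z).Rm x (mix (jt (uu (cU y.1)) x) (star j)) (par m (cy y)) =
      conj ((G.ad Z).Rm x (mix (jt (uu y.1) x) j) (par m y)) := by
  rw [uu_conj, jt_conj, mix_star, par_conj]
  exact (cja _ _ _ hr x _ _ (gd_mix h j)).2.2.2.1

theorem Qc_conj {x : E3} (h : (G.ad Z).Gd x (jt (uu y.1) x) (par m y)) :
    Qc m (cy y) x = conj (Qc m y x) := by
  rw [Qc, Qc, ← Rm_conj hr h, star_sub, star_add, star_smul, star_trivial (R := ℝ), ← jt_sm,
    ← jt_conj, ← jt_conj, wc_conj, we_conj]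

theorem Qn_conj {x : E3} (h : (G.ad Z).Gd x (jt (uu y.1) x) (par m y)) :
    Qn m (cy y) x = conj (Qn m y x) := by
  rw [Qn, Qn, map_sub, Complex.real_smul, Complex.real_smul, map_mul, Complex.conj_ofReal,
    ← Rm_conj hr h, ← Rm_conj hr h, star_sub, star_add, star_smul, star_trivial (R := ℝ), ← jt_sm,
    ← jt_conj, ← jt_conj, wc_conj, we_conj, star_zero]

variable (o : G.Ok)
  (hg : ∀ x ∈ M.S, ‖x‖ ≤ G.ρ + 8 → (G.ad Z).Gd x (jt (uu y.1) x) (par m y))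
include o hg

theorem N1_conj : N1 m (cy y) = star (N1 m y) := toH_conj fun x => by
  have d := o.cor.tube.pos
  unfold P218H.Core.ext
  by_cases h1 : G.cor.de / 2 ≤ |G.cor.ta x|
  · simp [o.cor.ker.eh0 _ h1]
  by_cases h2 : G.cor.r + 5 + 1 ≤ ‖G.cor.pr x‖
  · simp [P218H.st_one (by linarith [o.cor.one_le, o.cor.r_le]) h2]
  have h3 : G.cor.r = G.ρ + 2 := rfl
  rw [Qc_conj hr (hg _ (o.cor.tube.foot x (by linarith)).1 (by linarith))]
  simp

theorem N2_conj (h : ∀ j, G.z₀ ≤ Z j) : N2 m (cy y) = star (N2 m y) := toY_conj h fun e p => by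
  by_cases h1 : p.1 ≤ G.ρ - 1
  · simp [cut_zero h1]
  by_cases h2 : G.ρ + 5 + 1 ≤ p.1
  · simp [chn_eq, cut_one h2]
  have h3 : M.R < p.1 := by linarith [o.ld.lo, o.ld.hi]
  rw [Qn_conj hr (hg _ (o.ld.geo.mem e p h3) (by linarith [((o.ld.geo.cht e).rad p h3).2]))]
  simp

theorem FF_conj (h : ∀ j, G.z₀ ≤ Z j) (hb : ∀ i x, conj (G.b i x) = G.b i x)
    (hc : ∀ v, G.cC (star v) = star (G.cC v))
    (hB : ∀ j, 0 < (Vb y j).re ∧ ∀ θ, ‖pb y j θ‖ ^ 2 ≤ 2 * ‖Vb y j‖) (z₃ : ℝ) (J₀ J : ℕ) :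
    FF z₃ J₀ J m (cy y) = star (FF z₃ J₀ J m y) := by
  refine Prod.ext ?_ (Prod.ext ?_ (Prod.ext ?_ (AA_conj _)))
  · exact (congrArg₂ (· - ·) (L1_conj hb _) (N1_conj hr o hg)).trans (starH_sub _ _).symm
  · change Fe z₃ J₀ J m (cy y) = star (Fe z₃ J₀ J m y)
    rw [Fe, Fe, star_add, star_add, star_add, N2_conj hr o hg h, ← L2_conj h, ← inj_conj h, ← hc]
    congr 1
    exact Prod.ext (funext fun j => Prod.ext (n3c_conj h _ _ _ _) (Bj_conj _ _ _ (hB j).1 (hB j).2))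
      (funext fun l => n3k_conj l _)
  · exact (congrArg₂ (· + ·) (gam_conj _) (Mm_conj o.ld _)).trans (star_add _ _).symm

omit hg in
theorem ff_conj (h : ∀ j, G.z₀ ≤ Z j) {z₃ : ℝ}
    (hs : ∀ x ∈ SW Z, (G.ad Z).Gd x (jt (ft z₃ y) x) (par m y)) (hB : ∀ j, 0 < (Vb y j).re)
    (J₀ J : ℕ) : ff z₃ J₀ J m (cy y) = conj (ff z₃ J₀ J m y) := by
  have g := o.ld.geo
  have ms : MeasurableSet (SW Z : Set E3) := g.isClosed_S.measurableSet.diff (.iUnion fun j =>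
    g.meas_En measurableSet_Ici fun z hz => by
      have := h j
      have := o.ld.lo
      simp only [mem_Ici, mem_Ioi] at hz ⊢
      linarith)
  rw [ff, ff, map_add, map_sum, ← integral_conj]
  congr 1
  · refine setIntegral_congr_fun ms fun x hx => ?_
    simp only [ft_conj, jt_conj, par_conj]
    exact (cja _ _ _ hr x _ _ (hs x hx)).2.2.2.2.1
  · refine Finset.sum_congr rfl fun j _ => ?_
    rw [Zb_conj, Vb_conj]
    exact ((cjf J₀ J y.2.2.2.2 0 0 (Zb y j) 0 0 0 _ 0 0).2.2 (hB j)).1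

end Cja

open Cja in
/-- **conjugation** -/
theorem cj (slow : SLOW) (gdr : GDR) : Fld Obj.CJ := by
  refine Row.mono gdr fun M k G o h => ?_
  filter_upwards [h, o.lin, ev_W fun _ => G.z₀] with p h l hW a U s
  have hz := fun j => (hW j).1
  have hb := fun i => ((slow M k G.toLD o.ld).1 i).2.2.1
  have hk := ka_re hb fun i => ((slow M k G.toLD o.ld).1 i).2.2.2.1
  obtain ⟨T, hT, -⟩ := l.ex
  obtain ⟨g₁, g₂, g₃⟩ := h U s.1
  have i := (ind M k G p.toCs).1 p.J p.m p.W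
  refine ⟨⟨(N_star hz _ U).trans_lt s.1, ?_⟩, XI_conj hb hk U, ?_, ?_, ?_⟩
  · rw [← (i _ _ _).1, bs_star]
    refine (FF_conj (y := (U, bs p.c p.v)) (ad_re hb) o g₂ hz hb hT.cC_star g₃ _ _ _).trans ?_
    have e := (i U p.c p.v).1.trans s.2
    exact (congrArg star e).trans
      (Prod.ext starH_zero (Prod.ext (star_zero _) (Prod.ext (star_zero _) rfl)))
  · exact (star_neg _).symm
  · funext j
    simp [obj, hk]
  · rw [bs_star]
    exact ff_conj (y := (U, bs p.c p.v)) (ad_re hb) o hz g₁ (fun j => (g₃ j).1) _ _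

end Vale.Agent.P218I
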