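import Vale.Agent.P218I.Spec2

/-!
# P218, INST: basic facts
-/

open MeasureTheory Set Filter Topology
open scoped ContDiff Real

noncomputable section

namespace Vale.Agent.P218I

open Vale.Agent.P218T Vale.Agent.P218L Vale.Agent.P218M
open Vale.Agent.P218H (tri HH EndD)
open Vale.Agent.P218W (W Ret jet low toW cst cI cl WI XE XK ret_cl ret_max cst_Icc)

theorem toH_eq {F : E3 → ℂ} {x : HH α₀ E3} (h : ∀ p, x p = F p) : toH F = x := by
  have e : ∃ x : HH α₀ E3, ∀ p, x p = F p := ⟨x, h⟩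
  rw [toH, dif_pos e]
  exact P272.K.LIN.Hol.ext fun p => (e.choose_spec p).trans (h p).symm

theorem toW_eq {s : Set ℝ} {r : ℝ → ℝ} (hr : Ret s r) {F : ℝ × ℝ → ℂ} {x : W r}
    (h : ∀ z ∈ s, ∀ θ, x (z, θ) = F (z, θ)) : toW s r F = x := by
  have e : ∃ x : W r, ∀ z ∈ s, ∀ θ, x (z, θ) = F (z, θ) := ⟨x, h⟩
  rw [toW, dif_pos e]
  exact hr.ext fun z hz θ => (e.choose_spec z hz θ).trans (h z hz θ).symm

theorem toE_spec {R Z₀ Z : ℝ} {ζ : ℝ → ℝ} {F : ℝ × ℝ → ℂ}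
    (h : ∃ J : XE R Z, ∀ z ∈ Icc R Z₀, ∀ θ, J.1 0 (ζ z, θ) = F (z, θ)) :
    ∀ z ∈ Icc R Z₀, ∀ θ, (toE R Z₀ Z ζ F).1 0 (ζ z, θ) = F (z, θ) := by
  rw [toE, dif_pos h]
  exact h.choose_spec

section prs
variable {ι : Type} [Fintype ι] {A : ι → Type} {B : Type} [∀ j, NormedAddCommGroup (A j)]
  [∀ j, NormedSpace ℂ (A j)] [NormedAddCommGroup B] [NormedSpace ℂ B] {p : ∀ j, Seminorm ℂ (A j)}

theorem le_prs (x : (∀ j, A j) × B) : (∀ j, p j (x.1 j) ≤ prs p x) ∧ ‖x.2‖ ≤ prs p x :=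
  ⟨fun j => le_trans (Seminorm.le_finset_sup_apply
    (p := fun j => (p j).comp (LinearMap.proj j ∘ₗ LinearMap.fst ℂ _ B)) (Finset.mem_univ j))
      (le_max_left _ _), le_max_right _ _⟩

theorem prs_le {x : (∀ j, A j) × B} {a : ℝ} (h : ∀ j, p j (x.1 j) ≤ a) (h' : ‖x.2‖ ≤ a) :
    prs p x ≤ a :=
  max_le (Seminorm.finset_sup_apply_le ((norm_nonneg _).trans h') fun j _ => h j) h'

end prs

theorem cut_zero {a z : ℝ} (h : z ≤ a) : cut a z = 0 :=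
  Real.smoothTransition.zero_of_nonpos (sub_nonpos.2 h)

theorem cut_one {a z : ℝ} (h : a + 1 ≤ z) : cut a z = 1 :=
  Real.smoothTransition.one_of_one_le (by linarith)

theorem cut_mem (a z : ℝ) : 0 ≤ cut a z ∧ cut a z ≤ 1 :=
  ⟨Real.smoothTransition.nonneg _, Real.smoothTransition.le_one _⟩

theorem cd_cut (a : ℝ) : ContDiff ℝ ∞ (cut a) :=
  Real.smoothTransition.contDiff.comp (contDiff_id.sub contDiff_const)

theorem cut_ev {a z : ℝ} (h : z < a) : cut a =ᶠ[𝓝 z] fun _ => 0 :=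
  (gt_mem_nhds h).mono fun _ h => cut_zero h.le

theorem cut_ev' {a z : ℝ} (h : a + 1 < z) : cut a =ᶠ[𝓝 z] fun _ => 1 :=
  (lt_mem_nhds h).mono fun _ h => cut_one h.le

/-- below the cut there is no shift -/
theorem zt_low {Z z : ℝ} (h : z < Z - 2) (l : ℂ) :
    zt Z l z = z ∧ zt₁ Z l z = 1 ∧ zt₂ Z l z = 0 := by
  simp [zt, zt₁, zt₂, cut_zero h.le, (cut_ev h).deriv_eq, (cut_ev h).deriv.deriv_eq]

/-- at the cut the shift is a translation -/
theorem zt_top {Z z : ℝ} (h : Z - 1 < z) (l : ℂ) :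
    zt Z l z = z + l ∧ zt₁ Z l z = 1 ∧ zt₂ Z l z = 0 := by
  have h' : Z - 2 + 1 < z := by linarith
  simp [zt, zt₁, zt₂, cut_one h'.le, (cut_ev' h').deriv_eq, (cut_ev' h').deriv.deriv_eq]

theorem zt_zero (Z z : ℝ) : zt Z 0 z = z ∧ zt₁ Z 0 z = 1 ∧ zt₂ Z 0 z = 0 := by
  simp [zt, zt₁, zt₂]

/-- a constant which does not depend on `K` -/
theorem ev_fix {ι : Type} [Fintype ι] {Q : ℝ → Pt ι → Prop} (h : ∀ᶠ p in ev ι, Q p.K p)
    (hQ : ∀ C K K' r z J₀ J K₂ Z m W c v, Q C ⟨⟨K, r, z, J₀⟩, J, K₂, Z, m, W, c, v⟩ →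
      Q C ⟨⟨K', r, z, J₀⟩, J, K₂, Z, m, W, c, v⟩) : ∃ C, 1 ≤ C ∧ ∀ᶠ p in ev ι, Q C p := by
  obtain ⟨C, h, c⟩ := ((ev_iff.1 h).and (eventually_ge_atTop 1)).exists
  exact ⟨C, c, ev_iff.2 (.of_forall fun _ => h.mono fun _ h => h.mono fun _ h => h.mono fun _ h J =>
    (h J).mono fun _ h => h.mono fun _ h m W c v a => hQ _ _ _ _ _ _ _ _ _ _ _ _ _
      (h m W c v ⟨a.hJ, a.hW, a.hm, a.hc, a.hv⟩))⟩

/-- the cuts and the heights of the observables are large -/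
theorem ev_W {ι : Type} [Fintype ι] (f : Cs → ℝ) :
    ∀ᶠ p in ev ι, ∀ j, f p.toCs ≤ p.W j ∧ f p.toCs ≤ p.m j := by
  filter_upwards [ev_ad, ev_Z fun q _ _ => 25 * |f q|] with p a h j
  have := le_abs_self (f p.toCs)
  have := abs_nonneg (f p.toCs)
  have := (a.hW j).1
  have := (a.hm j).1
  constructor <;> linarith

namespace GD

variable {M : Mod} {k : ℕ} {G : GD M k} {Z : Fin M.n₁ → ℝ}

theorem chn_eq (z : ℝ) : G.chn z = 1 - cut (G.ρ + 5) z := rfl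

theorem fc_apply {Z z : ℝ} (hz : z ∈ Icc G.z₀ Z) (θ : ℝ) : G.fc Z (z, θ) = (1 - G.chn z : ℝ) :=
  cst_Icc (hz.1.trans hz.2) (Complex.continuous_ofReal.comp (continuous_const.sub
    (continuous_const.sub (cd_cut _).continuous))).continuousOn hz θ

theorem fk_apply {z : ℝ} (hz : G.z₀ ≤ z) (θ : ℝ) : G.fk (z, θ) = (1 - G.chn z : ℝ) :=
  (ret_max _).cst_apply (C := 1) (Complex.continuous_ofReal.comp (continuous_const.sub
    (continuous_const.sub (cd_cut _).continuous))).continuousOn (fun z _ => by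
      have := cut_mem (G.ρ + 5) z
      simp [abs_of_nonneg this.1, this.2]) hz θ

/-- in the near zone the reference surface is the shrinker -/
theorem Vj_near (g : M.Geo) {z₃ Z : ℝ} {y : ℝ × ℝ} (h0 : M.R < y.1) (h1 : y.1 < G.ρ + 6)
    (h2 : y.1 < z₃) (h3 : y.1 < Z - 2) (j c l i) :
    G.Vj z₃ j Z c l i y = jet (VS (M.f j)) i y := by
  have z0 : 0 < z₃ := by linarith [g.one.1]
  have e : VS (M.f j) =ᶠ[𝓝 y] fun q => (2 + c * ((q.1 : ℂ) ^ 2 - 2)) + G.bt z₃ j c q := by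
    filter_upwards [continuous_fst.tendsto y (gt_mem_nhds h1),
      continuous_fst.tendsto y (gt_mem_nhds h2)] with q a b
    simp [bt, cut_zero (le_of_lt a), cut_zero ((div_le_one z0).2 (le_of_lt b))]
  have c1 : ContDiffAt ℝ 2 (fun q : ℝ × ℝ => 2 + c * ((q.1 : ℂ) ^ 2 - 2)) y :=
    contDiffAt_const.add (contDiffAt_const.mul (((cd_ofReal contDiffAt_fst).pow 2).sub
      contDiffAt_const))
  have c2 : ContDiffAt ℝ 2 (G.bt z₃ j c) y :=
    (((g.cd_VS j).contDiffAt.of_le (WithTop.coe_le_coe.2 (le_top : (2 : ℕ∞) ≤ ⊤))).sub c1).congr_of_eventuallyEq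
      (e.mono fun q hq => by simp [hq])
  have d : ∀ z : ℝ, HasDerivAt (fun z : ℝ => 2 + c * ((z : ℂ) ^ 2 - 2)) (2 * c * z) z := fun z => by
    simpa [mul_left_comm, mul_assoc] using ((((hasDerivAt_id z).ofReal_comp.pow 2).sub_const 2
      ).const_mul c).const_add 2
  have l := Frm.lj_z (y := y) (.of_forall d) (ζ₂ := 2 * c)
    (by simpa using (hasDerivAt_id y.1).ofReal_comp.const_mul (2 * c))
  rw [jet_congr e, jet_add c1 c2, l.jet, Vj, (zt_low h3 _).1, (zt_low h3 _).2.1, (zt_low h3 _).2.2]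
  congr 1
  fin_cases i <;> simp [P218N.rj]

variable {z₃ : ℝ} {c : Fin M.n₁ → ℂ} {T : G.XX Z ≃L[ℂ] G.YY Z}

theorem SS_eq (h : (G.ed z₃ Z c).Sys G.cor G.bA G.sp G.cC T) : G.SS z₃ Z c = T.symm := by
  have e : ∃ T : G.XX Z ≃L[ℂ] G.YY Z, (G.ed z₃ Z c).Sys G.cor G.bA G.sp G.cC T := ⟨T, h⟩
  rw [SS, dif_pos e, ContinuousLinearEquiv.coe_injective (e.choose_spec.unique h)]

theorem L1_eq (h : (G.ed z₃ Z c).Sys G.cor G.bA G.sp G.cC T) (U : G.XX Z) : L1 U = (T U).1 :=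
  toH_eq fun x => (h.core U x).trans (by unfold EndD.low lo; rfl)

theorem AA_apply (h : (G.ed z₃ Z c).Sys G.cor G.bA G.sp G.cC T) (U : G.XX Z) :
    G.AA Z U = (T U).2.2.2 ∧ ∀ i, G.AA Z U i = ∫ p, wc U p * G.ψ i p ∂ga M.w := by
  have e : G.AA Z U = fun i => ∫ p, wc U p * G.ψ i p ∂ga M.w := toL_apply
    ⟨.snd ℂ _ _ ∘L .snd ℂ _ _ ∘L .snd ℂ _ _ ∘L (T : G.XX Z →L[ℂ] G.YY Z),
      fun U => funext (h.con U)⟩ U
  exact ⟨e.trans (funext (h.con U)).symm, congrFun e⟩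

/-- the linear part of the end row in the near zone -/
theorem L2_eq {p : Pt (Fin M.n₁)} (o : G.Ok) (h : G.Lin p) (h2 : G.ρ + 6 ≤ p.z₃)
    (h3 : ∀ j, G.ρ + 8 ≤ p.W j) (v : G.X' p.W) :
    L2 v = (fun j => ((G.Tj p j (v.1 j)).1 - G.fc _ * (G.Tj p j (v.1 j)).1, 0),
      fun l => G.TS l (v.2 l) - G.fk * G.TS l (v.2 l)) := by
  have a := o.ld.lo
  have b := o.ld.hi
  unfold L2 LD.toY
  congr 1 <;> funext j
  · congr 1
    refine toW_eq (ret_cl (by linarith [h3 j])) fun z hz θ => ?_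
    simp only [P218W.W.sub_apply, P218W.W.mul_apply, fc_apply hz, (h.tc j _).2 z hz]
    by_cases e : z < G.ρ + 6
    · simp only [Vj_near (y := (z, θ)) (z₃ := p.z₃) (Z := p.W j) o.ld.geo
        (by linarith [hz.1]) e (by linarith) (by linarith [h3 j]), DL, LD.jx]
      push_cast
      ring
    · simp [chn_eq, cut_one (a := G.ρ + 5) (z := z) (by linarith)]
  · refine toW_eq (ret_max _) fun z hz θ => ?_
    have e : ∀ i, jk z (fun i => LD.jx v (.inr j) i (z, θ)) i = (v.2 j).1 i (z, θ) := fun i => by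
      have z0 : (z : ℂ) ≠ 0 := by exact_mod_cast (G.hz.trans_le hz).ne'
      have := (v.2 j).2.2.1 z hz θ
      fin_cases i <;> simp [jk, LD.jx, P218W.wj, P218W.omK, z0, this]
      ring
    simp only [P218W.W.sub_apply, P218W.W.mul_apply, fk_apply hz, o.cone j _ (z, θ) hz, DL,
      funext e]
    push_cast
    ring

end GD

end Vale.Agent.P218I
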