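import Vale.Agent.P218N.Spec3
import Vale.Agent.P218I.Bas
import Vale.Agent.P218L.Slow

/-! The row `ADN`: the ambient fields in the near zone. -/

set_option linter.all false

open Set Filter Topology
open scoped ContDiff RealInnerProductSpace Real ComplexConjugate ComplexOrder

noncomputable section

namespace Vale.Agent.P218I

open Vale.Agent.P218T Vale.Agent.P218L
open Vale.Agent.P218H (op sa st st_smooth st_zero st_ev_zero st_ev_one)
open Vale.Agent.P218N (V3 cx nu cr dt pd smul_dt add_dt)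
open Vale.Agent.P218T.Frm (dt_cx)

namespace Adn

variable {M : Mod} {x : E3} {e : M.I} {c : ℝ}

theorem star_cx (v : E3) : star (cx v) = cx v := funext fun i => Complex.conj_ofReal _

theorem star_lift {V : Type} [NormedAddCommGroup V] [StarAddMonoid V] {F : ℝ × ℝ → V}
    (h : ∀ y, star (F y) = F y) (x : E3) : star (M.lift e F x) = M.lift e F x := by
  rw [← Mod.lift_map star (star_zero _)]
  simp only [h]

theorem sum_dt {ι : Type} (s : Finset ι) (f : ι → V3) (b : V3) :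
    dt (∑ i ∈ s, f i) b = ∑ i ∈ s, dt (f i) b := by
  simp only [dt, Finset.sum_apply, Finset.sum_mul, Finset.sum_add_distrib]

section
variable (g : M.Geo)
include g

/-- the switch of an end vanishes near `x`, or `x` is on the end -/
theorem dich (hc : M.R + 1 ≤ c) (hx : x ∈ M.S) (e : M.I) :
    (∀ᶠ y in 𝓝 x, st c y * M.lift e (fun _ => (1 : ℝ)) y = 0) ∨
      ∃ p : ℝ × ℝ, M.R < p.1 ∧ M.P e p = x := by
  rcases lt_or_ge ‖x‖ c with h | h
  · exact .inl ((st_ev_zero (by linarith [g.one.1]) h).mono fun y hy => by rw [hy, zero_mul])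
  · obtain ⟨e', p, hp, rfl⟩ := g.cov x hx (by linarith)
    by_cases k : e = e'
    · exact .inr ⟨p, hp, k ▸ rfl⟩
    · exact .inl ((g.lift_other (F := fun _ => (1 : ℝ)) k hp).mono fun y hy => by
        rw [hy, mul_zero])

theorem cd_sw (hc : M.R + 1 ≤ c) (hx : x ∈ M.S) (e : M.I) :
    ContDiffAt ℝ ∞ (fun y => st c y * M.lift e (fun _ => (1 : ℝ)) y) x := by
  rcases dich g hc hx e with h | ⟨p, hp, rfl⟩
  · exact contDiffAt_const.congr_of_eventuallyEq h
  · exact (st_smooth c).contDiffAt.mul (g.lift_cd (fun _ _ _ => rfl) hp le_rfl contDiffAt_const)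

theorem one_ev {p : ℝ × ℝ} (hp : M.R < p.1) :
    M.lift e (fun _ => (1 : ℝ)) =ᶠ[𝓝 (M.P e p)] fun _ => 1 := by
  filter_upwards [g.P_nhds hp univ_mem]
  rintro _ ⟨a, ha, rfl⟩
  exact g.lift_Ph (fun _ _ _ => rfl) ha.2

theorem per_er (j : Fin M.n₁) : Per M.R fun y => cx (eR (M.Q j) y.2) := fun z θ _ =>
  congrArg cx (g.per_nE (.inl j) θ)

theorem per_r (j : Fin M.n₁) : Per M.R fun y => ((√2 + M.f j y : ℝ) : ℂ) := fun z θ _ => by
  simp only [(g.ended.cyl j).per]

theorem per_q (e : M.I) : Per M.R fun y => (q M e y : ℂ) := (g.per_qn e).comp _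

theorem per_n (l : Fin M.n₂) : Per M.R fun y => ((q M (.inr l) y : ℂ))⁻¹ • cx (M.n l y.2) :=
  fun z θ hz => by simp only [g.per_qn _ z θ hz, (g.link l).per_n]

theorem q_ne (e : M.I) {p : ℝ × ℝ} (hp : M.R < p.1) : (q M e p : ℂ) ≠ 0 := by
  exact_mod_cast g.qn_ne e hp

theorem sqrt_VS (j : Fin M.n₁) (y : E3) : Complex.sqrt (M.lift (.inl j) (VS (M.f j)) y) =
    M.lift (.inl j) (fun y => ((√2 + M.f j y : ℝ) : ℂ)) y := by
  rw [← Mod.lift_map Complex.sqrt (by simp), Mod.lift_congr fun p hp => ?_]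
  rw [VS, Complex.sqrt_of_nonneg (Complex.zero_le_real.2 (sq_nonneg _)), Complex.ofReal_re,
    Real.sqrt_sq (by linarith [(g.r_mem (i := j) hp).1])]

end

variable {k : ℕ} {G : GD M k} (o : G.Ok) {Z : Fin M.n₁ → ℝ}
include o

theorem b_real (i) (x : E3) : conj (G.b i x) = G.b i x := by
  rw [LD.b, Complex.real_smul, map_mul, Complex.conj_ofReal, ← Mod.lift_map conj (map_zero _)]
  simp only [← P218H.cm_conj, Slow.ph_real o.ld i]

theorem re : (G.ad Z).Re := by
  refine ⟨funext fun x => ?_, funext fun j => funext (star_lift fun y => Complex.conj_ofReal _),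
    funext fun j => funext (star_lift fun y => Complex.conj_ofReal _),
    funext fun j => funext (star_lift fun y => Complex.conj_ofReal _),
    funext fun j => funext (star_lift fun y => star_cx _), funext fun j => funext fun l => ?_,
    funext fun j => star_cx _, funext fun i => funext (b_real o i)⟩
  · simp only [GD.ad, Pi.star_apply, star_add, star_sum, star_smul, nu, star_cx, RCLike.star_def,
      Complex.conj_ofReal]
    congr 1
    refine Finset.sum_congr rfl fun l _ => congrArg _ (star_lift (fun y => ?_) x)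
    simp [star_cx]
  · obtain ⟨v, hv⟩ := Slow.om_eq (M.Q j) l
    exact (congrArg star hv).trans ((star_cx v).trans hv.symm)

theorem unit (hx : x ∈ M.S) : dt ((G.ad Z).a x) (nu M.w x) + ∑ j, (G.ad Z).lam j x /
    (2 * (G.ad Z).rS j x * (G.ad Z).q j x) * dt ((G.ad Z).er j x) (nu M.w x) = 1 := by
  have g := o.ld.geo
  have hc : M.R + 1 ≤ G.ρ + 1 := by linarith [o.ld.lo, o.ld.hi]
  have h0 : dt (nu M.w x) (nu M.w x) = 1 := by
    rw [nu, dt_cx, real_inner_self_eq_norm_sq, g.norm_nu hx]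
    simp
  have h1 : ∀ l, (G.lam (.inr l) x : ℂ) * dt (M.lift (.inr l)
      (fun y => ((q M (.inr l) y : ℂ))⁻¹ • cx (M.n l y.2)) x) (nu M.w x) = G.lam (.inr l) x := by
    intro l
    rcases dich g hc hx (.inr l) with h | ⟨p, hp, rfl⟩
    · rw [GD.lam, h.self_of_nhds]
      simp
    · rw [g.lift_P (per_n g l) hp, smul_dt, nu, dt_cx, real_inner_comm]
      exact mul_right_eq_self₀.2 (.inl (inv_mul_cancel₀ (q_ne g _ hp)))
  have h2 : ∀ j, (G.ad Z).lam j x / (2 * (G.ad Z).rS j x * (G.ad Z).q j x) *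
      dt ((G.ad Z).er j x) (nu M.w x) = G.lam (.inl j) x := by
    intro j
    simp only [GD.ad]
    rcases dich g hc hx (.inl j) with h | ⟨p, hp, rfl⟩
    · rw [GD.lam, h.self_of_nhds]
      simp
    · rw [g.lift_P (per_er g j) hp, g.lift_P (per_r g j) hp, g.lift_P (per_q g _) hp, nu, dt_cx,
        real_inner_comm, g.nu_er hp, Complex.ofReal_mul, Complex.ofReal_mul]
      exact div_mul_cancel₀ _ (mul_ne_zero (mul_ne_zero two_ne_zero
        (Complex.ofReal_ne_zero.2 (g.r_ne hp))) (q_ne g _ hp))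
  simp only [h2]
  simp only [GD.ad, add_dt, smul_dt, sum_dt, h0, h1, Fintype.sum_sum_type]
  push_cast
  ring

theorem sh_ev (hZ : ∀ j, G.ρ + 12 ≤ Z j) (hx : x ∈ M.S) (h : ‖x‖ ≤ G.ρ + 9) (j : Fin M.n₁) :
    (G.ad Z).sh j =ᶠ[𝓝 x] fun _ => 0 := by
  have g := o.ld.geo
  have s : Ici (Z j - 2) ⊆ Ioi M.R := fun z hz =>
    mem_Ioi.2 (by linarith [mem_Ici.1 hz, hZ j, o.ld.lo, o.ld.hi])
  refine g.lift_ev_zero' isClosed_Ici s (fun y _ hy => cut_zero (not_le.1 hy).le) hx fun k => ?_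
  obtain ⟨z, hz, l, -⟩ := g.norm_En s k
  linarith [mem_Ici.1 hz, hZ j]

theorem nr (hZ : ∀ j, G.ρ + 12 ≤ Z j) (hx : x ∈ M.S) (h : ‖x‖ ≤ G.ρ + 9) : (G.ad Z).Nr x := by
  have g := o.ld.geo
  have hc : M.R + 1 ≤ G.ρ + 1 := by linarith [o.ld.lo, o.ld.hi]
  have cl := cd_sw g hc hx
  have cn : ContDiffAt ℝ ∞ (nu M.w) x := (P218N.Lp.cxL.contDiff.comp g.tb.snu).contDiffAt
  have cr : ∀ {f : E3 → ℝ}, ContDiffAt ℝ ∞ f x → ContDiffAt ℝ ∞ (fun y => (f y : ℂ)) x :=
    fun h => Complex.ofRealCLM.contDiff.contDiffAt.comp x h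
  obtain ⟨C, hC⟩ := o.cor.yy
  refine ⟨⟨g.smw.contDiffAt, ?_, fun j => cl _, fun j => cd_sw g (by linarith) hx _,
    fun j => contDiffAt_const.congr_of_eventuallyEq (sh_ev o hZ hx h j), fun j => cl _,
    fun j => (dich g hc hx (.inl j)).imp id ?_, ?_, g.w_zero hx,
    .of_forall fun y hy => g.shr.shrinker y ((g.shr.mem_iff y).2 hy),
    .of_forall fun y hy => unit o ((g.shr.mem_iff y).2 hy), fun j l hl => ?_⟩, fun f hf e => ?_,
    sh_ev o hZ hx h, fun i => (o.cor.bb i).1.contDiffAt, fun i => (o.cor.psi i).1.contDiffAt⟩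
  · refine ((cr (contDiffAt_const.sub (ContDiffAt.sum fun e _ => cl e))).smul cn).add
      (ContDiffAt.sum fun l _ => ?_)
    rcases dich g hc hx (.inr l) with k | ⟨p, hp, rfl⟩
    · exact (contDiffAt_const (c := 0)).congr_of_eventuallyEq (k.mono fun y hy => by
        simp only [GD.lam, hy, Complex.ofReal_zero, zero_smul])
    · exact (cr (cl _)).smul (g.lift_cd (per_n g l) hp le_rfl
        (((cd_ofReal (g.cd_qn _ hp)).inv (q_ne g _ hp)).smul
          (cd_cxv ((g.link l).smooth_n.contDiffAt.comp p contDiffAt_snd))))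
  · rintro ⟨p, hp, rfl⟩
    refine ⟨g.lift_cd (g.per_VS j _) hp le_rfl (g.cd_VS j).contDiffAt,
      g.lift_cd (per_r g j) hp le_rfl (cd_ofReal (contDiffAt_const.add (g.cd_f j).contDiffAt)),
      g.lift_cd (per_q g _) hp le_rfl (cd_ofReal (g.cd_qn _ hp)),
      g.lift_cd (per_er g j) hp le_rfl (cd_cxv ((Cy.eR_sm _).contDiffAt.comp p contDiffAt_snd)),
      (g.lift_P (per_q g _) hp).trans_ne (q_ne g _ hp), ?_, .of_forall (sqrt_VS g j)⟩
    rw [show (G.ad Z).VS j _ = _ from g.lift_P (g.per_VS j _) hp]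
    exact Complex.ofReal_mem_slitPlane.2 (pow_pos (by linarith [(g.r_mem (i := j) hp).1]) 2)
  · exact (g.smw.continuous.abs.continuousAt.eventually_lt continuousAt_const (g.w_lt hx)).mono
      g.shr.norm_grad
  · refine (hC (j, l) x hx).2.1.symm.trans (congrArg (op (sa M.w) · x) (funext fun y => ?_))
    simp [LD.core, LD.Y, LD.ch, LD.ph, LD.rot, GD.ad, hl, mul_assoc]
  · refine (P218H.geos 3 _ _ _ _ g.shr g.smw).2.1.int x hx f hf ?_
    rwa [show M.S = {x | M.w x = 0} from Set.ext g.shr.mem_iff]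

theorem b_zero (hx : x ∈ M.S) (i) (h : Slow.rc G.toLD i + 1 < ‖x‖) : G.b i x = 0 :=
  by_contra fun k => h.not_ge (Slow.b_ne o.ld i hx k).2.2

theorem far (hx : x ∈ M.S) (h : G.ρ + 2 < ‖x‖) (m) (y : G.XX Z × Pm (Fin M.n₁)) :
    GD.Far m y x := by
  have g := o.ld.geo
  have r := o.ld.lo
  have r' := o.ld.hi
  refine ⟨fun l => ?_, ?_⟩
  · obtain ⟨e, p, hp, rfl⟩ := g.cov x hx (by linarith)
    have s := st_ev_one (c := G.ρ + 1) (by linarith [g.one.1]) (by linarith : _ < ‖M.P e p‖)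
    by_cases k : .inl l = e
    · subst k
      rw [P218N.pd_congr (g := fun _ => 1), P218N.pd_const]
      filter_upwards [s, one_ev g hp] with y h1 h2
      simp only [GD.ad, GD.lam, h1, h2, mul_one]
    · rw [P218N.pd_congr (g := fun _ => 0), P218N.pd_const]
      filter_upwards [g.lift_other (F := fun _ => (1 : ℝ)) k hp] with y h2
      simp only [GD.ad, GD.lam, h2, mul_zero]
  · have h1 : ∀ j, G.b (j, 0) x = 0 := fun j => b_zero o hx _ (by simp [Slow.rc]; linarith)
    have h2 : ∀ i, G.ψ i x = 0 := fun i => o.ld.supp i x (by linarith)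
    simp [P218N.AD.lag, GD.ad, h1, h2]

end Adn

open Adn in
/-- **ADN** -/
theorem adn : ADN := fun M g => ⟨0, fun k G _ o Z _ hZ _ => ⟨re o, fun x hx => ⟨nr o hZ hx,
  fun h l => by rw [LD.rot, st_zero (by linarith [o.ld.hi, G.hz]) h, zero_mul], far o hx,
  fun h i => b_zero o hx i (by linarith [(Slow.rc_bd (L := G.toLD) i).2])⟩⟩⟩

end Vale.Agent.P218I
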