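import Vale.Agent.P218I.Inst
import Vale.Agent.P218T.Fam
import Vale.Agent.P218T.Asm
import Vale.Agent.P218Q.All
import Vale.Agent.P218G.Hlf
import Vale.Agent.P218S.Main
import Vale.Agent.P218D.All

/-!
# P218: uniqueness of tangent flows for models with cylindrical and conical ends
-/

namespace Vale.Agent.P218I

open Vale.Agent.P218T

theorem tstar : TStar := tstar_of R.inst fam (fun α ι _ _ => P218Q.nf α ι)
  (fun α ι _ _ => P218G.hlf α ι P218S.saddle) asm P218D.sl_main

end Vale.Agent.P218I
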