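import Vale.Agent.P218I.AsmB

/-!
# P218, INST: all fields
-/

open MeasureTheory Set Filter Topology
open scoped ContDiff Real

noncomputable section

namespace Vale.Agent.P218I

open Vale.Agent.P218T Vale.Agent.P218L Vale.Agent.P218M GD
open Vale.Agent.P218H (tri tri_le_iff le_tri)
open Vale.Agent.P218W (jet)

theorem jet_ev0 {F : ℝ × ℝ → ℂ} {y : ℝ × ℝ} (h : F =ᶠ[𝓝 y] fun _ => 0) (i : Fin 6) :
    jet F i y = 0 := by
  rw [jet_congr h]
  fin_cases i <;> simp [jet]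

variable {M : Mod} {k : ℕ} {G : GD M k}

theorem u0j_top {z₃ z : ℝ} (h0 : 0 < z₃) (h1 : 2 * z₃ < z) (h2 : G.ρ + 7 < z) (j i θ) :
    G.u0j z₃ j i (z, θ) = 0 := by
  have e : ∀ᶠ q : ℝ × ℝ in 𝓝 (z, θ), cut 1 (q.1 / z₃) = 1 ∧ cut (G.ρ + 6) q.1 = 1 := by
    filter_upwards [continuous_fst.tendsto _ (lt_mem_nhds h1),
      continuous_fst.tendsto _ (lt_mem_nhds h2)] with q a b
    exact ⟨cut_one ((le_div_iff₀ h0).2 (by linarith [show 2 * z₃ < q.1 from a])),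
      cut_one (by linarith [show G.ρ + 7 < q.1 from b])⟩
  rw [u0j, jet_ev0 (e.mono fun q h => by simp [h.1, h.2]),
    funext (jet_ev0 (e.mono fun q h => by simp [h.1]))]
  fin_cases i <;> simp [Frm.jm]

theorem usf_top {z₃ Z : ℝ} (h : 0 < Z) (j i θ) : jet (usf M z₃ j Z) i (Z, θ) = 0 := by
  refine jet_ev0 ?_ i
  filter_upwards [continuous_fst.tendsto (Z, θ) (lt_mem_nhds (show 3 * Z / 4 < Z by linarith))]
    with q a
  simp [usf, cut_one (a := 2) (z := 4 * q.1 / Z)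
    ((le_div_iff₀ h).2 (by linarith [show 3 * Z / 4 < q.1 from a]))]

theorem lin_of (pk : RowP fun _ _ G p => ∃ T, PK (G := G) p T) (eqn : EQN) (zon : ZON) (u0v : U0V)
    (usv : USV) (xiv : XIV) (uzl : UZL) : RowP fun _ _ G p => (G.obj p.toCs).EQV p ∧
      (G.obj p.toCs).UZ p ∧ (G.obj p.toCs).FN p ∧ (G.obj p.toCs).USS p := by
  refine (((((pk.and eqn).and zon).and u0v).and usv).and (xiv.and uzl)).mono ?_
  rintro M k G o ⟨⟨⟨⟨⟨pk, eqn⟩, zon⟩, u0v⟩, usv⟩, ⟨C, xiv⟩, uzl⟩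
  obtain ⟨D, D1, z⟩ := ev_fix (Q := fun D p => ∀ U, zn U ≤ D * G.Nh p U)
    (zon.mono fun _ h U => (h.1 U).2) (fun _ _ _ _ _ _ _ _ _ _ _ _ _ h => h)
  filter_upwards [pk, eqn, z, u0v, usv, uzl, ev_W fun _ => G.ρ + 9,
    ev_cs (ev₀_K (max (|C| * D) ‖G.ka‖))] with p ⟨T, h⟩ eqn z u0v usv uzl hW hK
  replace xiv := xiv p.W fun j => (hW j).1
  rw [max_le_iff] at hK
  have K := h.K3
  have Z : 1 ≤ p.Z := by linarith [h.Z]
  have P : ∀ {a b : ℝ}, 0 ≤ b → a ≤ p.Z ^ 20 * b → a ≤ p.Z ^ 100 * b := fun b0 e =>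
    e.trans (mul_le_mul_of_nonneg_right (pow_le_pow_right₀ Z (by simp)) b0)
  refine ⟨fun U => ⟨P (apply_nonneg _ _) (eqn.1 U).1, P (norm_nonneg _) (eqn.1 U).2.1,
    P (apply_nonneg _ _) (eqn.1 U).2.2.1, P (norm_nonneg _) (eqn.1 U).2.2.2⟩,
    fun c' => ⟨?_, (uzl.1 c').2.2.2⟩, fun U => ⟨?_, ?_, ?_⟩, ?_, ?_, neg_zero, funext fun j => ?_⟩
  · have a : 0 ≤ p.K * ‖c'‖ := by positivity
    refine tri_le_iff.2 ⟨norm_zero.trans_le a, prs_le (fun j => ?_) (norm_zero.trans_le a),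
      max_le ((pi_norm_le_iff_of_nonneg a).2 fun i => ?_) (norm_zero.trans_le a)⟩
    · refine (map_smul_eq_mul _ (c' j) (G.u0 p.W p.z₃ j)).trans_le ?_
      rw [mul_comm]
      exact mul_le_mul (u0v j).2 (norm_le_pi_norm c' j) (norm_nonneg _) (by linarith)
    · have := (norm_le_pi_norm c' i.1).trans (le_mul_of_one_le_left (norm_nonneg _)
        (show 1 ≤ p.K by linarith))
      by_cases e : i.2 = 0 <;> simp [GD.obj, GD.U0, e, this, a]
  · calc _ ≤ C * zn U := (xiv U).1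
      _ ≤ |C| * (D * G.Nh p U) :=
          mul_le_mul (le_abs_self C) (z U) (norm_nonneg _) (abs_nonneg C)
      _ ≤ _ := by rw [← mul_assoc]; exact mul_le_mul_of_nonneg_right hK.1 (apply_nonneg _ _)
  · exact (norm_neg _).trans_le (((norm_snd_le U.2.2).trans (le_Nn U).2.2.2.2).trans
      (le_mul_of_one_le_left (apply_nonneg _ _) (by linarith)))
  · refine (pi_norm_le_iff_of_nonneg (mul_nonneg (by linarith) (apply_nonneg _ _))).2 fun j =>
      (norm_mul_le (G.ka j) (U.2.2.1 (j, 0))).trans ?_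
    exact mul_le_mul ((norm_le_pi_norm G.ka j).trans hK.2) (((norm_le_pi_norm _ _).trans
      (norm_fst_le U.2.2)).trans (le_Nn U).2.2.2.2) (norm_nonneg _) (by linarith)
  · have r := h.r0
    have a := sq_nonneg p.r
    have : p.r < 1 := h.r.trans_lt (by
      rw [div_lt_one (by positivity)]
      nlinarith [one_le_pow₀ (n := 7) (show 1 ≤ p.K by linarith)])
    exact (tri_le_iff.2 ⟨norm_zero.trans_le a, prs_le (fun j => (usv j).2) (norm_zero.trans_le a),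
      norm_zero.trans_le a⟩).trans_lt (by nlinarith)
  · exact norm_le_zero_iff.1 ((xiv _).1.trans_eq (mul_eq_zero_of_right _ uzl.2.1))
  · exact mul_zero _

/-- **all fields** -/
theorem all_of (eqn : EQN) (zon : ZON) (u0v : U0V) (usv : USV) (xiv : XIV) (uzl : UZL) (qc : QC)
    (qn : QN) (fara : FARA) (farb : FARB) (farc : FARC) (fard : FARD) (fare : FARE) (fark : FARK)
    (bca : BCA) (bcb : BCB) (hola : Fld Obj.HOLA) (holb : Fld Obj.HOLB) (fv : Fld Obj.FV)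
    (cj : Fld Obj.CJ) (nc : Fld Obj.NC) (rp : Fld Obj.RP) (prof : Fld Obj.PROF)
    (dfv : Fld Obj.DFV) (mid : Fld Obj.MID) : Fld Obj.All := by
  have pk := pk_of zon qc qn fara fark bca
  refine (((((pk.and (lin_of pk eqn zon u0v usv xiv uzl)).and ((eqn.and u0v).and (usv.and uzl))).and
    ((farb.and farc).and (fard.and fare))).and ((bca.and bcb).and (hola.and holb))).and
    (((fv.and cj).and (nc.and rp)).and ((prof.and dfv).and mid))).mono ?_
  rintro M k G o ⟨⟨⟨⟨⟨pk, li⟩, ⟨eqn, u0v⟩, usv, uzl⟩, ⟨farb, farc⟩, fard, fare⟩, ⟨bca, bcb⟩, hola,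
    holb⟩, ⟨⟨fv, cj⟩, nc, rp⟩, ⟨prof, dfv⟩, mid⟩
  filter_upwards [pk, li, eqn, u0v, usv, uzl, farb, farc, fard, fare, bca, bcb, hola, holb, fv, cj,
    nc, rp, prof, dfv, mid, ev_W fun a => max (2 * a.z₃ + 1) (G.ρ + 8), ev_cs (ev₀_z fun _ _ => 1),
    ev_K₂ fun _ _ => 0]
    with p ⟨T, h⟩ li eqn u0v usv uzl farb farc fard fare bca bcb hola holb fv cj nc rp prof dfv mid
      hW hz hK
  simp only [max_le_iff] at hW
  have t : ∀ j, p.W j ∈ Icc G.z₀ (p.W j) := fun j => ⟨by linarith [(hW j).1.2, o.ld.hi], le_rfl⟩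
  refine ⟨li.1, h.inj, h.holf ⟨fun U => (eqn.1 U).1, eqn.2⟩, hola, holb,
    h.nl farb fun j => (bca j).2, h.res farc fun j => ((bcb j).1 0 fun _ => rfl).1, h.ia,
    h.der (fun c' => (li.2.1 c').1)
      (fun c' => ⟨(uzl.1 c').1, (uzl.1 c').2.1, (uzl.1 c').2.2.1⟩) fard
      fun j U hU c' => (bcb j).2 U hU _ c' fun θ => ?_,
    li.2.1, li.2.2.1, fun y _ a e => congrArg (fun x => x.2.2.2) e, fv, cj, nc, rp, prof, dfv,
    li.2.2.2, fun c0 => ?_, mid⟩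
  · exact mul_eq_zero_of_right (c' j) (((u0v j).1 3 _ (t j) θ).trans (u0j_top (by linarith)
      (by linarith [(hW j).1.1]) (by linarith [(hW j).1.2]) j 3 θ))
  · have K := h.K3
    have Z := h.Z0
    have := h.val li.2.2.2.1 uzl.2.1 uzl.2.2.1 uzl.2.2.2.1 uzl.2.2.2.2 (by positivity) (fare c0)
      fun j => ((bcb j).1 _ fun θ => ((usv j).1 3 _ (t j) θ).trans
        (usf_top (by linarith [(hW j).1.1]) j 3 θ)).2 c0
    refine (congrArg (G.Nh p) (h.S_apply _)).trans_le ((h.bh _).trans ?_)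
    calc _ ≤ G.C' * (3 * (p.K₂ / p.K / p.Z ^ 2)) :=
          mul_le_mul_of_nonneg_left this (by linarith [o.one])
      _ = 3 * G.C' * (p.K₂ / p.K / p.Z ^ 2) := by ring
      _ ≤ p.K * (p.K₂ / p.K / p.Z ^ 2) := by gcongr; exact h.K
      _ = _ := by field_simp

end Vale.Agent.P218I
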