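import Vale.Agent.P218I.Bas

/-!
# P218, INST: the equation as the gluing system plus a remainder
-/

open MeasureTheory Set Filter Topology
open scoped ContDiff Real

noncomputable section

namespace Vale.Agent.P218I

open Vale.Agent.P218T Vale.Agent.P218L Vale.Agent.P218M
open Vale.Agent.P218H (tri HH EndD tri_le_iff le_tri)
open Vale.Agent.P218W (W jet low toW cl WI XE YE XK)

theorem toW_zero {s : Set ℝ} {r : ℝ → ℝ} {F : ℝ × ℝ → ℂ} {z θ : ℝ} (hz : z ∈ s)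
    (h : F (z, θ) = 0) : toW s r F (z, θ) = 0 := by
  unfold toW
  split_ifs with e
  exacts [(e.choose_spec z hz θ).trans h, rfl]

theorem fderiv_ker {A B C : Type} [NormedAddCommGroup A] [NormedSpace ℂ A] [NormedAddCommGroup B]
    [NormedSpace ℂ B] [NormedAddCommGroup C] [NormedSpace ℂ C] (L : B →L[ℂ] C) {F : A → B}
    (h : ∀ y, L (F y) = 0) (y y' : A) : L (fderiv ℂ F y y') = 0 := by
  by_cases d : DifferentiableAt ℂ F y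
  · have := (L.hasFDerivAt.comp y d.hasFDerivAt).fderiv
    rw [show L ∘ F = fun _ => 0 from funext h, fderiv_fun_const] at this
    exact (congrArg (fun A => A y') this).symm
  · simp [fderiv_zero_of_not_differentiableAt d]

namespace GD

variable {M : Mod} {k : ℕ} {G : GD M k} {Z : Fin M.n₁ → ℝ} {p : Pt (Fin M.n₁)}

theorem est {qq : ∀ j, Seminorm ℂ (YE G.z₀ (Z j))} {a : ℝ} {d₁ : HH α₀ E3} {d₂ : G.Y' Z}
    {g : ∀ j, WI G.z₀ (Z j)} {g' : Fin M.n₁ → Fin 3 → ℂ} {g'' : Fin M.n₂ → W (max G.z₀)}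
    (h1 : ‖d₁‖ ≤ a) (h2 : prs qq d₂ ≤ a) (h3 : ∀ j, qq j (g j, 0) ≤ a)
    (h4 : ∀ j, qq j (0, g' j) ≤ a) (h5 : ∀ l, ‖g'' l‖ ≤ a) :
    tri (prs qq) ((-d₁, d₂ + (fun j => (g j, g' j), g''), 0) : G.YY Z) ≤ 3 * a := by
  have a0 := (norm_nonneg _).trans h1
  refine tri_le_iff.2 ⟨by rw [norm_neg]; linarith, (map_add_le_add _ _ _).trans ?_, by simpa⟩
  have : prs qq ((fun j => (g j, g' j), g'') : G.Y' Z) ≤ 2 * a := prs_le (fun j => by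
    have := map_add_le_add (qq j) (g j, 0) (0, g' j)
    simp only [Prod.mk_add_mk, add_zero, zero_add] at this
    linarith [h3 j, h4 j]) (((pi_norm_le_iff_of_nonneg a0).2 h5).trans (by linarith))
  linarith

theorem N2_supp (m : Fin M.n₁ → ℝ) (y y' : G.XX Z × Pm (Fin M.n₁)) (o : G.Ok) (j : Fin M.n₁) :
    ((fderiv ℂ (N2 m) y y').1 j).2 = 0 ∧
      ∀ z ∈ Icc (G.ρ + 6) (Z j), ∀ θ, ((fderiv ℂ (N2 m) y y').1 j).1 (z, θ) = 0 :=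
  ⟨fderiv_ker (F := N2 m) (.snd ℂ _ _ ∘L .proj (φ := fun j => YE G.z₀ (Z j)) j ∘L
      .fst ℂ _ (Fin M.n₂ → W (max G.z₀))) (fun _ => rfl) y y', fun z hz θ =>
    have a : z ∈ Icc G.z₀ (Z j) := ⟨by linarith [hz.1, o.ld.hi], hz.2⟩
    have b : G.chn z = 0 := by simp [chn_eq, cut_one (a := G.ρ + 5) (z := z) (by linarith [hz.1])]
    fderiv_ker (F := N2 m) ((P218W.W.ev (z, θ)).toContinuousLinearMap ∘L .fst ℂ _ _ ∘L
      .proj (φ := fun j => YE G.z₀ (Z j)) j ∘L .fst ℂ _ (Fin M.n₂ → W (max G.z₀)))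
      (fun _ => toW_zero a (by simp [b])) y y'⟩

variable (p) in
/-- the remainder -/
def Rr (y : G.XX p.W × Pm (Fin M.n₁)) : G.YY p.W :=
  (-N1 p.m y, N2 p.m y + (fun j => (n3c p.z₃ p.m j y - G.fc _ * (G.Tj p j (y.1.2.1.1 j)).1,
    Bj p.J₀ p.J p.m y j - low (p.W j) ((y.1.2.1.1 j).1 3)),
    fun l => n3k l (y.1.2.1.2 l) - G.fk * G.TS l (y.1.2.1.2 l)), 0)

/-- the unknown of a cylindrical end -/
def pe (j : Fin M.n₁) : G.XX Z × Pm (Fin M.n₁) →L[ℂ] XE G.z₀ (Z j) :=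
  .proj (φ := fun j => XE G.z₀ (Z j)) j ∘L .fst ℂ _ _ ∘L .fst ℂ _ _ ∘L .snd ℂ _ _ ∘L .fst ℂ _ _

/-- the unknown of a conical end -/
def pk (l : Fin M.n₂) : G.XX Z × Pm (Fin M.n₁) →L[ℂ] XK G.z₀ :=
  .proj l ∘L .snd ℂ _ _ ∘L .fst ℂ _ _ ∘L .snd ℂ _ _ ∘L .fst ℂ _ _

theorem dRr {y : G.XX p.W × Pm (Fin M.n₁)} (h1 : DifferentiableAt ℂ (N1 p.m) y)
    (h2 : DifferentiableAt ℂ (N2 p.m) y) (h3 : ∀ j, DifferentiableAt ℂ (n3c p.z₃ p.m j) y)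
    (h4 : ∀ j, DifferentiableAt ℂ (fun y => Bj p.J₀ p.J p.m y j) y)
    (h5 : ∀ l, DifferentiableAt ℂ (n3k l) (y.1.2.1.2 l)) : DifferentiableAt ℂ (Rr p) y ∧ ∀ y',
    fderiv ℂ (Rr p) y y' = (-fderiv ℂ (N1 p.m) y y', fderiv ℂ (N2 p.m) y y' +
      (fun j => (fderiv ℂ (n3c p.z₃ p.m j) y y' - G.fc _ * (G.Tj p j (y'.1.2.1.1 j)).1,
        fderiv ℂ (fun y => Bj p.J₀ p.J p.m y j) y y' - low (p.W j) ((y'.1.2.1.1 j).1 3)),
      fun l => fderiv ℂ (n3k l) (y.1.2.1.2 l) (y'.1.2.1.2 l) - G.fk * G.TS l (y'.1.2.1.2 l)), 0) := by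
  have a := fun j => ((h3 j).hasFDerivAt.sub (ContinuousLinearMap.mul ℂ _ (G.fc (p.W j)) ∘L
    .fst ℂ _ _ ∘L G.Tj p j ∘L pe j).hasFDerivAt).prodMk ((h4 j).hasFDerivAt.sub
      (low (p.W j) ∘L .proj (φ := fun _ => WI G.z₀ (p.W j)) 3 ∘L (XE G.z₀ (p.W j)).subtypeL ∘L
        pe j).hasFDerivAt)
  have b := fun l => (HasFDerivAt.comp y (g := n3k l) (h5 l).hasFDerivAt (pk l).hasFDerivAt).sub
    (ContinuousLinearMap.mul ℂ _ G.fk ∘L G.TS l ∘L pk l).hasFDerivAt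
  have c : HasFDerivAt (Rr p) _ y := h1.hasFDerivAt.neg.prodMk ((h2.hasFDerivAt.add
    ((hasFDerivAt_pi.2 a).prodMk (hasFDerivAt_pi.2 b))).prodMk (hasFDerivAt_const 0 y))
  exact ⟨c.differentiableAt, fun y' => by rw [c.fderiv]; rfl⟩

/-- the gluing system at a base point -/
structure TT (p : Pt (Fin M.n₁)) (T : G.XX p.W ≃L[ℂ] G.YY p.W) : Prop where
  S : G.SS p.z₃ p.W p.c = T.symm
  bn : ∀ y, G.Nn p (T.symm y) ≤ G.C' * tri (G.qn p.W p.c) y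
  bh : ∀ y, G.Nh p (T.symm y) ≤ G.C' * tri (G.qh p.W p.c) y
  eq : ∀ U, T U = (L1 U, G.inj _ (G.cC U.1) + L2 U.2.1 +
    (fun j => (G.fc _ * (G.Tj p j (U.2.1.1 j)).1, low (p.W j) ((U.2.1.1 j).1 3)),
      fun l => G.fk * G.TS l (U.2.1.2 l)), G.gam _ U.2.1 + G.Mm U.2.2.1, G.AA _ U)
  aa : ∀ U : G.XX p.W, U.1 = 0 → G.AA _ U = 0

theorem exT (o : G.Ok) (h : G.Lin p) (h2 : G.ρ + 6 ≤ p.z₃) (h3 : ∀ j, G.ρ + 8 ≤ p.W j) :
    ∃ T, TT (G := G) p T := by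
  obtain ⟨T, s, bn, bh⟩ := h.ex
  refine ⟨T, SS_eq s, bn, bh, fun U => Prod.ext (L1_eq s U).symm (Prod.ext ?_
    (Prod.ext (s.gam U) (AA_apply s U).1.symm)), fun U e => funext fun i => ?_⟩
  · refine (s.ends U).trans ?_
    rw [L2_eq o h h2 h3, add_comm, add_assoc]
    congr 1
    refine Prod.ext (funext fun j => Prod.ext ?_ ?_) (funext fun l => ?_)
    · exact (sub_add_cancel _ _).symm
    · exact (h.tc j _).1.trans (zero_add _).symm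
    · exact (sub_add_cancel _ _).symm
  · have : wc U = fun _ => 0 := funext fun x => by
      simp [wc, e, P218H.Core.wf, P218H.avg, P218H.f2]
    simp [(AA_apply s U).2, this]

variable {T : G.XX p.W ≃L[ℂ] G.YY p.W}

theorem TT.ff (h : TT p T) (y : G.XX p.W × Pm (Fin M.n₁)) :
    FF p.z₃ p.J₀ p.J p.m y = T y.1 + Rr p y := by
  rw [h.eq]
  refine Prod.ext (sub_eq_add_neg _ _) (Prod.ext ?_ (add_zero _).symm)
  simp only [FF, Fe, Rr, Prod.mk_add_mk, add_assoc]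
  congr 2
  rw [add_left_comm]
  congr 1
  refine Prod.ext (funext fun j => Prod.ext ?_ ?_) (funext fun l => ?_) <;>
    exact (add_sub_cancel _ _).symm

theorem TT.dff (h : TT p T) {y : G.XX p.W × Pm (Fin M.n₁)} (d : DifferentiableAt ℂ (Rr p) y) :
    DifferentiableAt ℂ (FF p.z₃ p.J₀ p.J p.m) y ∧
      ∀ y', fderiv ℂ (FF p.z₃ p.J₀ p.J p.m) y y' = T y'.1 + fderiv ℂ (Rr p) y y' := by
  have c : HasFDerivAt (FF p.z₃ p.J₀ p.J p.m) _ y :=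
    (((T : G.XX p.W →L[ℂ] G.YY p.W) ∘L .fst ℂ _ (Pm (Fin M.n₁))).hasFDerivAt.add
      d.hasFDerivAt).congr_of_eventuallyEq (.of_forall h.ff)
  exact ⟨c.differentiableAt, fun y' => by rw [c.fderiv]; rfl⟩

/-- unknowns which are not seen by the linear part in the compact zone -/
theorem TT.far (h : TT p T) {U : G.XX p.W} (h0 : U.1 = 0) (h1 : L1 U = 0) (h2 : L2 U.2.1 = 0)
    (h3 : G.gam _ U.2.1 + G.Mm U.2.2.1 = 0) (h4 : U.2.1.2 = 0) (d₁ : HH α₀ E3) (d₂ : G.Y' p.W)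
    (g : ∀ j, WI G.z₀ (p.W j)) (g' : Fin M.n₁ → Fin 3 → ℂ) (g'' : Fin M.n₂ → W (max G.z₀)) :
    T U + (-d₁, d₂ + (fun j => (g j - G.fc _ * (G.Tj p j (U.2.1.1 j)).1,
      g' j - low (p.W j) ((U.2.1.1 j).1 3)), fun l => g'' l - G.fk * G.TS l (U.2.1.2 l)), 0) =
      (-d₁, d₂ + (fun j => (g j, g' j), g''), 0) := by
  rw [h.eq, h.aa U h0, h0, h1, h2, h3]
  refine Prod.ext (zero_add _) (Prod.ext ?_ (zero_add _))
  simp only [map_zero, zero_add, Prod.mk_add_mk]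
  rw [add_left_comm]
  congr 1
  refine Prod.ext (funext fun j => Prod.ext ?_ ?_) (funext fun l => ?_) <;>
    exact add_sub_cancel _ _

theorem mem_Bx (hZ : 0 < p.Z) {U : G.XX p.W} (h : G.Nn p U < p.r) : (U, bs p.c p.v) ∈ G.Bx p :=
  ⟨h, by simp [pow_pos hZ]⟩

theorem le_Nn (U : G.XX p.W) : (∀ j, pN (p.c j) G.z₀ (p.W j) (U.2.1.1 j) ≤ G.Nn p U) ∧
    (∀ j, pH (p.c j) G.z₀ (p.W j) (U.2.1.1 j) ≤ G.Nh p U) ∧ (∀ l, ‖U.2.1.2 l‖ ≤ G.Nn p U) ∧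
    (∀ l, ‖U.2.1.2 l‖ ≤ G.Nh p U) ∧ ‖U.2.2‖ ≤ G.Nh p U :=
  have a := (le_tri (G.pn p.W p.c) U).2
  have b := (le_tri (G.ph' p.W p.c) U).2
  ⟨fun j => ((le_prs U.2.1).1 j).trans a.1, fun j => ((le_prs U.2.1).1 j).trans b.1,
    fun l => (norm_le_pi_norm _ l).trans ((le_prs U.2.1).2.trans a.1),
    fun l => (norm_le_pi_norm _ l).trans ((le_prs U.2.1).2.trans b.1), b.2⟩

/-- the remainders of the compact zone in the box -/
theorem Near.ev {B : (Fin M.n₁ → ℝ) → Type} [∀ Z, NormedAddCommGroup (B Z)]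
    [∀ Z, NormedSpace ℂ (B Z)] {F : ∀ Z, (Fin M.n₁ → ℝ) → G.XX Z × Pm (Fin M.n₁) → B Z}
    {V : ∀ Z, (Fin M.n₁ → ℝ) → G.XX Z × Pm (Fin M.n₁) → Prop} (h : Near F V)
    (z : ∀ᶠ p in ev (Fin M.n₁), ∀ U : G.XX p.W, zn U ≤ p.K * G.Nn p U) :
    ∀ᶠ p in ev (Fin M.n₁), ∀ y ∈ G.Bx p, DifferentiableAt ℂ (F p.W p.m) y ∧ ‖F p.W p.m y‖ ≤ p.K ∧
      V p.W p.m y ∧ (y.2.2.2.1 = 0 → (zn y.1 = 0 → F p.W p.m y = 0) ∧
        ∀ y' : G.XX p.W × Pm (Fin M.n₁), y'.2.2.2.1 = 0 →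
          ‖fderiv ℂ (F p.W p.m) y y'‖ ≤ p.K * zn y.1 * zn y'.1) := by
  obtain ⟨r₀, C, Z₀, r0, h⟩ := h
  filter_upwards [z, ev_W fun _ => Z₀, ev_cs (ev₀_K (max 1 C)), ev_cs (ev₀_r (f := fun K => r₀ / K)
    ((eventually_gt_atTop 0).mono fun _ h => div_pos r0 h)), ev_Z fun _ _ _ => max 1 r₀⁻¹]
    with p z hW hK hr hZ y hy
  simp only [max_le_iff] at hK hZ
  have K0 := one_pos.trans_le hK.1
  have e : ‖y.2.2.2.1‖ ≤ ‖y.2 - bs p.c p.v‖ := by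
    simpa [bs] using (norm_fst_le (y.2 - bs p.c p.v).2.2).trans
      ((norm_snd_le _).trans (norm_snd_le _))
  obtain ⟨a, b, c, d⟩ := h p.W p.m hW y ((z _).trans_lt ((mul_lt_mul_of_pos_left hy.1 K0).trans_le
    ((le_div_iff₀' K0).1 hr.2))) (e.trans_lt (hy.2.trans_le (inv_le_of_inv_le₀ r0
      (hZ.2.trans (le_self_pow₀ hZ.1 (by simp))))))
  exact ⟨a, b.trans hK.2, c, fun e => ⟨(d e).1, fun y' e' => ((d e).2 y' e').trans (by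
    unfold zn; gcongr; exact hK.2)⟩⟩

end GD

end Vale.Agent.P218I
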