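import Vale.Agent.P218I.AsmA

/-!
# P218, INST: the analytic fields from the pieces
-/

open MeasureTheory Set Filter Topology
open scoped ContDiff Real

noncomputable section

namespace Vale.Agent.P218I

open Vale.Agent.P218T Vale.Agent.P218L Vale.Agent.P218M
open Vale.Agent.P218H (tri HH EndD tri_le_iff le_tri)
open Vale.Agent.P218W (W jet low toW cl WI XE YE XK)

namespace GD

variable {M : Mod} {k : ℕ} {G : GD M k} {p : Pt (Fin M.n₁)}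

/-- what is known at a base point -/
structure PK (p : Pt (Fin M.n₁)) (T : G.XX p.W ≃L[ℂ] G.YY p.W) : Prop extends TT p T where
  o : G.Ok
  K : 3 * G.C' ≤ p.K
  r0 : 0 < p.r
  r : p.r ≤ 1 / (1000 * p.K ^ 7)
  Z : p.K ≤ p.Z
  za : ∀ U, zn U ≤ p.K * G.Nn p U ∧ zn U ≤ p.K * G.Nh p U
  zb : ∀ g : G.Y' p.W,
    (∀ j, (g.1 j).2 = 0 ∧ ∀ z ∈ Icc (G.ρ + 6) (p.W j), ∀ θ, (g.1 j).1 (z, θ) = 0) →
    G.qn p.W p.c g ≤ p.K * ‖g‖ ∧ G.qh p.W p.c g ≤ p.K * ‖g‖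
  n1 : ∀ y ∈ G.Bx p, DifferentiableAt ℂ (N1 p.m) y ∧ ‖N1 p.m y‖ ≤ p.K ∧ (y.2.2.2.1 = 0 →
    (zn y.1 = 0 → N1 p.m y = 0) ∧ ∀ y' : G.XX p.W × Pm (Fin M.n₁), y'.2.2.2.1 = 0 →
      ‖fderiv ℂ (N1 p.m) y y'‖ ≤ p.K * zn y.1 * zn y'.1)
  n2 : ∀ y ∈ G.Bx p, DifferentiableAt ℂ (N2 p.m) y ∧ ‖N2 p.m y‖ ≤ p.K ∧ (y.2.2.2.1 = 0 →
    (zn y.1 = 0 → N2 p.m y = 0) ∧ ∀ y' : G.XX p.W × Pm (Fin M.n₁), y'.2.2.2.1 = 0 →
      ‖fderiv ℂ (N2 p.m) y y'‖ ≤ p.K * zn y.1 * zn y'.1)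
  n3 : ∀ j, ∀ y ∈ G.Bx p, DifferentiableAt ℂ (n3c p.z₃ p.m j) y ∧
    ‖n3c p.z₃ p.m j y - G.fc _ * (G.Tj p j (y.1.2.1.1 j)).1‖ ≤ p.Z ^ 20
  n4 : ∀ j, ∀ y ∈ G.Bx p, DifferentiableAt ℂ (fun y => Bj p.J₀ p.J p.m y j) y ∧
    ‖Bj p.J₀ p.J p.m y j - low (p.W j) ((y.1.2.1.1 j).1 3)‖ ≤ p.Z ^ 20
  n5 : ∀ l, n3k l (0 : XK G.z₀) = 0 ∧ ∀ J : XK G.z₀, ‖J‖ < p.r → DifferentiableAt ℂ (n3k l) J ∧
    ‖n3k l J - G.fk * G.TS l J‖ ≤ p.K ∧
    ∀ J', ‖fderiv ℂ (n3k l) J J' - G.fk * G.TS l J'‖ ≤ p.K * ‖J‖ * ‖J'‖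

end GD

open GD

theorem pk_of (zon : ZON) (qc : QC) (qn : QN) (fara : FARA) (fark : FARK) (bca : BCA) :
    RowP fun _ _ G p => ∃ T, PK (G := G) p T := by
  refine (((((zon.and qc).and qn).and fara).and fark).and bca).mono ?_
  rintro M k G o ⟨⟨⟨⟨⟨zon, qc⟩, qn⟩, fara⟩, r₀, C, r0, fark⟩, bca⟩
  have z := zon.mono fun _ h U => (h.1 U).1
  have := o.one
  filter_upwards [zon, qc.ev z, qn.ev z, fara, bca, o.lin, ev_W fun _ => G.ρ + 8,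
    ev_cs (ev₀_z fun _ _ => G.ρ + 6), ev_cs (ev₀_K (max C (3 * G.C'))),
    ev_cs (ev₀_r (f := fun K => min r₀ (1 / (1000 * K ^ 7)))
      ((eventually_gt_atTop 0).mono fun _ h => by positivity)), ev_Z fun q _ _ => q.K]
    with p zon qc qn fara bca lin hW hz hK hr hZ
  simp only [max_le_iff, le_min_iff] at hK hr
  obtain ⟨T, hT⟩ := exT o lin hz fun j => (hW j).1
  refine ⟨T, hT, o, hK.2, hr.1, hr.2.2, hZ, zon.1, zon.2, fun y hy => ?_, fun y hy => ?_,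
    fun j y hy => ⟨(fara j y hy).1, (fara j y hy).2.1⟩, fun j => (bca j).1, fun l =>
      ⟨(fark l).1, fun J hJ => ?_⟩⟩
  · exact ⟨(qc y hy).1, (qc y hy).2.1, (qc y hy).2.2.2⟩
  · exact ⟨(qn y hy).1, (qn y hy).2.1, (qn y hy).2.2.2⟩
  · obtain ⟨a, b, -, c⟩ := (fark l).2 J (hJ.trans_le hr.2.1)
    exact ⟨a, b.trans hK.1, fun J' => (c J').trans (by gcongr; exact hK.1)⟩

namespace GD.PK

variable {M : Mod} {k : ℕ} {G : GD M k} {p : Pt (Fin M.n₁)} {T : G.XX p.W ≃L[ℂ] G.YY p.W}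
  (h : PK p T)

include h

theorem K3 : 3 ≤ p.K := by linarith [h.K, h.o.one]

theorem Z0 : 0 < p.Z := by linarith [h.K3, h.Z]

theorem bx {U : G.XX p.W} (hU : G.Nn p U < p.r) : (U, bs p.c p.v) ∈ G.Bx p := mem_Bx h.Z0 hU

theorem S_apply (y : G.YY p.W) : (G.obj p.toCs).S p.W p.c y = T.symm y :=
  congrArg (fun S : G.YY p.W →L[ℂ] G.XX p.W => S y) h.S

theorem dr {y : G.XX p.W × Pm (Fin M.n₁)} (hy : y ∈ G.Bx p) : DifferentiableAt ℂ (Rr p) y ∧ ∀ y',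
    fderiv ℂ (Rr p) y y' = (-fderiv ℂ (N1 p.m) y y', fderiv ℂ (N2 p.m) y y' +
      (fun j => (fderiv ℂ (n3c p.z₃ p.m j) y y' - G.fc _ * (G.Tj p j (y'.1.2.1.1 j)).1,
        fderiv ℂ (fun y => Bj p.J₀ p.J p.m y j) y y' - low (p.W j) ((y'.1.2.1.1 j).1 3)),
      fun l => fderiv ℂ (n3k l) (y.1.2.1.2 l) (y'.1.2.1.2 l) - G.fk * G.TS l (y'.1.2.1.2 l)), 0) :=
  dRr (h.n1 y hy).1 (h.n2 y hy).1 (fun j => (h.n3 j y hy).1) (fun j => (h.n4 j y hy).1)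
    fun l => ((h.n5 l).2 _ (((le_Nn y.1).2.2.1 l).trans_lt hy.1)).1

theorem inj : (G.obj p.toCs).INJ p := fun a b e =>
  T.symm.injective (by rwa [h.S_apply, h.S_apply] at e)

theorem ia : (G.obj p.toCs).IA p := fun a => by
  have e : ∀ q : Seminorm ℂ (G.Y' p.W), G.C' * tri q ((G.obj p.toCs).ia p.W a) ≤ p.K * ‖a‖ :=
    fun q => mul_le_mul (by linarith [h.K, h.o.one]) (tri_le_iff.2
      ⟨norm_zero.trans_le (norm_nonneg _), (map_zero q).trans_le (norm_nonneg _),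
        max_le (norm_zero.trans_le (norm_nonneg _)) le_rfl⟩) (apply_nonneg _ _)
      (by linarith [h.K3])
  rw [h.S_apply]
  exact ⟨(h.bn _).trans (e _), (h.bh _).trans (e _)⟩

/-- the derivatives of the remainders of the compact zone -/
theorem near {U : G.XX p.W} (hU : G.Nn p U < p.r) (y' : G.XX p.W × Pm (Fin M.n₁))
    (e : y'.2.2.2.1 = 0) {x : ℝ} (hx : zn y'.1 ≤ p.K * x) :
    ‖fderiv ℂ (N1 p.m) (U, bs p.c p.v) y'‖ ≤ p.K ^ 4 * p.r * x ∧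
      G.qn p.W p.c (fderiv ℂ (N2 p.m) (U, bs p.c p.v) y') ≤ p.K ^ 4 * p.r * x ∧
      G.qh p.W p.c (fderiv ℂ (N2 p.m) (U, bs p.c p.v) y') ≤ p.K ^ 4 * p.r * x := by
  have K := h.K3
  have z : ∀ V : G.XX p.W, 0 ≤ zn V := fun _ => norm_nonneg _
  have b : p.K * zn U * zn y'.1 ≤ p.K ^ 3 * p.r * x :=
    calc _ ≤ p.K * (p.K * p.r) * (p.K * x) := by
          have := h.r0
          gcongr
          exacts [z _, (h.za U).1.trans (by gcongr)]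
      _ = _ := by ring
  have b0 : 0 ≤ p.K ^ 3 * p.r * x := le_trans (mul_nonneg (mul_nonneg (by linarith) (z _)) (z _)) b
  have c := h.zb _ (N2_supp p.m (U, bs p.c p.v) y' h.o)
  have d := mul_le_mul_of_nonneg_left ((((h.n2 _ (h.bx hU)).2.2 rfl).2 y' e).trans b)
    (show 0 ≤ p.K by linarith)
  exact ⟨(((h.n1 _ (h.bx hU)).2.2 rfl).2 y' e).trans (b.trans (by nlinarith)),
    c.1.trans (d.trans_eq (by ring)), c.2.trans (d.trans_eq (by ring))⟩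

theorem up {x y : ℝ} (hx : x ≤ y) (x0 : 0 ≤ x) : p.K * p.r * x ≤ p.K ^ 4 * p.r * y := by
  have := h.K3
  have := h.r0
  gcongr
  exact le_self_pow₀ (by linarith) (by simp)

theorem sm {x : ℝ} (x0 : 0 ≤ x) : G.C' * (3 * (p.K ^ 4 * p.r * (p.K * x))) ≤ 1 / (100 * p.K) * x := by
  have K : 0 < p.K := by linarith [h.K3]
  have r := h.r0
  calc _ = 3 * G.C' * (p.K ^ 5 * p.r) * x := by ring
    _ ≤ p.K * (p.K ^ 5 * (1 / (1000 * p.K ^ 7))) * x := by gcongr; exacts [h.K, h.r]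
    _ = 1 / (1000 * p.K) * x := by field_simp
    _ ≤ _ := by gcongr; norm_num

theorem nl (fb : ∀ j U, G.Nn p U < p.r → ∀ U' g,
      g = fderiv ℂ (n3c p.z₃ p.m j) (U, bs p.c p.v) (U', 0) - G.fc _ * (G.Tj p j (U'.2.1.1 j)).1 →
      qN (p.c j) G.z₀ (p.W j) (g, 0) ≤ p.K * p.r * pN (p.c j) G.z₀ (p.W j) (U'.2.1.1 j) ∧
      qH (p.c j) G.z₀ (p.W j) (g, 0) ≤ p.K * p.r * pH (p.c j) G.z₀ (p.W j) (U'.2.1.1 j))
    (bc : ∀ j U, G.Nn p U < p.r → ∀ U' g,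
      g = fderiv ℂ (fun y => Bj p.J₀ p.J p.m y j) (U, bs p.c p.v) (U', 0)
        - low (p.W j) ((U'.2.1.1 j).1 3) →
      qN (p.c j) G.z₀ (p.W j) (0, g) ≤ p.K * p.r * pN (p.c j) G.z₀ (p.W j) (U'.2.1.1 j) ∧
      qH (p.c j) G.z₀ (p.W j) (0, g) ≤ p.K * p.r * pH (p.c j) G.z₀ (p.W j) (U'.2.1.1 j)) :
    (G.obj p.toCs).NL p := fun U hU U' => by
  have d := h.dr (h.bx hU)
  have e : U' - (G.obj p.toCs).S p.W p.c (fderiv ℂ (FF p.z₃ p.J₀ p.J p.m) (U, bs p.c p.v) (U', 0))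
      = -T.symm (fderiv ℂ (Rr p) (U, bs p.c p.v) (U', 0)) := by
    rw [h.S_apply, (h.dff d.1).2, map_add, T.symm_apply_apply, sub_add_cancel_left]
  have K := h.K3
  have l := le_Nn (G := G) U'
  have c : ∀ j, ∀ {x}, ‖U'.2.1.2 j‖ ≤ x → ‖fderiv ℂ (n3k j) (U.2.1.2 j) (U'.2.1.2 j) -
      G.fk * G.TS j (U'.2.1.2 j)‖ ≤ p.K ^ 4 * p.r * x := fun j x hx => by
    have := ((le_Nn U).2.2.1 j).trans_lt hU
    refine (((h.n5 j).2 _ this).2.2 _).trans (le_trans ?_ (h.up hx (norm_nonneg _)))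
    gcongr
  have f : ∀ {x : ℝ}, 0 ≤ x → G.C' * (3 * (p.K ^ 4 * p.r * x)) ≤ x / 2 := fun {x} x0 => by
    have := h.sm (div_nonneg x0 (show 0 ≤ p.K by linarith))
    rw [mul_div_cancel₀ _ (by linarith)] at this
    refine this.trans ((mul_le_of_le_one_left (by positivity) ?_).trans (by gcongr; linarith))
    rw [div_le_one (by linarith)]
    linarith
  have C0 : 0 ≤ G.C' := by linarith [h.o.one]
  refine ⟨?_, ?_⟩
  · refine (congrArg (G.Nn p) e).trans_le ((map_neg_eq_map _ _).trans_le ((h.bn _).trans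
      (le_trans (mul_le_mul_of_nonneg_left ?_ C0) (f (apply_nonneg (G.Nn p) U')))))
    have n := h.near hU (U', 0) rfl (h.za U').1
    rw [d.2]
    exact est n.1 n.2.1 (fun j => (fb j U hU U' _ rfl).1.trans (h.up (l.1 j) (apply_nonneg _ _)))
      (fun j => (bc j U hU U' _ rfl).1.trans (h.up (l.1 j) (apply_nonneg _ _)))
      fun j => c j (l.2.2.1 j)
  · refine (congrArg (G.Nh p) e).trans_le ((map_neg_eq_map _ _).trans_le ((h.bh _).trans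
      (le_trans (mul_le_mul_of_nonneg_left ?_ C0) (f (apply_nonneg (G.Nh p) U')))))
    have n := h.near hU (U', 0) rfl (h.za U').2
    rw [d.2]
    exact est n.1 n.2.2 (fun j => (fb j U hU U' _ rfl).2.trans (h.up (l.2.1 j) (apply_nonneg _ _)))
      (fun j => (bc j U hU U' _ rfl).2.trans (h.up (l.2.1 j) (apply_nonneg _ _)))
      fun j => c j (l.2.2.2.1 j)

theorem holf (e : (∀ U, ‖U‖ ≤ p.Z ^ 20 * G.Nn p U) ∧
    ∀ g : G.YY p.W, tri (G.qn p.W p.c) g ≤ p.Z ^ 20 * ‖g‖) : (G.obj p.toCs).HOLF p := fun y hy => by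
  refine ⟨(h.dff (h.dr hy).1).1, ?_⟩
  have K := h.K3
  have Z : 3 ≤ p.Z := K.trans h.Z
  have KZ : p.K ≤ p.Z ^ 20 := h.Z.trans (le_self_pow₀ (by linarith) (by simp))
  have P : 0 ≤ p.Z ^ 20 := by positivity
  have r1 : p.r ≤ 1 := h.r.trans (by
    rw [div_le_one (by positivity)]
    nlinarith [one_le_pow₀ (n := 7) (show 1 ≤ p.K by linarith)])
  have b : ‖Rr p y‖ ≤ 2 * p.Z ^ 20 := by
    refine norm_prod_le_iff.2 ⟨by rw [Rr, norm_neg]; linarith [(h.n1 y hy).2.1],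
      norm_prod_le_iff.2 ⟨(norm_add_le _ _).trans ?_, norm_zero.trans_le (by positivity)⟩⟩
    rw [two_mul]
    exact add_le_add ((h.n2 y hy).2.1.trans KZ) (norm_prod_le_iff.2
      ⟨(pi_norm_le_iff_of_nonneg P).2 fun j => norm_prod_le_iff.2 ⟨(h.n3 j y hy).2, (h.n4 j y hy).2⟩,
        (pi_norm_le_iff_of_nonneg P).2 fun l =>
          ((h.n5 l).2 _ (((le_Nn y.1).2.2.1 l).trans_lt hy.1)).2.1.trans KZ⟩)
  have C := h.o.one
  calc _ = ‖y.1 + T.symm (Rr p y)‖ := by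
        rw [h.S_apply, ← T.symm_apply_apply y.1, ← map_add, ← h.ff]; rfl
    _ ≤ p.Z ^ 20 * 1 + p.Z ^ 20 * (G.C' * (p.Z ^ 20 * (2 * p.Z ^ 20))) :=
        (norm_add_le _ _).trans (add_le_add ((e.1 _).trans (by gcongr; exact hy.1.le.trans r1))
          ((e.1 _).trans (by
            gcongr
            exact (h.bn _).trans (by gcongr; exact (e.2 _).trans (by gcongr)))))
    _ ≤ p.Z ^ 20 * (G.C' * (p.Z ^ 20 * p.Z ^ 20)) + p.Z ^ 20 * (G.C' * (p.Z ^ 20 * (2 * p.Z ^ 20))) := by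
        gcongr
        nlinarith [show 1 ≤ p.Z ^ 20 * p.Z ^ 20 by nlinarith]
    _ = 3 * G.C' * p.Z ^ 60 := by ring
    _ ≤ p.Z ^ 40 * p.Z ^ 60 := by
        gcongr
        exact (h.K.trans h.Z).trans (le_self_pow₀ (by linarith) (by simp))
    _ = _ := by ring

/-- the value of the equation at unknowns which vanish in the compact zone -/
theorem val {U : G.XX p.W} (hU : G.Nn p U < p.r) (z : zn U = 0) (h1 : L1 U = 0)
    (h2 : L2 U.2.1 = 0) (h3 : G.gam _ U.2.1 = 0) {qq : ∀ j, Seminorm ℂ (YE G.z₀ (p.W j))} {a : ℝ}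
    (a0 : 0 ≤ a) (b : ∀ j, qq j (n3c p.z₃ p.m j (U, bs p.c p.v), 0) ≤ a)
    (c : ∀ j, qq j (0, Bj p.J₀ p.J p.m (U, bs p.c p.v) j) ≤ a) :
    tri (prs qq) (FF p.z₃ p.J₀ p.J p.m (U, bs p.c p.v)) ≤ 3 * a := by
  have e : G.coo _ U = 0 := congrArg Prod.fst (norm_eq_zero.1 z)
  have e2 : U.2.1.2 = 0 := congrArg (fun x => x.2.2.1) e
  have e3 : U.2.2.1 = 0 := congrArg (fun x => x.2.2.2) e
  rw [h.ff, Rr, h.far (congrArg Prod.fst e) h1 h2 (by rw [h3, e3, map_zero, add_zero]) e2]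
  refine est ?_ ?_ b c fun l => ?_
  · rwa [((h.n1 _ (h.bx hU)).2.2 rfl).1 z, norm_zero]
  · rwa [((h.n2 _ (h.bx hU)).2.2 rfl).1 z, map_zero]
  · rwa [e2, Pi.zero_apply, (h.n5 l).1, norm_zero]

theorem res (b : ∀ j, qN (p.c j) G.z₀ (p.W j)
      (n3c p.z₃ p.m j ((0 : G.XX p.W), bs p.c p.v), 0) ≤ p.r ^ 2)
    (c : ∀ j, qN (p.c j) G.z₀ (p.W j)
      (0, Bj p.J₀ p.J p.m ((0 : G.XX p.W), bs p.c p.v) j) ≤ p.r ^ 2) : (G.obj p.toCs).RES p := by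
  have e := (h.eq 0).symm.trans T.map_zero
  have K := h.K3
  have r := h.r0
  have l2 : L2 (0 : G.X' p.W) = 0 :=
    (add_zero (L2 (0 : G.X' p.W))).symm.trans (by
      have := congrArg (fun x => x.2.1) e
      simp only [Prod.fst_zero, Prod.snd_zero, Pi.zero_apply, map_zero, mul_zero, zero_add,
        ZeroMemClass.coe_zero] at this
      exact this)
  have := h.val (U := 0) (by rwa [map_zero]) (by simp [zn]) (congrArg Prod.fst e) l2 (map_zero _)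
    (sq_nonneg _) b c
  refine (congrArg (G.Nn p) (h.S_apply _)).trans_le ((h.bn _).trans ?_)
  calc _ ≤ G.C' * (3 * p.r ^ 2) := mul_le_mul_of_nonneg_left this (by linarith [h.o.one])
    _ = 3 * G.C' * p.r * p.r := by ring
    _ ≤ p.K * (1 / (1000 * p.K ^ 7)) * p.r := by gcongr; exacts [h.K, h.r]
    _ = 1 / (1000 * p.K ^ 6) * p.r := by field_simp
    _ ≤ 1 / 16 * p.r := by
        gcongr
        nlinarith [one_le_pow₀ (n := 6) (show 1 ≤ p.K by linarith)]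
    _ = _ := by ring

theorem der (u : ∀ c', G.Nh p (G.U0 p.W p.z₃ c') ≤ p.K * ‖c'‖)
    (v : ∀ c', L1 (G.U0 p.W p.z₃ c') = 0 ∧ L2 (G.U0 p.W p.z₃ c').2.1 = 0 ∧
      G.gam p.W (G.U0 p.W p.z₃ c').2.1 + G.Mm (G.U0 p.W p.z₃ c').2.2.1 = 0)
    (b : ∀ j U, G.Nn p U < p.r → ∀ c', qH (p.c j) G.z₀ (p.W j) (fderiv ℂ (n3c p.z₃ p.m j)
      (U, bs p.c p.v) (G.U0 p.W p.z₃ c', c', 0), 0) ≤ p.K * p.r * ‖c'‖)
    (c : ∀ j U, G.Nn p U < p.r → ∀ c', qH (p.c j) G.z₀ (p.W j) (0, fderiv ℂ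
      (fun y => Bj p.J₀ p.J p.m y j) (U, bs p.c p.v) (G.U0 p.W p.z₃ c', c', 0))
        ≤ p.K * p.r * ‖c'‖) : (G.obj p.toCs).DER p := fun U hU c' => by
  have d := h.dr (h.bx hU)
  have K := h.K3
  have n := h.near hU (G.U0 p.W p.z₃ c', c', 0) rfl ((h.za _).2.trans
    (mul_le_mul_of_nonneg_left (u c') (by linarith)))
  have x : ‖c'‖ ≤ p.K * ‖c'‖ := le_mul_of_one_le_left (norm_nonneg _) (by linarith)
  refine (congrArg (G.Nh p) (h.S_apply _)).trans_le ((h.bh _).trans (le_trans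
    (mul_le_mul_of_nonneg_left ?_ (by linarith [h.o.one])) (h.sm (norm_nonneg c'))))
  refine (congrArg _ (((h.dff d.1).2 _).trans ((congrArg _ (d.2 _)).trans
    (h.far rfl (v c').1 (v c').2.1 (v c').2.2 rfl _ _ _ _ _)))).trans_le ?_
  exact est n.1 n.2.2 (fun j => (b j U hU c').trans (h.up x (norm_nonneg _)))
    (fun j => (c j U hU c').trans (h.up x (norm_nonneg _))) fun l =>
      ((congrArg _ (map_zero _)).trans norm_zero).trans_le ((norm_nonneg _).trans n.1)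

end GD.PK

end Vale.Agent.P218I
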