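import Vale.Agent.P218I.Bcb
import Vale.Agent.P218W.NLe

/-! The row `BCA`. -/

open Set Filter Topology Complex

noncomputable section

namespace Vale.Agent.P218I

open Vale.Agent.P218T Vale.Agent.P218L Vale.Agent.P218M Vale.Agent.P218W GD
open Vale.Agent.P218N (Bc km lk mn)
open Vale.Agent.P218T.HJ (gm eta dta)

namespace Bca

variable {r : ℝ → ℝ} {z : ℝ} {Z V v ε k : ℂ} {J₀ J : ℕ} {P : W r}

/-- `(1 + P² / (4 V)) ^ (-1/2)` -/
def TT (V : ℂ) (P : W r) : W r := W.pw (-2⁻¹) ((4 * V)⁻¹ • (P * P))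

/-- the boundary term -/
def gg (J₀ J : ℕ) (v ε k Z V : ℂ) : ℂ :=
  4 * ((1 - v) * gm J₀ Z V + v * gm J Z V) / (Z * (1 + ε * lk k (Z ^ 2 + V)))

theorem ha : ‖(-2⁻¹ : ℂ)‖ ≤ 1 := by simp; norm_num

theorem bc_W (Z0 : Z ≠ 0) (V0 : V ≠ 0) (n : ‖(4 * V)⁻¹ • (P * P)‖ < 1) :
    Bc J₀ J v ε k Z V (fun θ => P (z, θ)) = ![low z (P * TT V P) 0 + gg J₀ J v ε k Z V,
      low z ((P - (2 * V / Z) • 1) * TT V P) 1, low z ((P - (2 * V / Z) • 1) * TT V P) 2] := by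
  have sq := HJ.sqrt_sq V
  have s0 : Complex.sqrt V ≠ 0 := fun e => V0 (by rw [← sq, e]; simp)
  have eT : ∀ θ, P218N.Qc V (P (z, θ)) = TT V P (z, θ) := fun θ => by
    rw [TT, W.pw_apply ha n, cpow_neg, P218N.Qc, one_div, div_pow, sq, Complex.sqrt]
    congr 2; simp only [W.smul_apply, W.mul_apply]; ring
  have eP : ∀ θ, P218N.Pc V (P (z, θ)) = (Complex.sqrt V)⁻¹ * (P * TT V P) (z, θ) := fun θ => by
    rw [W.mul_apply, ← eT, P218N.Pc, P218N.Qc]; ring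
  have eQ : ∀ θ (t : ℂ), t * (Z / 2 * P218N.Pc V (P (z, θ)) - Complex.sqrt V * P218N.Qc V (P (z, θ))) =
      (2 * Complex.sqrt V / Z)⁻¹ * (t * ((P - (2 * V / Z) • 1) * TT V P) (z, θ)) := fun θ t => by
    rw [eP, eT]; simp only [W.mul_apply, W.sub_apply, W.smul_apply, W.one_apply]
    generalize Complex.sqrt V = s at sq s0
    rw [← sq]; field_simp
  have m : ∀ (a : ℂ) (F : ℝ × ℝ → ℂ), a ≠ 0 → a * mn (fun θ => a⁻¹ * F (z, θ)) = co F 0 z :=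
    fun a F ha => by
      rw [mn_eq (F := fun p => a⁻¹ * F p) (z := z) fun _ => rfl, co_mulz fun _ => a⁻¹,
        mul_inv_cancel_left₀ ha]
  have a0 : 2 * Complex.sqrt V / Z ≠ 0 := by simp [s0, Z0]
  simp only [Bc, eQ]
  simp only [eP]
  rw [m _ _ s0, m _ (fun p => Real.cos p.2 * _) a0, m _ (fun p => Real.sin p.2 * _) a0, ← low_0,
    ← low_cos, ← low_sin, gg]

theorem bc_diff {X : Type} [NormedAddCommGroup X] [NormedSpace ℂ X] {y : X} {Z V v ε : X → ℂ}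
    {P : X → W r} (dZ : DifferentiableAt ℂ Z y) (dV : DifferentiableAt ℂ V y)
    (dv : DifferentiableAt ℂ v y) (dε : DifferentiableAt ℂ ε y) (dP : DifferentiableAt ℂ P y)
    (Z0 : Z y ≠ 0) (V0 : V y ≠ 0) (n : ‖(4 * V y)⁻¹ • (P y * P y)‖ < 1)
    (e0 : k + cexp (-(Z y ^ 2 + V y) / 4) ≠ 0) (e1 : 1 + ε y * lk k (Z y ^ 2 + V y) ≠ 0) :
    DifferentiableAt ℂ (fun y => Bc J₀ J (v y) (ε y) k (Z y) (V y) fun θ => P y (z, θ)) y := by
  have V4 : 4 * V y ≠ 0 := by simpa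
  have dx : DifferentiableAt ℂ (fun y => (4 * V y)⁻¹ • (P y * P y)) y := by
    fun_prop (disch := assumption)
  have dT : DifferentiableAt ℂ (fun y => TT (V y) (P y)) y :=
    (W.analyticAt_pw ha n).differentiableAt.comp y (f := fun y => (4 * V y)⁻¹ • (P y * P y)) dx
  have Y0 : Z y ^ 2 * V y / 4 ≠ 0 := by simp [Z0, V0]
  have dY : DifferentiableAt ℂ (fun y => Z y ^ 2 * V y / 4) y := by fun_prop
  have dg : ∀ I, DifferentiableAt ℂ (fun y => gm I (Z y) (V y)) y := fun I =>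
    (DifferentiableAt.fun_comp' y (HJ.diff_dta I Y0) dY).fun_sub (by
      have := DifferentiableAt.fun_comp' y (HJ.diff_eta I Y0) dY
      fun_prop)
  have e2 := pow_ne_zero 2 e0
  have dl : DifferentiableAt ℂ (fun y => lk k (Z y ^ 2 + V y)) y := by
    unfold lk; fun_prop (disch := assumption)
  have e3 := mul_ne_zero Z0 e1
  have dG : DifferentiableAt ℂ (fun y => gg J₀ J (v y) (ε y) k (Z y) (V y)) y := by
    unfold gg; fun_prop (disch := assumption)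
  have dl : ∀ {F : X → W r} (i), DifferentiableAt ℂ F y →
      DifferentiableAt ℂ (fun y => low z (F y) i) y := fun i h =>
    differentiableAt_pi.1 ((low z).differentiableAt.comp y h) i
  have dQ : DifferentiableAt ℂ (fun y => (P y - (2 * V y / Z y) • 1) * TT (V y) (P y)) y := by
    fun_prop (disch := assumption)
  refine DifferentiableAt.congr_of_eventuallyEq (differentiableAt_pi.2 fun i => ?_) (by
    filter_upwards [dZ.continuousAt.eventually_ne Z0, dV.continuousAt.eventually_ne V0,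
      dx.continuousAt.norm.eventually_lt_const n] with y a b c
    exact bc_W a b c)
  fin_cases i
  exacts [(dl 0 (dP.mul dT)).add dG, dl 1 dQ, dl 2 dQ]

theorem lk_le {m : ℝ} {s : ℂ} (h : |s.im| ≤ 4) :
    km m + cexp (-s / 4) ≠ 0 ∧ ‖lk (km m) s‖ ≤ 1 := by
  have e : km m = (Real.exp (-m ^ 2 / 4) : ℝ) := by simp [km]
  have p := Real.exp_pos (-m ^ 2 / 4)
  have a : 0 ≤ (cexp (-s / 4)).re := by
    rw [Complex.exp_re]
    refine mul_nonneg (Real.exp_pos _).le (Real.cos_nonneg_of_mem_Icc ?_)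
    have := abs_le.1 h
    simp only [div_ofNat_im, neg_im]
    constructor <;> linarith [Real.pi_gt_three]
  have b : ‖km m‖ ≤ ‖km m + cexp (-s / 4)‖ := le_trans (by
    rw [add_re, e, Complex.norm_real, Real.norm_of_nonneg p.le, ofReal_re]; linarith) (re_le_norm _)
  have c : 0 < ‖km m‖ := by rw [e, Complex.norm_real, Real.norm_of_nonneg p.le]; exact p
  exact ⟨norm_pos_iff.1 (c.trans_le b), by
    rw [lk, norm_div, norm_pow, norm_pow, div_le_one (pow_pos (c.trans_le b) 2)]; gcongr⟩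

theorem low_norm (x : W r) (i : Fin 3) : ‖low z x i‖ ≤ ‖x‖ :=
  (low_le x.le_norm.l2 (mem_univ z) i).trans_eq (by fin_cases i <;> simp)

theorem num {Z δ : ℝ} {c c' l : ℂ} (Z3 : 3 ≤ Z) (hδ : δ * Z ^ 4 ≤ 1 / 2000)
    (cZ : ‖c‖ * Z ^ 2 ≤ 8) (ds : ‖rh c Z‖ ^ 2 ≤ 6 * (rh c Z).re) (J4 : 400 ≤ J)
    (tp : 28 / 5 * J ≤ Z ^ 2 * (rh c Z).re) (hc : ‖c' - c‖ ≤ δ) (hl : ‖l‖ ≤ δ)
    {Z' V' : ℂ} (eZ : Z' = Z + l) (eV : V' = 2 + c' * (Z' ^ 2 - 2)) :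
    δ ≤ 1 / 2 ∧ 1 ≤ ‖Z'‖ ∧ (0 < ‖rh c Z‖ ∧ ‖rh c Z‖ ≤ 6) ∧ (‖rh c Z‖ / 2 ≤ ‖V'‖ ∧ ‖V'‖ ≤ 7) ∧
      ‖2 * c' * Z' - 2 * c * Z‖ ≤ √‖rh c Z‖ / 16 ∧ ‖2 * c' * Z'‖ ≤ 17 ∧ |(Z' ^ 2 + V').im| ≤ 4 ∧
      4 * ((J : ℝ) + 3) ≤ 3 * ‖Z' ^ 2 * V' / 4‖ := by
  have δ0 := (norm_nonneg _).trans hl
  have Z0 : 0 < Z := by linarith
  have Z9 : 9 ≤ Z ^ 2 := by nlinarith only [Z3]
  have J4' : (400 : ℝ) ≤ J := by exact_mod_cast J4
  have xn := re_le_norm (rh c Z)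
  have x0 : 0 < (rh c Z).re := (mul_pos_iff_of_pos_left (pow_pos Z0 2)).1 (by linarith)
  have n6 : ‖rh c Z‖ ≤ 6 := by nlinarith only [xn, x0, ds]
  have d2 : δ * Z ^ 2 ≤ 1 / 18000 := by nlinarith only [mul_nonneg δ0 (sq_nonneg Z), Z9, hδ]
  have d21 : 3 * (δ * Z) ≤ δ * Z ^ 2 := by nlinarith only [mul_nonneg δ0 Z0.le, Z3]
  have d10 : 3 * δ ≤ δ * Z := by nlinarith only [δ0, Z3]
  have c1 : ‖c‖ ≤ 1 := by nlinarith only [norm_nonneg c, cZ, Z9]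
  have nZ : ‖(Z : ℂ)‖ = Z := by simp [abs_of_pos Z0]
  have z1 : ‖Z'‖ ≤ Z + δ := by rw [eZ]; linarith [norm_add_le (Z : ℂ) l]
  have z2 : Z - δ ≤ ‖Z'‖ := by
    have := norm_sub_le Z' l
    rw [eZ, add_sub_cancel_right, ← eZ] at this; linarith
  have z3 : ‖Z' ^ 2 - Z ^ 2‖ ≤ 3 * (δ * Z) := by
    rw [show Z' ^ 2 - Z ^ 2 = l * (Z' + Z) by rw [eZ]; ring, norm_mul]
    exact (mul_le_mul hl (show _ ≤ 3 * Z by linarith [norm_add_le Z' Z]) (norm_nonneg _) δ0).trans_eq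
      (by ring)
  have z4 : ‖Z'‖ ≤ 2 * Z := by linarith
  have v1 : ‖V' - rh c Z‖ ≤ 10 * (δ * Z ^ 2) := by
    rw [show V' - rh c Z = (c' - c) * (Z' ^ 2 - 2) + c * (Z' ^ 2 - Z ^ 2) by rw [eV, rh]; ring]
    have : ‖Z' ^ 2 - 2‖ ≤ 5 * Z ^ 2 := (norm_sub_le _ _).trans (by
      rw [norm_pow, Complex.norm_ofNat]; nlinarith only [norm_nonneg Z', z4, Z9])
    refine (norm_add_le _ _).trans ?_
    rw [norm_mul, norm_mul]
    linarith [mul_le_mul hc this (norm_nonneg _) δ0, mul_le_mul c1 z3 (norm_nonneg _) zero_le_one]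
  have xn' := mul_le_mul_of_nonneg_left xn (sq_nonneg Z)
  have n1 : 1 ≤ Z ^ 2 * ‖rh c Z‖ := by linarith
  have v2 : ‖V' - rh c Z‖ ≤ ‖rh c Z‖ / 50 := le_of_mul_le_mul_left (by
    linarith [mul_le_mul_of_nonneg_left v1 (sq_nonneg Z)]) (pow_pos Z0 2)
  have v3 : 49 / 50 * ‖rh c Z‖ ≤ ‖V'‖ := by
    linarith [norm_sub_norm_le (rh c Z) V', norm_sub_rev V' (rh c Z)]
  have p1 : ‖2 * c' * Z' - 2 * c * Z‖ ≤ 6 * (δ * Z) := by
    rw [show 2 * c' * Z' - 2 * c * Z = 2 * ((c' - c) * Z' + c * l) by rw [eZ]; ring, norm_mul,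
      Complex.norm_ofNat]
    have := norm_add_le ((c' - c) * Z') (c * l)
    rw [norm_mul, norm_mul] at this
    linarith [mul_le_mul hc z4 (norm_nonneg _) δ0, mul_le_mul c1 hl (norm_nonneg _) zero_le_one]
  have s1 : 1 ≤ Z * √‖rh c Z‖ := by
    rw [← Real.sqrt_sq Z0.le, ← Real.sqrt_mul (sq_nonneg _), Real.sqrt_sq Z0.le]
    exact Real.one_le_sqrt.2 n1
  refine ⟨by linarith, by linarith, ⟨by linarith, n6⟩, ⟨by linarith,
    by linarith [norm_sub_norm_le V' (rh c Z)]⟩, p1.trans (le_of_mul_le_mul_left (by linarith) Z0),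
    ?_, ?_, ?_⟩
  · have := norm_sub_norm_le (2 * c' * Z') (2 * c * Z)
    rw [norm_mul _ (Z : ℂ), norm_mul 2 c, Complex.norm_ofNat, nZ] at this
    have : ‖c‖ * Z ≤ 8 := by nlinarith only [mul_nonneg (norm_nonneg c) Z0.le, cZ, Z3]
    linarith
  · have a := (abs_im_le_norm _).trans z3
    have b := (abs_im_le_norm _).trans v1
    have e : |(rh c Z).im| ≤ 3 := abs_le_of_sq_le_sq (by
      rw [Complex.sq_norm, normSq_apply] at ds
      nlinarith only [sq_nonneg ((rh c Z).re - 3), ds]) (by norm_num)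
    rw [sub_im, ← ofReal_pow, ofReal_im, sub_zero] at a
    rw [sub_im] at b
    rw [add_im]
    rw [abs_le] at a b e ⊢
    constructor <;> linarith [a.1, a.2, b.1, b.2, e.1, e.2]
  · rw [norm_div, norm_mul, norm_pow, Complex.norm_ofNat]
    have : (99 / 100 * Z) ^ 2 ≤ ‖Z'‖ ^ 2 := by gcongr; linarith
    linarith [mul_le_mul this v3 (by positivity) (sq_nonneg _)]

theorem gg_le {Z' V' : ℂ} {v₀ δ m : ℝ} (JJ : J₀ ≤ J) (δ1 : δ ≤ 1 / 2) (hε : ‖ε‖ ≤ δ)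
    (hv : ‖v - v₀‖ ≤ δ) (v0 : v₀ ∈ Icc (0 : ℝ) 1) (z1 : 1 ≤ ‖Z'‖) (v4 : ‖V'‖ ≤ 7)
    (k1 : ‖lk (km m) (Z' ^ 2 + V')‖ ≤ 1) (y1 : 4 * ((J : ℝ) + 3) ≤ 3 * ‖Z' ^ 2 * V' / 4‖) :
    1 + ε * lk (km m) (Z' ^ 2 + V') ≠ 0 ∧ ‖gg J₀ J v ε (km m) Z' V'‖ ≤ 288 := by
  have e1 : 1 / 2 ≤ ‖1 + ε * lk (km m) (Z' ^ 2 + V')‖ := by
    have := norm_sub_norm_le (1 : ℂ) (-(ε * lk (km m) (Z' ^ 2 + V')))
    rw [norm_neg, norm_mul, sub_neg_eq_add, norm_one] at this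
    linarith [mul_le_mul (hε.trans δ1) k1 (norm_nonneg _) (by norm_num)]
  have g : ∀ I ≤ J, ‖gm I Z' V'‖ ≤ 9 := fun I hI => by
    have hI' : (I : ℝ) ≤ J := by exact_mod_cast hI
    have a := HJ.eta_le (I := I) (le_trans (by linarith) y1)
    have b := HJ.dta_le (I := I) (le_trans (by linarith) y1)
    have e : ‖Z' ^ 2 * V' / 4‖⁻¹ ≤ 4⁻¹ :=
      inv_anti₀ (by norm_num) (by linarith [J.cast_nonneg (α := ℝ)])
    have a' := norm_sub_norm_le (eta I (Z' ^ 2 * V' / 4)) 1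
    have b' := norm_sub_norm_le (dta I (Z' ^ 2 * V' / 4)) 1
    rw [norm_one] at a' b'
    refine (norm_sub_le _ _).trans ?_
    rw [norm_div, norm_mul, Complex.norm_ofNat]
    linarith [mul_le_mul v4 (show ‖eta I (Z' ^ 2 * V' / 4)‖ ≤ 2 by linarith) (norm_nonneg _)
      (by norm_num)]
  have a := norm_sub_norm_le v v₀
  have b := norm_sub_norm_le (1 - v) (1 - v₀ : ℝ)
  rw [show 1 - v - (1 - v₀ : ℝ) = -(v - v₀) by push_cast; ring, norm_neg] at b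
  rw [Complex.norm_real, Real.norm_of_nonneg (by linarith [v0.1, v0.2])] at a b
  refine ⟨norm_pos_iff.1 (by linarith), ?_⟩
  rw [gg, norm_div, norm_mul, norm_mul, Complex.norm_ofNat, div_le_iff₀ (by positivity)]
  have := norm_add_le ((1 - v) * gm J₀ Z' V') (v * gm J Z' V')
  rw [norm_mul, norm_mul] at this
  linarith [mul_le_mul (show ‖1 - v‖ ≤ 2 by linarith [v0.1]) (g _ JJ) (norm_nonneg _) zero_le_two,
    mul_le_mul (show ‖v‖ ≤ 2 by linarith [v0.2]) (g _ le_rfl) (norm_nonneg _) zero_le_two,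
    mul_le_mul z1 e1 (by norm_num) (norm_nonneg _)]

theorem box {a a' : ℂ} {n : ℝ} {u : W r} (n0 : 0 < n ∧ n ≤ 6) (v3 : n / 2 ≤ ‖V‖ ∧ ‖V‖ ≤ 7)
    (z1 : 1 ≤ ‖Z‖) (p1 : ‖a' - a‖ ≤ √n / 16) (p5 : ‖a'‖ ≤ 17) (g1 : ‖gg J₀ J v ε k Z V‖ ≤ 288)
    (hu : ‖a • 1 + u‖ ≤ √n / 4) (eP : P = a' • 1 + u) : ‖(4 * V)⁻¹ • (P * P)‖ < 1 ∧
      ‖(Bc J₀ J v ε k Z V fun θ => P (z, θ)) - low z u‖ ≤ 400 := by
  have o4 : ∀ a : ℂ, ‖a • (1 : W r)‖ ≤ 4 * ‖a‖ := fun a => by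
    rw [norm_smul, mul_comm]; gcongr; exact W.norm_one_le
  have p2 : ‖P‖ ≤ √n / 2 := by
    rw [show P = a • 1 + u + (a' - a) • 1 by rw [eP, sub_smul]; abel]
    linarith [norm_add_le (a • 1 + u) ((a' - a) • 1), o4 (a' - a)]
  have p3 : ‖P‖ * ‖P‖ ≤ n / 4 := by
    linarith [mul_self_le_mul_self (norm_nonneg _) p2, Real.mul_self_sqrt n0.1.le]
  have p4 : ‖P‖ ≤ 2 := by nlinarith only [norm_nonneg P, p3, n0.2]
  have m : ‖(4 * V)⁻¹ • (P * P)‖ ≤ 1 / 2 := by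
    rw [norm_smul, norm_inv, norm_mul, Complex.norm_ofNat, inv_mul_le_iff₀ (by linarith)]
    linarith [norm_mul_le P P]
  have n' := m.trans_lt (by norm_num : (1 / 2 : ℝ) < 1)
  have t : ‖TT V P - 1‖ ≤ 1 := (W.norm_le (((W.le_norm _).cpow (by simp) m ha).congr
    fun z _ θ => by rw [W.sub_apply, TT, W.pw_apply ha n', W.one_apply])).trans (by linarith)
  have q : ‖P - (2 * V / Z) • 1‖ ≤ 60 := by
    have : ‖2 * V / Z‖ ≤ 14 := by
      rw [norm_div, norm_mul, Complex.norm_ofNat, div_le_iff₀ (by linarith)]; linarith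
    linarith [norm_sub_le P ((2 * V / Z) • 1), o4 (2 * V / Z)]
  refine ⟨n', ?_⟩
  have e : ∀ x : W r, x * TT V P = x * (TT V P - 1) + x := fun x => by ring
  have o : ∀ a : ℂ, low z (a • (1 : W r)) = ![a, 0, 0] := fun a => low_z (by simp)
  have b : ∀ (x : W r) i, ‖low z (x * (TT V P - 1)) i‖ ≤ ‖x‖ := fun x i =>
    (low_norm _ i).trans ((norm_mul_le _ _).trans (mul_le_of_le_one_right (norm_nonneg _) t))
  have lP : low z P = ![a', 0, 0] + low z u := by rw [eP, map_add, o]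
  rw [bc_W (norm_pos_iff.1 (by linarith)) (norm_pos_iff.1 (by linarith)) n', e, e (_ - _), map_add,
    map_add, map_sub, o, lP]
  refine (pi_norm_le_iff_of_nonneg (by norm_num)).2 fun i => ?_
  fin_cases i
  · have := norm_add₃_le (a := low z (P * (TT V P - 1)) 0) (b := a') (c := gg J₀ J v ε k Z V)
    refine le_trans (le_of_eq (congrArg norm ?_)) (this.trans (by linarith [b P 0]))
    simp [Matrix.vecHead]; ring
  · exact le_trans (le_of_eq (congrArg norm (by simp [Matrix.vecHead, Matrix.vecTail])))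
      ((b _ 1).trans (q.trans (by norm_num)))
  · exact le_trans (le_of_eq (congrArg norm (by simp [Matrix.vecHead, Matrix.vecTail])))
      ((b _ 2).trans (q.trans (by norm_num)))

/-- the trace at the height `Z` -/
def tr (Z : ℝ) : W r →L[ℂ] W fun _ => Z :=
  (W.res (fun _ => Z) continuous_const fun _ => rfl).toContinuousLinearMap

theorem tr_apply (Z : ℝ) (x : W r) (p) : tr Z x p = x (Z, p.2) := rfl

theorem low_tr (Z : ℝ) (x : W r) : low Z (tr Z x) = low Z x := by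
  ext i; fin_cases i <;> rfl

theorem slope : ∃ r₀ : ℝ, 0 < r₀ ∧ ∀ Y R Z η c w, Sa r₀ Y R Z η c w → ∀ J ∈ P2 R Z,
    xw w c R Z J ≤ η → ‖(2 * c * Z) • 1 + tr Z (J 3)‖ ≤ √‖rh c Z‖ / 4 := by
  have := Bd.small (ρ := fun (d : Dat) z => (√‖rh d.c z‖ / 2 : ℝ)) (e := fun d => √d.η)
    (Dat.bp.1.wt (wl_of 6 (by norm_num) fun d z hz => ⟨by positivity, by
      have a := (d.pt hz).e0
      have n := (d.pt hz).n0
      rw [← div_eq_mul_inv, div_le_iff₀ n] at a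
      rw [Complex.norm_real, Real.norm_of_nonneg (by positivity)]
      refine (Real.le_sqrt_of_sq_le ((sq _).trans_le a)).trans_eq ?_
      rw [Real.sqrt_mul (by linarith [d.η0]), Real.sqrt_mul (by norm_num),
        show (9 : ℝ) = 3 ^ 2 by norm_num, Real.sqrt_sq (by norm_num)]; ring⟩))
    (fun _ => Real.sqrt_nonneg _) (by simpa using (tendsto_comap (f := Dat.η) (x := 𝓝 0)).sqrt)
  obtain ⟨t, ht, e⟩ := mem_comap.1 this
  obtain ⟨ε, ε0, ht⟩ := Metric.mem_nhds_iff.1 ht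
  refine ⟨min (ε / 2) 1, by positivity, fun Y R Z η c w h J a b => ?_⟩
  have k := e (a := ⟨Y, R, Z, η, c, w, fun i => J i, h.cyl, h.Y1, h.adw, h.η0,
    h.ηr.trans (min_le_right _ _), h.ηY, (h.xw_le h.η0.le).1 b, (mem_P2 h.le).1 a⟩)
    (ht (by simp [abs_of_pos h.η0]; linarith [h.ηr.trans (min_le_left _ _)]))
  refine (W.norm_le (((Le.comp k (q := fun _ => Z) fun _ _ => right_mem_Icc.2 h.le).wt
    (C := √‖rh c Z‖ / 2) (by positivity) (by simp) (by simp [abs_of_nonneg])).congr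
      fun z _ θ => by simp [tr_apply])).trans_eq (by ring)

/-- restriction to the upper part of the end -/
def rs (R R' Z : ℝ) : (Fin 6 → WI R Z) →L[ℂ] Fin 6 → WI R' Z := .pi fun i =>
  (W.res (cl R' Z) (by unfold cl; fun_prop) (cl_cl _ _)).toContinuousLinearMap ∘L .proj i

theorem rs_apply {R R' Z z : ℝ} (hz : z ∈ Icc R' Z) (J : Fin 6 → WI R Z) (i θ) :
    rs R R' Z J i (z, θ) = J i (z, θ) := by
  change J i (cl R' Z z, θ) = _
  rw [(ret_cl (hz.1.trans hz.2)).fix z hz]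

theorem low_rs {R R' Z : ℝ} (l : R' ≤ Z) (J : Fin 6 → WI R Z) :
    low Z (rs R R' Z J 3) = low Z (J 3) := by
  rw [← low_tr, ← low_tr Z (J 3)]
  exact congrArg _ (W.ext fun q => rs_apply (right_mem_Icc.2 l) _ 3 q.2)

theorem rs_xn {R R' Z M : ℝ} (l : R ≤ R') {o n : Fin 6 → ℝ → ℝ} {J : Fin 6 → WI R Z}
    (h : XN (Icc R Z) o n (fun i => J i) M) : XN (Icc R' Z) o n (fun i => rs R R' Z J i) M :=
  fun i => ((h i).mono (Icc_subset_Icc_left l) (fun _ _ => le_rfl) (fun _ _ => le_rfl)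
    le_rfl).congr fun _ hz θ => rs_apply hz J i θ

theorem rs_p2 {R R' Z : ℝ} (l : R ≤ R') (l' : R' ≤ Z) {J : Fin 6 → WI R Z} (h : J ∈ P2 R Z) :
    rs R R' Z J ∈ P2 R' Z := (mem_P2 l').2 fun z hz =>
  (co_congr (rs_apply hz J 2) 0).trans ((mem_P2 (l.trans l')).1 h z ⟨l.trans hz.1, hz.2⟩)

theorem main : ∃ r₀ C : ℝ, 0 < r₀ ∧ 0 < C ∧ ∀ {Y R₀ R Z η : ℝ} {c : ℂ}, Cyl Y R Z c → Cyl 1 R₀ Z c →
    R₀ ≤ R → 1 ≤ Y → 0 < η → η ≤ r₀ → 1 ≤ η ^ 8 * Y → ∀ u : XE R₀ Z, pN c R₀ Z u < η →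
    ‖(2 * c * Z) • 1 + tr Z (u.1 3)‖ ≤ √‖rh c Z‖ / 4 ∧ ∀ (u' : XE R₀ Z) J₀ J v k f g,
      HasDerivAt f (g + low Z (u'.1 3)) (0 : ℂ) → (∀ t, f t = Bc J₀ J v 0 k Z (rh c Z)
        fun θ => 2 * c * Z + (u.1 3 (Z, θ) + t * u'.1 3 (Z, θ))) →
      qN c R₀ Z (0, g) ≤ C * η * pN c R₀ Z u' ∧ qH c R₀ Z (0, g) ≤ C * η * pH c R₀ Z u' := by
  obtain ⟨r₀, C, r0, C0, e⟩ := end_pk
  obtain ⟨r₁, r1, sl⟩ := slope
  refine ⟨min r₀ r₁, C, by positivity, C0, fun {Y R₀ R Z η c} h h₀ l Y1 η0 hr ηY u hu => ?_⟩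
  rw [le_min_iff] at hr
  have l' : R ≤ Z := by linarith [h.RZ]
  have mW := right_mem_Icc.2 l'
  have p2 : ∀ u : XE R₀ Z, rs R₀ R Z u.1 ∈ P2 R Z := fun u =>
    rs_p2 l l' (XE.p2 (by linarith [h.RZ]) u)
  have nN' : ∀ u : XE R₀ Z, nN c R Z (rs R₀ R Z u.1) ≤ pN c R₀ Z u := fun u =>
    (nN_le h Y1 (apply_nonneg _ _)).2
      (rs_xn l ((nN_le h₀ le_rfl (apply_nonneg _ _)).1 (pN_eq u).ge))
  have nH' : ∀ u : XE R₀ Z, nH c R Z (rs R₀ R Z u.1) ≤ pH c R₀ Z u := fun u =>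
    (nH_le h Y1 (apply_nonneg _ _)).2
      (rs_xn l ((nH_le h₀ le_rfl (apply_nonneg _ _)).1 (pH_eq u).ge))
  have n := (nN' u).trans_lt hu
  have s := sl _ _ _ _ _ _ (sa_N h Y1 η0 hr.2 ηY) _ (p2 u) n.le
  rw [show tr Z (rs R₀ R Z u.1 3) = tr Z (u.1 3) from W.ext fun q => rs_apply mW _ 3 q.2] at s
  refine ⟨s, fun u' J₀ J v k f g a₁ ef => ?_⟩
  replace e := e _ _ _ _ _ h Y1 η0 hr.1 ηY
  obtain ⟨-, -, aR, aB, -, -, d⟩ := e _ (p2 u) n.le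
  obtain ⟨d₁, d₂, -⟩ := d _ (p2 u')
  rw [fderiv_FE aR aB] at d₁ d₂
  have eg : g = low Z (fderiv ℂ (BB c R Z) (rs R₀ R Z u.1) (rs R₀ R Z u'.1)) := by
    have a₂ := (low Z).hasFDerivAt.comp_hasDerivAt (0 : ℂ) (hd_line
      (d := rs R₀ R Z u'.1) (t := 0) (by simpa using aB.differentiableAt))
    have a₃ := (((hasDerivAt_id (0 : ℂ)).smul_const (low Z (u'.1 3))).const_add
      (low Z (u.1 3))).add a₂
    rw [zero_smul, add_zero, one_smul, add_comm (low Z (u'.1 3))] at a₃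
    refine add_right_cancel (a₁.unique ((a₃.add_const
      ![2 * c * Z + gg J₀ J v 0 k Z (rh c Z), 0, 0]).congr_of_eventuallyEq ?_))
    have c : Continuous fun t : ℂ => nN c R Z (rs R₀ R Z u.1) + ‖t‖ * nN c R Z (rs R₀ R Z u'.1) := by
      fun_prop
    filter_upwards [(c.tendsto 0).eventually_le_const (u := η) (by simpa using n)] with t ht
    have := (e _ (add_mem (p2 _) (Submodule.smul_mem _ t (p2 _)))
      ((line_le le_rfl).trans ht)).2.2.2.2.1 J₀ J v 0 k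
    rw [Pi.add_apply, map_add, Pi.smul_apply, map_smul, low_rs l', low_rs l'] at this
    refine (ef t).trans (Eq.trans ?_ this)
    simp only [W.add_apply, W.smul_apply, rs_apply mW]
  obtain ⟨pK, pw, -, ph, -⟩ := pw_all h Y1
  have Z0 := h.z0 mW
  rw [← eg] at d₁ d₂
  exact ⟨Bcb.yn0 (mul_pos Z0 (pw.pos mW)) (mul_pos Z0 ((pK _).pos mW)) (by positivity)
    ((qN_le h Y1).1 (d₁.trans (mul_le_mul_of_nonneg_left (nN' _) (by positivity)))).2,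
    Bcb.yn0 (mul_pos (ph.pos mW) (mul_pos Z0 (pw.pos mW))) (mul_pos Z0 ((pK _).pos mW))
      (by positivity)
    ((qH_le h Y1).1 (d₂.trans (mul_le_mul_of_nonneg_left (nH' _) (by positivity)))).2⟩

end Bca

open Bca in
theorem bca (cy : CY) : BCA := by
  intro M g
  obtain ⟨r₀, C, r0, C0, e⟩ := main
  refine ⟨2, fun k G z2 o => ?_⟩
  filter_upwards [ev_ad, ev_cs (ev₀_K C),
    ev_cs (ev₀_r (f := fun _ => min r₀ 1) (.of_forall fun _ => by positivity)),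
    ev_cs (ev₀_J fun _ r _ => 400 + (r ^ 8)⁻¹),
    ev_Z fun q _ _ => 2 * (G.z₀ + (q.r ^ 4)⁻¹) + 2] with p a hK hr hJ hZ j
  obtain ⟨η0, hr⟩ := hr
  rw [le_min_iff] at hr
  have JJ : (p.J₀ : ℝ) ≤ p.J := by exact_mod_cast a.hJ
  have hW := a.hW j
  have i4 : 0 < (p.r ^ 4)⁻¹ := by positivity
  have Y1 : 1 ≤ (p.r ^ 8)⁻¹ := (one_le_inv₀ (by positivity)).2 (pow_le_one₀ η0.le hr.2)
  have h := cy p.J _ (G.z₀ + (p.r ^ 4)⁻¹) (p.r ^ 8)⁻¹ _ (a.hc j) (by linarith) (hZ.trans hW.1) (by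
    rw [show p.r ^ 8 = (p.r ^ 4) ^ 2 by ring, ← inv_pow]; gcongr; linarith) (by linarith)
  have h₀ := cy p.J _ G.z₀ 1 _ (a.hc j) z2 (by linarith [hW.1]) (by nlinarith) (by linarith)
  have mW : p.W j ∈ Icc G.z₀ (p.W j) := right_mem_Icc.2 (by linarith [h₀.RZ])
  replace e := fun U (hU : G.Nn p U < p.r) => e h h₀ (by linarith) Y1 η0 hr.1
    (mul_inv_cancel₀ (by positivity)).ge (U.2.1.1 j) (((Bcb.le_prs
      (fun j => pN (p.c j) G.z₀ (p.W j)) U.2.1 j).trans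
        (P218H.le_tri (G.pn p.W p.c) U).2.1).trans_lt hU)
  have Z2 : 2 ≤ p.Z := by linarith
  have A : ∀ y ∈ G.Bx p, DifferentiableAt ℂ (fun y => Bj p.J₀ p.J p.m y j) y ∧
      ‖Bj p.J₀ p.J p.m y j - low (p.W j) ((y.1.2.1.1 j).1 3)‖ ≤ p.Z ^ 20 := fun y hy => by
    have b : ‖y.2 - bs p.c p.v‖ ≤ (p.Z ^ 100)⁻¹ := hy.2.le
    simp only [Prod.norm_def, max_le_iff, bs, Prod.fst_sub, Prod.snd_sub, sub_zero] at b
    obtain ⟨δ1, z1, n0, v3, p1, p5, im, y1⟩ := num (J := p.J) (δ := (p.Z ^ 100)⁻¹)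
      (c' := y.2.1 j) (l := y.2.2.1 j) (Z' := Zb y j) (V' := Vb y j)
      (by linarith [hW.1]) (by
        rw [inv_mul_le_iff₀ (by positivity)]
        calc p.W j ^ 4 ≤ (10 * p.Z) ^ 4 := by gcongr; exacts [(h₀.z0 mW).le, hW.2]
          _ ≤ 2 ^ 96 / 2000 * p.Z ^ 4 := by rw [mul_pow]; gcongr; norm_num
          _ ≤ p.Z ^ 96 / 2000 * p.Z ^ 4 := by gcongr
          _ = _ := by ring) h.cZ (h₀.dsc _ mW) (by exact_mod_cast (show (400 : ℝ) ≤ p.J by linarith))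
      (Bcb.tip (a.hc j) (h₀.z0 mW)) ((norm_le_pi_norm (y.2.1 - p.c) j).trans b.1)
      ((norm_le_pi_norm _ j).trans b.2.1) rfl rfl
    obtain ⟨k0, k1⟩ := lk_le (m := p.m j) im
    obtain ⟨e1, g1⟩ := gg_le a.hJ δ1 ((norm_le_pi_norm _ j).trans b.2.2.1) b.2.2.2 a.hv z1 v3.2 k1 y1
    obtain ⟨n, b⟩ := box (z := p.W j) n0 v3 z1 p1 p5 g1 (e _ hy.1).1 rfl
    have eB : ∀ y : G.XX p.W × Pm (Fin M.n₁), Bj p.J₀ p.J p.m y j = Bc p.J₀ p.J y.2.2.2.2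
        (y.2.2.2.1 j) (km (p.m j)) (Zb y j) (Vb y j) fun θ => ((2 * y.2.1 j * Zb y j) • 1 +
          tr (p.W j) ((y.1.2.1.1 j).1 3)) (p.W j, θ) := fun y => by
      rw [Bj]; congr; ext; simp [pb, tr_apply]
    simp only [eB]
    refine ⟨bc_diff (by unfold Zb; fun_prop) (by unfold Vb Zb; fun_prop) (by fun_prop) (by fun_prop)
      ?_ (norm_pos_iff.1 (by linarith)) (norm_pos_iff.1 (by linarith)) n k0 e1,
      b.trans (le_trans (by norm_num) (pow_le_pow_left₀ zero_le_two Z2 20))⟩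
    refine DifferentiableAt.add (by unfold Zb; fun_prop) ((tr (p.W j)).differentiableAt.comp y
      (differentiableAt_pi.1 ((XE G.z₀ (p.W j)).subtypeL.differentiableAt.comp y (by fun_prop)) 3))
  refine ⟨A, fun U hU U' g hg => ?_⟩
  have a₁ := hd_line (F := fun y => Bj p.J₀ p.J p.m y j) (x := (U, bs p.c p.v)) (d := (U', 0))
    (t := 0) (by
      rw [zero_smul, add_zero]
      exact (A (U, bs p.c p.v) ⟨hU, by simpa using pow_pos (by linarith : 0 < p.Z) 100⟩).1)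
  rw [zero_smul, add_zero, eq_add_of_sub_eq hg.symm] at a₁
  have := (e U hU).2 (U'.2.1.1 j) p.J₀ p.J p.v (km (p.m j)) _ g a₁ fun t => by
    rw [Prod.smul_mk, Prod.mk_add_mk, smul_zero, add_zero, Bcb.bj_eq]; rfl
  exact ⟨this.1.trans (by gcongr), this.2.trans (by gcongr)⟩

end Vale.Agent.P218I
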