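import Vale.Agent.P218N.Amb
import Vale.Agent.P218M.Spec2

/-! The row `BCB`: pointwise estimates of the boundary conditions as functions of the opening. -/

open Set Metric Filter Topology
open scoped Real

noncomputable section

namespace Vale.Agent.P218I.Bcb

open Vale.Agent.P218M Vale.Agent.P218N Vale.Agent.P218T.HJ

/-- `(1 + w) ^ (-1/2)` -/
def qq (w : ℂ) : ℂ := 1 / Complex.sqrt (1 + w)

theorem rt {w : ℂ} (h : ‖w‖ ≤ 1 / 2) : ‖Complex.sqrt (1 + w) - 1‖ ≤ ‖w‖ ∧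
    1 / 2 ≤ (Complex.sqrt (1 + w)).re ∧ 1 / 2 ≤ ‖Complex.sqrt (1 + w)‖ := by
  have h1 : ‖Complex.sqrt (1 + w) - 1‖ ≤ ‖w‖ := by
    simpa using root_le (w := -w) (by rw [sqrt_sq, sub_neg_eq_add]) (sqrt_re _)
  have h2 := (Complex.abs_re_le_norm _).trans h1
  have h3 : 1 / 2 ≤ (Complex.sqrt (1 + w)).re := by
    rw [Complex.sub_re, Complex.one_re] at h2
    linarith [neg_abs_le ((Complex.sqrt (1 + w)).re - 1)]
  exact ⟨h1, h3, h3.trans (Complex.re_le_norm _)⟩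

theorem q_sub {w w' : ℂ} (h : ‖w‖ ≤ 1 / 2) (h' : ‖w'‖ ≤ 1 / 2) :
    ‖qq w - qq w'‖ ≤ 4 * ‖w - w'‖ := by
  obtain ⟨-, a, b⟩ := rt h
  obtain ⟨-, a', b'⟩ := rt h'
  have s := sqrt_sq (1 + w)
  have s' := sqrt_sq (1 + w')
  unfold qq
  generalize Complex.sqrt (1 + w) = x at *
  generalize Complex.sqrt (1 + w') = y at *
  have c : 1 ≤ ‖x + y‖ := le_trans (by rw [Complex.add_re]; linarith) (Complex.re_le_norm _)
  have x0 : x ≠ 0 := norm_pos_iff.1 (by linarith)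
  have y0 : y ≠ 0 := norm_pos_iff.1 (by linarith)
  have e : (1 / x - 1 / y) * (x * y * (x + y)) = -(w - w') := by
    field_simp
    linear_combination s' - s
  have k := congrArg norm e
  rw [norm_neg, norm_mul, norm_mul, norm_mul] at k
  have l : 1 / 2 * (1 / 2) * 1 ≤ ‖x‖ * ‖y‖ * ‖x + y‖ := by gcongr
  nlinarith [norm_nonneg (1 / x - 1 / y)]

theorem q_one {w : ℂ} (h : ‖w‖ ≤ 1 / 2) : ‖qq w - 1‖ ≤ 4 * ‖w‖ := by
  simpa [qq] using q_sub h (w' := 0) (by simp)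

theorem q_diff {w : ℂ} (h : ‖w‖ ≤ 1 / 2) : DifferentiableAt ℂ qq w :=
  (differentiableAt_const _).div ((hasDerivAt_sqrt (Complex.mem_slitPlane_of_norm_lt_one
    (by linarith))).differentiableAt.comp w (differentiableAt_id.const_add 1))
    (norm_pos_iff.1 (by linarith [(rt h).2.2]))

/-- `V_z² / (4 V)` -/
def ww (Z : ℝ) (s x : ℂ) : ℂ := (2 * s * Z + x) ^ 2 / (4 * rh s Z)

/-- the integrand of the first row -/
def f0 (Z : ℝ) (s x : ℂ) : ℂ := (2 * s * Z + x) * qq (ww Z s x)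

/-- the integrand of the other rows -/
def f1 (Z : ℝ) (s x : ℂ) : ℂ := (x - 4 * (1 - s) / Z) * qq (ww Z s x)

/-- the boundary term -/
def gg (J₀ J : ℕ) (v : ℂ) (Z : ℝ) (s : ℂ) : ℂ :=
  4 * ((1 - v) * gm J₀ Z (rh s Z) + v * gm J Z (rh s Z)) / Z

theorem mn_mul (a : ℂ) (f : ℝ → ℂ) : a * mn f = mn fun θ => a * f θ := by
  simp only [mn, interval_average_eq, intervalIntegral.integral_const_mul, Complex.real_smul]
  ring

theorem bc_eq {Z : ℝ} {s : ℂ} (hZ : Z ≠ 0) (hV : rh s Z ≠ 0) (J₀ J : ℕ) (v k : ℂ) (u : ℝ → ℂ) :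
    Bc J₀ J v 0 k Z (rh s Z) (fun θ => 2 * s * Z + u θ) =
      ![mn (fun θ => 1 * f0 Z s (u θ)) + gg J₀ J v Z s, mn fun θ => Real.cos θ * f1 Z s (u θ),
        mn fun θ => Real.sin θ * f1 Z s (u θ)] := by
  have sq := sqrt_sq (rh s Z)
  have s0 : Complex.sqrt (rh s Z) ≠ 0 := fun e => hV (by rw [← sq, e]; simp)
  have Z0 : (Z : ℂ) ≠ 0 := by exact_mod_cast hZ
  have e : ∀ x, Qc (rh s Z) (2 * s * Z + x) = qq (ww Z s x) := fun x => by
    rw [Qc, qq, ww, div_pow, sq, div_div, mul_comm _ 4]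
  have e0 : ∀ x, Pc (rh s Z) (2 * s * Z + x) = (Complex.sqrt (rh s Z))⁻¹ * f0 Z s x := fun x => by
    rw [f0, ← e, Pc, Qc]
    ring
  have e1 : ∀ x t : ℂ, 2 * Complex.sqrt (rh s Z) / Z * (t * (Z / 2 * Pc (rh s Z) (2 * s * Z + x) -
      Complex.sqrt (rh s Z) * Qc (rh s Z) (2 * s * Z + x))) = t * f1 Z s x := fun x t => by
    rw [e0, e, f0, f1]
    generalize Complex.sqrt (rh s Z) = r at sq s0
    rw [rh] at sq
    field_simp
    linear_combination (-2 * t * qq (ww Z s x)) * sq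
  simp only [Bc, mn_mul, e1]
  simp only [e0, gg, mul_inv_cancel_left₀ s0, zero_mul, add_zero, mul_one, one_mul]

theorem mn_le {t f g : ℝ → ℂ} (ht : Continuous t) (hf : Continuous f) (hg : Continuous g)
    (t1 : ∀ θ, ‖t θ‖ ≤ 1) {a : ℂ} {L : ℝ} (h : ∀ θ, ‖f θ - g θ - a‖ ≤ L) :
    ‖mn (fun θ => t θ * f θ) - mn (fun θ => t θ * g θ) - a * mn t‖ ≤ L := by
  have p := Real.pi_pos
  have i : ∀ {k : ℝ → ℂ}, Continuous k → IntervalIntegrable k MeasureTheory.volume 0 (2 * π) :=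
    fun h => h.intervalIntegrable _ _
  have h1 := intervalIntegral.norm_integral_le_of_norm_le_const (a := 0) (b := 2 * π) (C := L)
    (f := fun θ => t θ * f θ - t θ * g θ - a * t θ) fun θ _ => by
      rw [show t θ * f θ - t θ * g θ - a * t θ = t θ * (f θ - g θ - a) by ring, norm_mul]
      exact (mul_le_of_le_one_left (norm_nonneg _) (t1 θ)).trans (h θ)
  rw [intervalIntegral.integral_sub (i (by fun_prop)) (i (by fun_prop)),
    intervalIntegral.integral_sub (i (by fun_prop)) (i (by fun_prop))] at h1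
  rw [mn_mul]
  simp only [mn, interval_average_eq, ← smul_sub]
  rw [norm_smul, sub_zero, Real.norm_of_nonneg (by positivity), inv_mul_le_iff₀ (by positivity)]
  rwa [sub_zero, abs_of_pos (by positivity), mul_comm L] at h1

theorem mn_one : mn (fun _ => 1) = 1 := by
  rw [mn, interval_average_eq, intervalIntegral.integral_const, smul_smul,
    inv_mul_cancel₀ (by simp), one_smul]

theorem mn_cos : mn (fun θ => Real.cos θ) = 0 := by
  rw [mn, interval_average_eq, intervalIntegral.integral_ofReal, integral_cos]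
  simp

theorem mn_sin : mn (fun θ => Real.sin θ) = 0 := by
  rw [mn, interval_average_eq, intervalIntegral.integral_ofReal, integral_sin]
  simp

theorem schw {F : ℂ → ℂ} {c s : ℂ} {δ M : ℝ} (hd : ∀ s ∈ ball c δ, DifferentiableAt ℂ F s)
    (hb : ∀ s ∈ ball c δ, ‖F s‖ ≤ M) (hs : s ∈ ball c δ) : ‖F s - F c‖ ≤ 2 * M / δ * ‖s - c‖ := by
  have h := Complex.dist_le_div_mul_dist_of_mapsTo_ball (R₂ := 2 * M)
    (fun s hs => (hd s hs).differentiableWithinAt) (fun s hs => by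
      rw [mem_closedBall, dist_eq_norm]
      linarith [norm_sub_le (F s) (F c), hb s hs, hb c (mem_ball_self (pos_of_mem_ball hs))]) hs
  rwa [dist_eq_norm, dist_eq_norm] at h

/-- the hypotheses at the cut; `P` bounds the slopes -/
structure Dt (Z : ℝ) (c : ℂ) (J : ℕ) (P : ℝ) : Prop where
  Z3 : 3 ≤ Z
  x0 : 0 < (rh c Z).re
  n6 : ‖rh c Z‖ ≤ 6
  cZ : ‖c‖ * Z ^ 2 ≤ 8
  tip : 4 * ((J : ℝ) + 3) ≤ 3 * (49 / 200 * (Z ^ 2 * (rh c Z).re))
  P2 : P ^ 2 ≤ (rh c Z).re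

/-- the disc of the openings -/
abbrev dk (Z : ℝ) (c : ℂ) : Set ℂ := ball c ((rh c Z).re / (50 * Z ^ 2))

namespace Dt

variable {Z P : ℝ} {c s x y : ℂ} {J J₀ : ℕ} (h : Dt Z c J P)
include h

theorem near (hs : s ∈ dk Z c) : 49 / 50 * (rh c Z).re ≤ ‖rh s Z‖ ∧
    49 / 50 * ‖rh c Z‖ ≤ ‖rh s Z‖ ∧ ‖rh s Z‖ ≤ 7 ∧ ‖s‖ * Z ^ 2 ≤ 9 := by
  have Z9 : 9 ≤ Z ^ 2 := by nlinarith [h.Z3]
  have h1 : ‖s - c‖ * Z ^ 2 ≤ (rh c Z).re / 50 := by
    have := (mem_ball_iff_norm.1 hs).le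
    rw [le_div_iff₀ (by positivity)] at this
    linarith
  have h2 : ‖rh s Z - rh c Z‖ ≤ (rh c Z).re / 50 := by
    rw [show rh s Z - rh c Z = (s - c) * ((Z ^ 2 - 2 : ℝ) : ℂ) by simp only [rh]; push_cast; ring,
      norm_mul, Complex.norm_real, Real.norm_of_nonneg (by linarith)]
    nlinarith [norm_nonneg (s - c)]
  have h3 := Complex.re_le_norm (rh c Z)
  have h4 := norm_sub_norm_le (rh s Z) (rh c Z)
  have h5 := norm_sub_norm_le (rh c Z) (rh s Z)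
  rw [norm_sub_rev] at h5
  have h6 := mul_le_mul_of_nonneg_right (norm_sub_norm_le s c) (sq_nonneg Z)
  exact ⟨by linarith, by linarith, by linarith [h.n6], by linarith [h.n6, h.cZ]⟩

theorem ne (hs : s ∈ dk Z c) : rh s Z ≠ 0 :=
  norm_pos_iff.1 (by linarith [(h.near hs).1, h.x0])

theorem slope (hs : s ∈ dk Z c) (hx : ‖x‖ + 18 / Z ≤ P) :
    ‖2 * s * Z + x‖ ≤ P ∧ ‖x - 4 * (1 - s) / Z‖ ≤ P ∧ ‖ww Z s x‖ ≤ P ^ 2 / (4 * ‖rh s Z‖) ∧
      ‖ww Z s x‖ ≤ 1 / 2 := by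
  obtain ⟨a, -, -, b⟩ := h.near hs
  have Z0 : 0 < Z := by linarith [h.Z3]
  have Z9 : 9 ≤ Z ^ 2 := by nlinarith [h.Z3]
  have x0 := h.x0
  have h1 : ‖2 * s * Z + x‖ ≤ P := by
    refine (norm_add_le _ _).trans (le_trans ?_ hx)
    rw [add_comm, add_le_add_iff_left, le_div_iff₀ Z0]
    simp only [norm_mul, Complex.norm_ofNat, Complex.norm_real, Real.norm_of_nonneg Z0.le]
    linarith
  have h2 : ‖ww Z s x‖ ≤ P ^ 2 / (4 * ‖rh s Z‖) := by
    rw [ww, norm_div, norm_pow, norm_mul, Complex.norm_ofNat]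
    gcongr
  refine ⟨h1, (norm_sub_le _ _).trans (le_trans ?_ hx), h2, h2.trans ?_⟩
  · rw [add_le_add_iff_left, norm_div, norm_mul, Complex.norm_ofNat, Complex.norm_real,
      Real.norm_of_nonneg Z0.le]
    have := norm_sub_le 1 s
    rw [norm_one] at this
    gcongr
    nlinarith [norm_nonneg s]
  · rw [div_le_iff₀ (by linarith)]
    linarith [h.P2]

omit h in
theorem d_rh : DifferentiableAt ℂ (fun s => rh s Z) s := by
  unfold rh
  fun_prop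

theorem d_q (hs : s ∈ dk Z c) (hx : ‖x‖ + 18 / Z ≤ P) :
    DifferentiableAt ℂ (fun s => qq (ww Z s x)) s :=
  (q_diff (h.slope hs hx).2.2.2).comp s (f := fun s => ww Z s x) (DifferentiableAt.div
    (by fun_prop) (d_rh.const_mul 4) (mul_ne_zero (by norm_num) (h.ne hs)))

theorem c_q (hs : s ∈ dk Z c) {u : ℝ → ℂ} (hu : Continuous u) (hx : ∀ θ, ‖u θ‖ + 18 / Z ≤ P) :
    Continuous fun θ => qq (ww Z s (u θ)) := continuous_iff_continuousAt.2 fun θ =>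
  (q_diff (h.slope hs (hx θ)).2.2.2).continuousAt.comp (f := fun θ => ww Z s (u θ))
    (by unfold ww; fun_prop)

theorem yb (hs : s ∈ dk Z c) {I : ℕ} (hI : I ≤ J) :
    4 * ((I : ℝ) + 3) ≤ 3 * ‖(Z : ℂ) ^ 2 * rh s Z / 4‖ ∧
      ‖(Z : ℂ) ^ 2 * rh s Z / 4‖⁻¹ ≤ 5 / (Z ^ 2 * (rh c Z).re) := by
  have Z0 : 0 < Z := by linarith [h.Z3]
  have x0 := h.x0
  have h1 : 49 / 200 * (Z ^ 2 * (rh c Z).re) ≤ ‖(Z : ℂ) ^ 2 * rh s Z / 4‖ := by
    rw [norm_div, norm_mul, norm_pow, Complex.norm_real, Real.norm_of_nonneg Z0.le,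
      Complex.norm_ofNat]
    nlinarith [(h.near hs).1, sq_nonneg Z]
  have h2 : (I : ℝ) ≤ J := by exact_mod_cast hI
  have h3 : 0 < Z ^ 2 * (rh c Z).re := by positivity
  refine ⟨by linarith [h.tip], ?_⟩
  rw [inv_eq_one_div, div_le_div_iff₀ (by linarith) h3]
  linarith

theorem gm_le (hs : s ∈ dk Z c) {I : ℕ} (hI : I ≤ J) :
    ‖2 * s * Z + 4 * gm I Z (rh s Z) / Z‖ ≤ 600 / (Z * (Z ^ 2 * (rh c Z).re)) := by
  obtain ⟨a, b⟩ := h.yb hs hI
  obtain ⟨-, -, d, e⟩ := h.near hs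
  have Z0 : 0 < Z := by linarith [h.Z3]
  have Z0' : (Z : ℂ) ≠ 0 := by exact_mod_cast Z0.ne'
  have x0 := h.x0
  have h1 := eta_le a
  have h2 := dta_le a
  have h3 : 2 * s * Z + 4 * gm I Z (rh s Z) / Z = (4 * s + 4 * (dta I (Z ^ 2 * rh s Z / 4) - 1) -
      2 * rh s Z * (eta I (Z ^ 2 * rh s Z / 4) - 1)) / Z := by
    rw [gm]
    generalize eta I _ = η, dta I _ = δ
    rw [rh]
    field_simp
    ring
  have h4 : ‖s‖ ≤ 54 * (1 / (Z ^ 2 * (rh c Z).re)) := by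
    rw [mul_one_div, le_div_iff₀ (by positivity)]
    nlinarith [(Complex.re_le_norm _).trans h.n6, mul_nonneg (norm_nonneg s) (sq_nonneg Z)]
  rw [h3, norm_div, Complex.norm_real, Real.norm_of_nonneg Z0.le, mul_comm Z, ← div_div,
    div_eq_mul_one_div 600]
  rw [div_eq_mul_one_div 5] at b
  gcongr
  refine (norm_sub_le _ _).trans ((add_le_add_left (norm_add_le _ _) _).trans ?_)
  simp only [norm_mul, Complex.norm_ofNat]
  have h5 : 0 < 1 / (Z ^ 2 * (rh c Z).re) := by positivity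
  nlinarith [mul_le_mul d h1 (norm_nonneg _) (by norm_num)]

theorem d_gg (hs : s ∈ dk Z c) (v : ℂ) : DifferentiableAt ℂ (gg J₀ J v Z) s := by
  have Z0 : (Z : ℂ) ≠ 0 := by exact_mod_cast (by linarith [h.Z3] : Z ≠ 0)
  have y0 : (Z : ℂ) ^ 2 * rh s Z / 4 ≠ 0 := by simp [Z0, h.ne hs]
  have d : DifferentiableAt ℂ (fun s => (Z : ℂ) ^ 2 * rh s Z / 4) s :=
    (d_rh.const_mul _).div_const _
  have g : ∀ I, DifferentiableAt ℂ (fun s => gm I Z (rh s Z)) s := fun I =>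
    (DifferentiableAt.fun_comp' s (diff_dta I y0) d).fun_sub
      ((d_rh.fun_mul (DifferentiableAt.fun_comp' s (diff_eta I y0) d)).div_const 2)
  exact ((((g J₀).const_mul _).add ((g J).const_mul _)).const_mul 4).div_const _

/-- first row, the linear part removed -/
theorem le0 (hJ : J₀ ≤ J) {v : ℝ} (hv : v ∈ Icc (0 : ℝ) 1) (hs : s ∈ dk Z c)
    (hx : ‖x‖ + 18 / Z ≤ P) : ‖f0 Z s x - x + gg J₀ J v Z s‖ ≤
      2 * P ^ 3 / (rh c Z).re + 600 / (Z * (Z ^ 2 * (rh c Z).re)) := by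
  obtain ⟨a, -, b, d⟩ := h.slope hs hx
  have x0 := h.x0
  have n := (h.near hs).1
  have P0 : 0 ≤ P := (norm_nonneg _).trans a
  rw [show f0 Z s x - x + gg J₀ J v Z s = (2 * s * Z + x) * (qq (ww Z s x) - 1) +
    (((1 - v : ℝ) : ℂ) * (2 * s * Z + 4 * gm J₀ Z (rh s Z) / Z) +
      v * (2 * s * Z + 4 * gm J Z (rh s Z) / Z)) by simp only [f0, gg]; push_cast; ring]
  refine (norm_add_le _ _).trans (add_le_add ?_ ((norm_add_le _ _).trans ?_))
  · rw [norm_mul]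
    calc _ ≤ P * (4 * (P ^ 2 / (4 * ‖rh s Z‖))) := by
          gcongr
          exact (q_one d).trans (by gcongr)
      _ ≤ P * (4 * (P ^ 2 / (4 * ((rh c Z).re / 2)))) := by gcongr; linarith
      _ = _ := by field_simp
  · rw [norm_mul, norm_mul, Complex.norm_real, Complex.norm_real, Real.norm_of_nonneg hv.1,
      Real.norm_of_nonneg (sub_nonneg.2 hv.2)]
    nlinarith [mul_le_mul_of_nonneg_left (h.gm_le hs hJ) (sub_nonneg.2 hv.2),
      mul_le_mul_of_nonneg_left (h.gm_le hs le_rfl) hv.1]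

/-- the other rows, the linear part and the symmetric part removed -/
theorem le1 (hs : s ∈ dk Z c) (hx : ‖x‖ + 18 / Z ≤ P) (hy : ‖y‖ + 18 / Z ≤ P) :
    ‖f1 Z s x - x - (f1 Z s y - y)‖ ≤ 4 * ‖x - y‖ * P ^ 2 / ‖rh c Z‖ := by
  obtain ⟨a, -, b, d⟩ := h.slope hs hx
  obtain ⟨a', e, -, d'⟩ := h.slope hs hy
  have n0 := h.x0.trans_le (Complex.re_le_norm _)
  have n := (h.near hs).2.1
  have N0 : 0 < ‖rh s Z‖ := by linarith
  have P0 : 0 ≤ P := (norm_nonneg _).trans a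
  have h1 : ‖ww Z s x - ww Z s y‖ ≤ ‖x - y‖ * (2 * P) / (4 * ‖rh s Z‖) := by
    rw [ww, ww, ← sub_div, show (2 * s * Z + x) ^ 2 - (2 * s * Z + y) ^ 2 =
      (x - y) * (2 * s * Z + x + (2 * s * Z + y)) by ring, norm_div, norm_mul, norm_mul,
      Complex.norm_ofNat]
    gcongr
    linarith [norm_add_le (2 * s * Z + x) (2 * s * Z + y)]
  rw [show f1 Z s x - x - (f1 Z s y - y) = (x - y) * (qq (ww Z s x) - 1) +
    (y - 4 * (1 - s) / Z) * (qq (ww Z s x) - qq (ww Z s y)) by simp only [f1]; ring]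
  refine (norm_add_le _ _).trans ?_
  rw [norm_mul, norm_mul]
  calc _ ≤ ‖x - y‖ * (4 * (P ^ 2 / (4 * ‖rh s Z‖))) +
        P * (4 * (‖x - y‖ * (2 * P) / (4 * ‖rh s Z‖))) := by
        gcongr
        · exact (q_one d).trans (by gcongr)
        · exact (q_sub d d').trans (by gcongr)
    _ = 3 * ‖x - y‖ * P ^ 2 / ‖rh s Z‖ := by field_simp; ring
    _ ≤ 3 * ‖x - y‖ * P ^ 2 / (3 / 4 * ‖rh c Z‖) := by gcongr; linarith
    _ = _ := by field_simp

theorem ctr : c ∈ dk Z c := mem_ball_self (by have := h.x0; have := h.Z3; positivity)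

/-- the residual for a symmetric slope -/
theorem res (hJ : J₀ ≤ J) {v : ℝ} (hv : v ∈ Icc (0 : ℝ) 1) (hP : 18 / Z ≤ P) (k : ℂ) :
    ∃ b, Bc J₀ J v 0 k Z (rh c Z) (fun _ => 2 * c * Z + 0) = ![b, 0, 0] ∧
      ‖b‖ ≤ 2 * P ^ 3 / (rh c Z).re + 600 / (Z * (Z ^ 2 * (rh c Z).re)) := by
  refine ⟨f0 Z c 0 - 0 + gg J₀ J v Z c, ?_, h.le0 hJ hv h.ctr (by simpa using hP)⟩
  rw [bc_eq (by linarith [h.Z3]) (h.ne h.ctr)]
  simp only [mul_comm _ (f0 _ _ _), mul_comm _ (f1 _ _ _), ← mn_mul, mn_one, mn_cos, mn_sin]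
  rw [mul_one, mul_zero, sub_zero]

/-- the dependence on the opening -/
theorem lip (hJ : J₀ ≤ J) {v : ℝ} (hv : v ∈ Icc (0 : ℝ) 1) (k : ℂ) {u : ℝ → ℂ} (hu : Continuous u)
    (hx : ∀ θ, ‖u θ‖ + 18 / Z ≤ P) (hy : ‖y‖ + 18 / Z ≤ P) {A : ℝ} (hA : ∀ θ, ‖u θ - y‖ ≤ A)
    (hs : s ∈ dk Z c) (i : Fin 3) :
    ‖Bc J₀ J v 0 k Z (rh s Z) (fun θ => 2 * s * Z + u θ) i -
      Bc J₀ J v 0 k Z (rh c Z) (fun θ => 2 * c * Z + u θ) i‖ ≤ 100 * P218M.hv c Z *
      ![2 * P ^ 3 / (rh c Z).re + 600 / (Z * (Z ^ 2 * (rh c Z).re)), 4 * A * P ^ 2 / ‖rh c Z‖,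
        4 * A * P ^ 2 / ‖rh c Z‖] i * ‖s - c‖ := by
  have e : ∀ M : ℝ, 2 * M / ((rh c Z).re / (50 * Z ^ 2)) = 100 * P218M.hv c Z * M := fun M => by
    rw [P218M.hv]
    rw [div_div_eq_mul_div]
    ring
  have c0 : ∀ s ∈ dk Z c, Continuous fun θ => f0 Z s (u θ) := fun s hs =>
    (continuous_const.add hu).mul (h.c_q hs hu hx)
  have c1 : ∀ s ∈ dk Z c, Continuous fun θ => f1 Z s (u θ) := fun s hs =>
    (hu.sub continuous_const).mul (h.c_q hs hu hx)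
  have d1 : ∀ x, ‖x‖ + 18 / Z ≤ P → ∀ s ∈ dk Z c, DifferentiableAt ℂ (fun s => f1 Z s x - x) s :=
    fun x hx s hs => (DifferentiableAt.fun_mul (by fun_prop) (h.d_q hs hx)).sub_const x
  have k1 : ∀ t : ℝ → ℂ, Continuous t → (∀ θ, ‖t θ‖ ≤ 1) → mn t = 0 →
      ‖mn (fun θ => t θ * f1 Z s (u θ)) - mn fun θ => t θ * f1 Z c (u θ)‖ ≤
        100 * P218M.hv c Z * (4 * A * P ^ 2 / ‖rh c Z‖) * ‖s - c‖ := fun t ht t1 t0 => by
    have := mn_le ht (c1 s hs) (c1 c h.ctr) t1 (a := f1 Z s y - f1 Z c y) fun θ =>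
      (congrArg norm (by ring)).trans_le (schw (fun s hs => (d1 _ (hx θ) s hs).fun_sub
        (d1 _ hy s hs)) (fun s hs => (h.le1 hs (hx θ) hy).trans
          (show _ ≤ 4 * A * P ^ 2 / ‖rh c Z‖ by gcongr; exact hA θ)) hs)
    rwa [t0, mul_zero, sub_zero, e] at this
  rw [bc_eq (by linarith [h.Z3]) (h.ne h.ctr), bc_eq (by linarith [h.Z3]) (h.ne hs)]
  fin_cases i
  · have := mn_le (t := fun _ => 1) continuous_const (c0 s hs) (c0 c h.ctr) (by simp)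
      (a := gg J₀ J v Z c - gg J₀ J v Z s) fun θ => (congrArg norm (by ring)).trans_le
        (schw (F := fun s => f0 Z s (u θ) - u θ + gg J₀ J v Z s)
          (fun s hs => ((DifferentiableAt.fun_mul (by fun_prop) (h.d_q hs (hx θ))).sub_const
          (u θ)).fun_add (h.d_gg hs v)) (fun s hs => h.le0 hJ hv hs (hx θ)) hs)
    rw [mn_one, e] at this
    exact (congrArg norm (by simp; ring)).trans_le this
  · exact k1 _ (by fun_prop) (fun θ => (Complex.norm_real _).trans_le (Real.abs_cos_le_one θ))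
      mn_cos
  · exact k1 _ (by fun_prop) (fun θ => (Complex.norm_real _).trans_le (Real.abs_sin_le_one θ))
      mn_sin

end Dt

end Vale.Agent.P218I.Bcb
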