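import Vale.Agent.P218I.Spec
import Vale.Agent.P218I.BcbA

/-! The row `BCB`. -/

open Set Metric Filter Topology

noncomputable section

namespace Vale.Agent.P218I

open Vale.Agent.P218T Vale.Agent.P218L Vale.Agent.P218M Vale.Agent.P218W GD
open Vale.Agent.P218N (Bc km)

namespace Bcb

variable {R Z r C M β₀ β₁ : ℝ} {c : ℂ} {J : ℕ}

theorem yn0 {g₀ g : ℝ → ℝ} {b : Fin 3 → ℂ} (b₀ : 0 < β₀) (b₁ : 0 < β₁) (M0 : 0 ≤ M)
    (h : ∀ i, ‖b i‖ ≤ M * ![β₀, β₁, β₁] i) : yn (R := R) (Z := Z) g₀ g β₀ β₁ (0, b) ≤ M := by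
  have p : ∀ i, 0 < ![β₀, β₁, β₁] i := fun i => by fin_cases i <;> assumption
  refine max_le ((map_zero (wn2 (Icc R Z) g₀ g)).trans_le M0)
    ((pi_norm_le_iff_of_nonneg M0).2 fun i => ?_)
  change ‖_ * b i‖ ≤ M
  rw [norm_mul, norm_inv, Complex.norm_real, Real.norm_of_nonneg (p i).le, inv_mul_le_iff₀ (p i),
    mul_comm]
  exact h i

theorem tip (h : c ∈ P218Q.dsc (7 / 5 * P218Q.nu J) Z) (Z0 : 0 < Z) :
    28 / 5 * J ≤ Z ^ 2 * (rh c Z).re := by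
  have h1 : ‖rh c Z - 3‖ < 3 - 4 * (7 / 5 * (J + 1 / 2)) / Z ^ 2 := h
  have h2 := (neg_abs_le _).trans' (neg_le_neg (Complex.abs_re_le_norm (rh c Z - 3)))
  rw [Complex.sub_re, Complex.re_ofNat] at h2
  have h3 : 4 * (7 / 5 * (J + 1 / 2)) / Z ^ 2 ≤ (rh c Z).re := by linarith
  rw [div_le_iff₀ (by positivity)] at h3
  linarith

theorem beta (Z0 : 0 < Z) (x0 : 0 < (rh c Z).re) :
    (Z * (Z * wO c Z)) ^ 4 = Z ^ 2 * (rh c Z).re := by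
  rw [wO, mul_pow, mul_pow, mul_pow, ← Real.rpow_natCast (_ ^ (-3 / 2 : ℝ)), ← Real.rpow_mul Z0.le,
    ← Real.rpow_natCast (_ ^ (1 / 4 : ℝ)), ← Real.rpow_mul x0.le,
    show (-3 / 2 * (4 : ℕ) : ℝ) = -(6 : ℕ) by norm_num, Real.rpow_neg Z0.le, Real.rpow_natCast]
  norm_num
  field_simp

/-- the numerical facts; `β = Z wO`, `x = Re ρ` -/
theorem num {x β : ℝ} (Z0 : 0 < Z) (β0 : 0 < β) (x0 : 0 < x) (r0 : 0 < r) (r1 : r ≤ 1)
    (e : (Z * β) ^ 4 = Z ^ 2 * x) (h : (18 / r) ^ 4 ≤ Z ^ 2 * x) :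
    18 / Z ≤ r * β ∧ β ^ 2 ≤ x ∧ 1 ≤ Z ^ 2 * x ∧ 13000 / (Z * (Z ^ 2 * x)) ≤ r ^ 2 * β := by
  have h1 : 18 / r ≤ Z * β := le_of_pow_le_pow_left₀ four_ne_zero (by positivity) (e ▸ h)
  rw [div_le_iff₀ r0] at h1
  have h2 : 18 ≤ Z * β := by nlinarith [mul_pos Z0 β0]
  have h3 : 1 ≤ Z ^ 2 * x := e ▸ one_le_pow₀ (by linarith)
  refine ⟨by rw [div_le_iff₀ Z0]; linarith, ?_, h3, ?_⟩
  · refine le_of_sq_le_sq (le_of_mul_le_mul_left ?_ (pow_pos Z0 4)) x0.le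
    nlinarith
  · rw [div_le_iff₀ (by positivity), ← e]
    calc (13000 : ℝ) ≤ 18 ^ 2 * 18 ^ 3 := by norm_num
      _ ≤ (Z * β * r) ^ 2 * (Z * β) ^ 3 := by gcongr
      _ = _ := by ring

/-- the slope at the cut -/
theorem slope (h : Cyl 1 R Z c) (v : XE R Z) (hv : pN c R Z v ≤ r) (r0 : 0 < r)
    (h1 : 18 / Z ≤ Z * wO c Z) : ‖co (v.1 3) 0 Z‖ ≤ 3 / 2 * (r * (Z * wO c Z)) ∧
      ∀ θ, ‖v.1 3 (Z, θ) - co (v.1 3) 0 Z‖ ≤ r * (Z * wK (31 / 16) c Z * ta c Z) := by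
  have mZ : Z ∈ Icc R Z := right_mem_Icc.2 (by linarith [h.RZ])
  obtain ⟨pK, pw, pg, -, px, -⟩ := pw_all h le_rfl
  obtain ⟨a, b⟩ := ((ret_cl mZ.1).xn_le_iff (pw_om h one_pos (pK _) px (pg.add isCompact_Icc px))
    (pw_nu h one_pos (pK _)) r0.le).1 hv 3
  obtain ⟨_, _, k⟩ := wtc
  have k := (k 1 R Z c one_pos h).1 Z mZ
  have Z0 := h.z0 mZ
  have x0 := k.re0
  have xn := Complex.re_le_norm (rh c Z)
  have i : (rh c Z).re⁻¹ ≤ Z ^ 2 := by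
    rw [inv_le_iff_one_le_mul₀ x0]
    exact h.tip Z mZ
  refine ⟨(a.apply mZ 0).trans ?_, fun θ => (b.apply mZ θ).trans ?_⟩
  · change r / 2 * ((gO c Z Z + (rh c Z).re) / Z) ≤ _
    have : (gO c Z Z + (rh c Z).re) / Z ≤ 3 * (Z * wO c Z) := by
      rw [div_le_iff₀ Z0] at h1 ⊢
      rw [gO, ly_self]
      nlinarith [mul_le_mul_of_nonneg_left i k.wO0.le, k.re6]
    nlinarith
  · change r / 2 * (gW (wK (31 / 16) c) c Z Z * ta c Z / Z) ≤ _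
    have s : sg c Z ≤ Z ^ 2 := by
      refine le_trans ?_ i
      rw [k.sge, div_le_iff₀ (pow_pos (x0.trans_le xn) 2), ← div_eq_inv_mul, le_div_iff₀ x0]
      nlinarith
    have w0 := mul_pos ((pK (31 / 16)).pos mZ) (one_pos.trans_le k.ta1)
    have : gW (wK (31 / 16) c) c Z Z * ta c Z / Z ≤ 2 * (Z * wK (31 / 16) c Z * ta c Z) := by
      rw [div_le_iff₀ Z0, gW, ly_self]
      nlinarith [mul_le_mul_of_nonneg_left s w0.le]
    nlinarith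

/-- the numerical hypotheses -/
structure Nm (R Z r : ℝ) (c : ℂ) (J : ℕ) : Prop where
  cl : Cyl 1 R Z c
  dc : c ∈ P218Q.dsc (7 / 5 * P218Q.nu J) Z
  Z3 : 3 ≤ Z
  r0 : 0 < r
  r1 : r ≤ 1
  hJ : 200 + (18 / r) ^ 4 ≤ J

namespace Nm

variable (h : Nm R Z r c J) {J₀ : ℕ} {v : ℝ}
include h

theorem mZ : Z ∈ Icc R Z := right_mem_Icc.2 (by linarith [h.cl.RZ])

theorem pos : 0 < Z * wO c Z ∧ 0 < hv c Z ∧ (∀ κ, 0 < Z * wK κ c Z) ∧ ‖rh c Z‖ ≤ 6 := by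
  obtain ⟨pK, pw, -, ph, -⟩ := pw_all h.cl le_rfl
  obtain ⟨_, _, k⟩ := wtc
  have Z0 := h.cl.z0 h.mZ
  exact ⟨mul_pos Z0 (pw.pos h.mZ), ph.pos h.mZ, fun κ => mul_pos Z0 ((pK κ).pos h.mZ),
    ((k 1 R Z c one_pos h.cl).1 Z h.mZ).re6⟩

theorem fa : 18 / Z ≤ r * (Z * wO c Z) ∧ (Z * wO c Z) ^ 2 ≤ (rh c Z).re ∧
    13000 / (Z * (Z ^ 2 * (rh c Z).re)) ≤ r ^ 2 * (Z * wO c Z) ∧
    ∀ P, 0 ≤ P → P ≤ Z * wO c Z → Dt Z c J P := by
  have Z0 := h.cl.z0 h.mZ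
  have x0 := h.cl.re0 one_pos h.mZ
  have t := tip h.dc Z0
  have p : 0 < (18 / r) ^ 4 := by have := h.r0; positivity
  have := h.hJ
  obtain ⟨n1, n2, -, n4⟩ := num Z0 h.pos.1 x0 h.r0 h.r1 (beta Z0 x0) (by linarith)
  exact ⟨n1, n2, n4, fun P h0 h1 => ⟨h.Z3, x0, h.pos.2.2.2, h.cl.cZ, by linarith,
    (pow_le_pow_left₀ h0 h1 2).trans n2⟩⟩

theorem res (hJ : J₀ ≤ J) (hv : v ∈ Icc (0 : ℝ) 1) (k : ℂ) :
    qN c R Z (0, Bc J₀ J v 0 k Z (rh c Z) fun _ => 2 * c * Z + 0) ≤ r ^ 2 ∧ ∀ M, 6 / Z ^ 2 ≤ 6 * M →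
      r ≤ 1 / 3 → qH c R Z (0, Bc J₀ J v 0 k Z (rh c Z) fun _ => 2 * c * Z + 0) ≤ M := by
  obtain ⟨n1, -, n4, dt⟩ := h.fa
  obtain ⟨β0, v0, k0, n6⟩ := h.pos
  have Z0 := h.cl.z0 h.mZ
  have x0 := h.cl.re0 one_pos h.mZ
  obtain ⟨b, e1, e2⟩ := (dt _ (by positivity) (n1.trans (mul_le_of_le_one_left β0.le h.r1))).res
    hJ hv le_rfl k
  have e3 : ‖b‖ ≤ r ^ 2 * (Z * wO c Z) := by
    refine e2.trans (le_trans ?_ n4)
    rw [show 2 * (18 / Z) ^ 3 / (rh c Z).re = 11664 / (Z * (Z ^ 2 * (rh c Z).re)) by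
      field_simp; norm_num, ← add_div]
    gcongr
    norm_num
  rw [e1]
  refine ⟨yn0 β0 (k0 _) (sq_nonneg _) fun i => ?_, fun M hM r3 => ?_⟩
  · have := mul_nonneg (sq_nonneg r) (k0 (31 / 16)).le
    fin_cases i
    exacts [e3, norm_zero.trans_le this, norm_zero.trans_le this]
  · have M0 : 0 ≤ M := by linarith [show 0 < 6 / Z ^ 2 by positivity]
    refine yn0 (mul_pos v0 β0) (k0 _) M0 fun i => ?_
    have := mul_nonneg M0 (k0 (19 / 32)).le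
    fin_cases i
    · refine e3.trans (le_trans (mul_le_mul_of_nonneg_right ?_ β0.le) (mul_assoc _ _ _).le)
      rw [div_le_iff₀ (by positivity)] at hM
      rw [P218M.hv, ← mul_div_assoc, le_div_iff₀ x0]
      nlinarith [(Complex.re_le_norm _).trans n6, h.r0, mul_le_mul r3 r3 h.r0.le (by norm_num)]
    exacts [norm_zero.trans_le this, norm_zero.trans_le this]

end Nm

theorem lip : ∃ C : ℝ, 3 ≤ C ∧ ∀ {R Z r : ℝ} {c : ℂ} {J J₀ : ℕ} {v : ℝ}, Nm R Z r c J → r * C ≤ 1 →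
    J₀ ≤ J → v ∈ Icc (0 : ℝ) 1 → ∀ (k : ℂ) (u : XE R Z), pN c R Z u ≤ r → ∀ᶠ s in 𝓝 c, ∀ i,
    ‖Bc J₀ J v 0 k Z (rh s Z) (fun θ => 2 * s * Z + u.1 3 (Z, θ)) i -
      Bc J₀ J v 0 k Z (rh c Z) (fun θ => 2 * c * Z + u.1 3 (Z, θ)) i‖ ≤ 400 * C * r *
      ![hv c Z * (Z * wO c Z), Z * wK (19 / 32) c Z, Z * wK (19 / 32) c Z] i * ‖s - c‖ := by
  obtain ⟨C₁, c₁, w₁⟩ := wtc
  obtain ⟨C₂, c₂, w₂⟩ := wtk
  have c₃ := mul_pos c₁ c₂
  refine ⟨C₁ * C₂ + C₂ + 3, by linarith, fun {R Z r c J J₀ v} h hr hJ hv k u hu => ?_⟩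
  obtain ⟨n1, n2, n4, dt⟩ := h.fa
  obtain ⟨β0, v0, k0, n6⟩ := h.pos
  have Z0 := h.cl.z0 h.mZ
  have k₁ := (w₁ 1 _ _ _ one_pos h.cl).1 _ h.mZ
  obtain ⟨-, -, k₂, k₃, -⟩ := (w₂ 1 _ _ _ le_rfl h.cl).2.2 _ h.mZ
  have r0 := h.r0
  have x0 := k₁.re0
  have n0 := x0.trans_le (Complex.re_le_norm _)
  obtain ⟨s0, s1⟩ := slope h.cl u hu r0 (n1.trans (mul_le_of_le_one_left β0.le h.r1))
  have s2 : r * (Z * wK (31 / 16) c Z * ta c Z) ≤ C₁ * C₂ * (r * (Z * wO c Z)) := by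
    have h1 := mul_le_mul_of_nonneg_right (k₃ (31 / 16) (by norm_num)) (zero_le_one.trans k₁.ta1)
    have h2 := mul_le_mul_of_nonneg_left k₁.wNO c₂.le
    linarith [mul_le_mul_of_nonneg_left (h1.trans ((mul_assoc _ _ _).le.trans h2))
      (mul_pos r0 Z0).le]
  have kw := mul_le_mul_of_nonneg_left k₂ (mul_pos r0 Z0).le
  have k1 := mul_pos r0 (k0 (31 / 16))
  have k2 := mul_pos r0 (k0 (19 / 32))
  generalize Z * wO c Z = β at *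
  have rβ := mul_pos r0 β0
  have hP : (C₁ * C₂ + 3) * (r * β) ≤ β := by nlinarith [mul_pos c₂ rβ]
  have P0 : 0 < (C₁ * C₂ + 3) * (r * β) := by positivity
  have D := dt _ P0.le hP
  have P2 : ((C₁ * C₂ + 3) * (r * β)) ^ 2 / (rh c Z).re ≤ 1 := (div_le_one x0).2 D.P2
  filter_upwards [isOpen_ball.mem_nhds D.ctr] with s hs i
  refine (D.lip hJ hv k ((u.1 3).cont.comp (continuous_const.prodMk continuous_id)) (fun θ => by
    have := norm_add_le (u.1 3 (Z, θ) - co (u.1 3) 0 Z) (co (u.1 3) 0 Z)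
    rw [sub_add_cancel] at this
    change ‖u.1 3 (Z, θ)‖ + _ ≤ _
    linarith [s1 θ]) (by linarith [mul_pos c₃ rβ]) s1 hs i).trans
    (mul_le_mul_of_nonneg_right ?_ (norm_nonneg _))
  have a1 : 100 * P218M.hv c Z * (4 * (r * (Z * wK (31 / 16) c Z * ta c Z)) *
      ((C₁ * C₂ + 3) * (r * β)) ^ 2 / ‖rh c Z‖) ≤
      400 * (C₁ * C₂ + C₂ + 3) * r * (Z * wK (19 / 32) c Z) := by
    rw [show 4 * (r * (Z * wK (31 / 16) c Z * ta c Z)) * ((C₁ * C₂ + 3) * (r * β)) ^ 2 / ‖rh c Z‖ =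
      4 * (r * (Z * wK (31 / 16) c Z)) * (((C₁ * C₂ + 3) * (r * β)) ^ 2 / (rh c Z).re) by
        rw [ta]; field_simp]
    linarith [mul_le_mul_of_nonneg_left P2 (mul_pos v0 k1).le, mul_pos c₃ k2]
  fin_cases i
  · have a2 : 600 / (Z * (Z ^ 2 * (rh c Z).re)) ≤ r * β :=
      (le_trans (by gcongr; norm_num) n4).trans (by nlinarith [h.r1])
    have a3 : 2 * ((C₁ * C₂ + 3) * (r * β)) ^ 3 / (rh c Z).re ≤ 2 * ((C₁ * C₂ + 3) * (r * β)) := by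
      rw [pow_succ', ← mul_assoc, mul_div_assoc]
      exact mul_le_of_le_one_right (by positivity) P2
    have a4 := mul_le_mul_of_nonneg_left (add_le_add a3 a2) v0.le
    change 100 * P218M.hv c Z * (_ + _) ≤ _ * (P218M.hv c Z * β)
    linarith [mul_pos v0 rβ, mul_pos c₂ (mul_pos v0 rβ), mul_pos c₃ (mul_pos v0 rβ)]
  exacts [a1, a1]

theorem le_prs {ι : Type} [Fintype ι] {A : ι → Type} {B : Type} [∀ j, NormedAddCommGroup (A j)]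
    [∀ j, NormedSpace ℂ (A j)] [NormedAddCommGroup B] [NormedSpace ℂ B] (p : ∀ j, Seminorm ℂ (A j))
    (x : (∀ j, A j) × B) (j : ι) : p j (x.1 j) ≤ prs p x :=
  le_trans (Seminorm.le_finset_sup_apply
    (p := fun j => (p j).comp (LinearMap.proj j ∘ₗ LinearMap.fst ℂ _ B)) (Finset.mem_univ j))
    (le_max_left _ _)

theorem bj_eq {M : Mod} {k : ℕ} {G : GD M k} {W : Fin M.n₁ → ℝ} (J₀ J m) (U : G.XX W) (s v j) :
    Bj J₀ J m (U, bs s v) j = Bc J₀ J v 0 (km (m j)) (W j) (rh (s j) (W j))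
      fun θ => 2 * s j * W j + (U.2.1.1 j).1 3 (W j, θ) := by
  unfold Bj pb
  simp only [bs, Zb, Vb, rh, Pi.zero_apply, add_zero]

theorem bj_line {M : Mod} {k : ℕ} {G : GD M k} {W : Fin M.n₁ → ℝ} (J₀ J m) (U U' : G.XX W)
    (s s' v j) (h : ∀ θ, (U'.2.1.1 j).1 3 (W j, θ) = 0) (t : ℂ) :
    Bj J₀ J m ((U, bs s v) + t • (U', s', 0)) j = Bc J₀ J v 0 (km (m j)) (W j)
      (rh (s j + t * s' j) (W j)) fun θ => 2 * (s j + t * s' j) * W j + (U.2.1.1 j).1 3 (W j, θ) := by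
  have e : bs s v + t • (s', 0) = bs (s + t • s') v := by simp [bs]
  have e' : ∀ θ, ((U + t • U').2.1.1 j).1 3 (W j, θ) = (U.2.1.1 j).1 3 (W j, θ) := fun θ => by
    change (U.2.1.1 j).1 3 (W j, θ) + t * (U'.2.1.1 j).1 3 (W j, θ) = _
    rw [h, mul_zero, add_zero]
  change Bj J₀ J m (U + t • U', bs s v + t • (s', 0)) j = _
  rw [e, bj_eq]
  simp only [e', Pi.add_apply, Pi.smul_apply, smul_eq_mul]

theorem der {X : Type} [NormedAddCommGroup X] [NormedSpace ℂ X] {F : X → Fin 3 → ℂ} {y y' : X}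
    (d : DifferentiableAt ℂ F y) {B : ℂ → Fin 3 → ℂ} {a a' : ℂ}
    (e : ∀ t : ℂ, F (y + t • y') = B (a + t * a')) {L : Fin 3 → ℝ} (L0 : ∀ i, 0 ≤ L i)
    (l : ∀ᶠ s in 𝓝 a, ∀ i, ‖B s i - B a i‖ ≤ L i * ‖s - a‖) (i : Fin 3) :
    ‖fderiv ℂ F y y' i‖ ≤ L i * ‖a'‖ := by
  have d1 : HasDerivAt (fun t : ℂ => y + t • y') y' 0 := by
    simpa using ((hasDerivAt_id (0 : ℂ)).smul_const y').const_add y
  refine (hasDerivAt_pi.1 (d.hasFDerivAt.comp_hasDerivAt_of_eq 0 d1 (by simp)) i).le_of_lip'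
    (mul_nonneg (L0 i) (norm_nonneg _)) ?_
  have c : Tendsto (fun t : ℂ => a + t * a') (𝓝 0) (𝓝 a) :=
    Continuous.tendsto' (by fun_prop) _ _ (by simp)
  filter_upwards [c.eventually l] with t ht
  simp only [Function.comp_apply, e, zero_mul, add_zero]
  refine (ht i).trans_eq ?_
  rw [add_sub_cancel_left, sub_zero, norm_mul]
  ring

end Bcb

open Bcb in
theorem bcb (cy : CY) (bca : BCA) : BCB := by
  intro M g
  obtain ⟨z₁, h⟩ := bca M g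
  obtain ⟨C, C3, l⟩ := lip
  refine ⟨max z₁ 2, fun k G hz o => ?_⟩
  filter_upwards [h k G (le_of_max_le_left hz) o, ev_ad, ev_cs (ev₀_K (400 * C)),
    ev_cs (ev₀_r (f := fun _ => 1 / C) (.of_forall fun _ => by positivity)),
    ev_cs (ev₀_J fun _ r _ => 200 + (18 / r) ^ 4), ev_K₂ fun q _ => q.K,
    ev_Z fun _ _ _ => 2 * G.z₀ + 2] with p b a hK hr hJ hK₂ hZ j
  have z2 := le_of_max_le_right hz
  have JJ : (p.J₀ : ℝ) ≤ p.J := by exact_mod_cast a.hJ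
  obtain ⟨r0, r1⟩ := hr
  have p4 : 0 < (18 / p.r) ^ 4 := by positivity
  rw [le_div_iff₀ (by positivity)] at r1
  have r3 : p.r ≤ 1 / 3 := by nlinarith
  have hW := (a.hW j).1
  have Z0 : 0 < p.Z := by linarith
  have K0 : 0 < p.K := by linarith
  have n : Nm G.z₀ (p.W j) p.r (p.c j) p.J :=
    ⟨cy p.J _ G.z₀ 1 _ (a.hc j) z2 (hZ.trans hW) (by nlinarith) (by linarith), a.hc j, by linarith,
      r0, by linarith, hJ.trans JJ⟩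
  refine ⟨fun U hU => ?_, fun U hU U' c' hU' => ?_⟩
  · obtain ⟨e1, e2⟩ := n.res a.hJ a.hv (km (p.m j))
    simp only [bj_eq, hU]
    refine ⟨e1, fun _ => e2 _ ?_ r3⟩
    have h1 : 1 ≤ p.K₂ / p.K := (one_le_div K0).2 hK₂
    rw [← mul_div_assoc]
    gcongr
    linarith
  · have hp : pN (p.c j) G.z₀ (p.W j) (U.2.1.1 j) ≤ p.r :=
      (le_prs (fun j => pN (p.c j) G.z₀ (p.W j)) U.2.1 j).trans
        ((P218H.le_tri (G.pn p.W p.c) U).2.1.trans hU.le)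
    obtain ⟨β0, v0, k0, -⟩ := n.pos
    have q : ∀ i, 0 ≤ ![hv (p.c j) (p.W j) * (p.W j * wO (p.c j) (p.W j)),
        p.W j * wK (19 / 32) (p.c j) (p.W j), p.W j * wK (19 / 32) (p.c j) (p.W j)] i := fun i => by
      fin_cases i
      exacts [(mul_pos v0 β0).le, (k0 _).le, (k0 _).le]
    have d := ((b j).1 (U, bs p.c p.v) ⟨hU, by rw [sub_self, norm_zero]; positivity⟩).1
    refine yn0 (mul_pos v0 β0) (k0 _) (by positivity) fun i => (der d (bj_line _ _ _ U U' _ c' _ j hU')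
      (fun i => mul_nonneg (by positivity) (q i)) (l n r1 a.hJ a.hv (km (p.m j)) _ hp) i).trans ?_
    rw [mul_right_comm]
    gcongr
    exacts [q i, norm_le_pi_norm c' j]

end Vale.Agent.P218I
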