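import Vale.Agent.P218I.Cy
import Vale.Agent.P218I.Bas
import Vale.Agent.P218L.Sdec
import Vale.Agent.P218W.NLc

/-!
# P218, INST: the reference profile is close to `2 + c (z ^ 2 - 2)`
-/

open Set Filter Topology
open scoped ContDiff

noncomputable section

namespace Vale.Agent.P218I

open Vale.Agent.P218T Vale.Agent.P218L Vale.Agent.P218M Vale.Agent.P218W
open Vale.Agent.P218T.Frm (jm lj lj_z)

variable {R Z K z : ℝ} {c : ℂ} {s : Set ℝ} {w : ℝ → ℝ} {F : Fin 6 → ℝ × ℝ → ℂ}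

/-- the rate of decay -/
abbrev od (z : ℝ) : ℝ := z ^ (-31 / 16 : ℝ)

/-- the heavy weight without the heavy factor -/
def wh (c : ℂ) (z : ℝ) : ℝ := wK (19 / 32) c z / hv c z

theorem wh_eq (z0 : 0 < z) :
    wh c z = z ^ (-19 / 16 : ℝ) * (rh c z).re * ‖rh c z‖ ^ (19 / 32 : ℝ) := by
  rw [wh, wK, hv, div_div_eq_mul_div, ← Real.rpow_two, show (-19 / 16 : ℝ) = 2 - 2 * (19 / 32) - 2
    by norm_num, Real.rpow_sub z0 _ 2]
  ring

theorem hv_wh (h : Cyl 1 R Z c) (hz : z ∈ Icc R Z) : hv c z * wh c z = wK (19 / 32) c z :=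
  mul_div_cancel₀ _ ((pw_all h le_rfl).2.2.2.1.pos hz).ne'

theorem cont_wh (h : Cyl 1 R Z c) : ContinuousOn (wh c) (Icc R Z) :=
  ((pw_all h le_rfl).1 _).c.div (pw_all h le_rfl).2.2.2.1.c
    fun _ hz => ((pw_all h le_rfl).2.2.2.1.pos hz).ne'

theorem adw (h : Cyl 1 R Z c) (R1 : 1 ≤ R) : Adw c R Z (wK (31 / 16) c) ∧ Adw c R Z (wh c) := by
  refine forall₂_and.1 fun z hz => ?_
  have k := h.wtc one_pos hz
  have z1 := R1.trans hz.1
  have z0 := h.z0 hz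
  have a0 := k.re0
  have n0 := a0.trans_le (Complex.re_le_norm _)
  have n6 := k.re6
  have d := h.dsc z hz
  have tp := h.tip z hz
  rw [wh_eq z0, wK, Real.sqrt_eq_rpow]
  refine ⟨⟨by positivity, ?_⟩, by positivity, ?_⟩
  all_goals
    generalize (rh c z).re = a at *
    generalize ‖rh c z‖ = n at *
    obtain ⟨x, rfl⟩ : ∃ x, z = Real.exp x := ⟨_, (Real.exp_log z0).symm⟩
    obtain ⟨s, rfl⟩ : ∃ x, a = Real.exp x := ⟨_, (Real.exp_log a0).symm⟩
    obtain ⟨t, rfl⟩ : ∃ x, n = Real.exp x := ⟨_, (Real.exp_log n0).symm⟩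
    obtain ⟨L, e⟩ : ∃ x, (6 : ℝ) = Real.exp x := ⟨_, (Real.exp_log (by norm_num)).symm⟩
    have L0 : 0 ≤ L := Real.one_le_exp_iff.1 (e ▸ by norm_num)
    have x0 : 0 ≤ x := Real.one_le_exp_iff.1 z1
    rw [show (36 : ℝ) = 6 * 6 by norm_num]
    rw [e] at n6 d ⊢
    rw [← Real.exp_zero] at tp
    simp only [← Real.exp_nat_mul, ← Real.exp_mul, ← Real.exp_add, Real.exp_le_exp,
      Nat.cast_ofNat] at tp d n6 ⊢
    linarith

/-- lower bounds of the weights where `ρ` is not small -/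
theorem w_lo (z1 : 1 ≤ z) (h : 1 ≤ (rh c z).re) :
    z ^ (-15 / 8 : ℝ) ≤ wK (31 / 16) c z ∧ z ^ (-15 / 8 : ℝ) ≤ wh c z := by
  have n1 := h.trans (Complex.re_le_norm _)
  have p : ∀ a : ℝ, 0 ≤ z ^ a := fun a => by positivity
  rw [wh_eq (by linarith), wK, mul_assoc]
  exact ⟨le_trans (le_of_eq (by norm_num))
    (le_mul_of_one_le_right (p _) (Real.one_le_rpow n1 (by norm_num))),
    (Real.rpow_le_rpow_of_exponent_le z1 (by norm_num)).trans (le_mul_of_one_le_right (p _)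
      (one_le_mul_of_one_le_of_one_le h (Real.one_le_rpow n1 (by norm_num))))⟩

/-- jets which decay like those of the shrinker -/
def SD (s : Set ℝ) (F : Fin 6 → ℝ × ℝ → ℂ) (K : ℝ) : Prop := ∀ i, Le s (F i) (omH od i) K

theorem le_supp {G : ℝ × ℝ → ℂ} {o v : ℝ → ℝ} {C : ℝ} (h : Le s G o K) (C0 : 0 ≤ C)
    (v0 : ∀ z ∈ s, 0 ≤ v z) (e : ∀ z ∈ s, (∀ θ, G (z, θ) = 0) ∨ o z ≤ C * v z) :
    Le s G v (C * K) := by
  classical
  refine (h.mulz (φ := fun z => if ∀ θ, G (z, θ) = 0 then 0 else 1) C0 v0 fun z hz => ?_).congr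
    fun z _ θ => ?_
  · split_ifs with k
    · simpa using mul_nonneg C0 (v0 z hz)
    · simpa using (e z hz).resolve_left k
  · split_ifs with k
    · simp [k θ]
    · simp

/-- such jets are small for the weak seminorms -/
theorem SD.xn (h : SD (Icc R Z) F K) (hc : Cyl 1 R Z c) (R1 : 1 ≤ R) (p : PW (Icc R Z) w)
    (e : ∀ z ∈ Icc R Z, (∀ i θ, F i (z, θ) = 0) ∨ 1 ≤ (rh c z).re ∧ z ^ (-15 / 8 : ℝ) ≤ w z) :
    XN (Icc R Z) (omW w c Z) (nu w c Z) F (6 * R ^ (-1 / 16 : ℝ) * K) := fun i => by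
  have pa := pw_all hc le_rfl
  have R0 : 0 < R := by linarith
  have key : ∀ z ∈ Icc R Z, 1 ≤ (rh c z).re → z ^ (-15 / 8 : ℝ) ≤ w z →
      omH od i z ≤ 6 * R ^ (-1 / 16 : ℝ) * omW w c Z i z ∧
        omH od i z ≤ 6 * R ^ (-1 / 16 : ℝ) * nu w c Z i z := fun z hz a1 hw => by
    have k := hc.wtc one_pos hz
    have z1 := R1.trans hz.1
    have z0 := hc.z0 hz
    have w0 := p.pos hz
    have s0 : 0 < sg c z := by linarith [k.sg6]
    have l0 : 0 ≤ z ^ 2 * ly Z z := mul_nonneg (sq_nonneg z) (ly_pos Z z).le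
    have g1 : w z * sg c z ≤ gW w c Z z := mul_le_mul_of_nonneg_left (by linarith) w0.le
    have g2 : w z ≤ gW w c Z z / sg c z := (le_div_iff₀ s0).2 g1
    have g4 : w z / 6 ≤ gW w c Z z := by nlinarith [k.sg6]
    have g3 : w z / 6 ≤ gW w c Z z * ta c z :=
      g4.trans (le_mul_of_one_le_right (by linarith) k.ta1)
    have m1 : z ^ (-15 / 8 : ℝ) ≤ 1 := Real.rpow_le_one_of_one_le_of_nonpos z1 (by norm_num)
    have m0 : 0 ≤ z ^ (-15 / 8 : ℝ) := by positivity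
    have up : ∀ x, z ^ (-15 / 8 : ℝ) / 6 ≤ x → od z ≤ 6 * R ^ (-1 / 16 : ℝ) * x := fun x hx => by
      have : od z = z ^ (-1 / 16 : ℝ) * z ^ (-15 / 8 : ℝ) := by
        rw [← Real.rpow_add z0]; norm_num [od]
      nlinarith [mul_le_mul (Real.rpow_le_rpow_of_nonpos R0 hz.1
        (show (-1 / 16 : ℝ) ≤ 0 by norm_num)) hx (by positivity) (by positivity)]
    have up' : ∀ x, z ^ (-15 / 8 : ℝ) / 6 ≤ x → od z / z ≤ 6 * R ^ (-1 / 16 : ℝ) * (x / z) :=
      fun x hx => by rw [← mul_div_assoc]; exact div_le_div_of_nonneg_right (up x hx) z0.le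
    have n1 := up √(w z * gW w c Z z / sg c z) (le_trans (by linarith) (Real.le_sqrt_of_sq_le
      (x := w z) (by rw [mul_div_assoc, sq]; gcongr)))
    have n2 := up (gW w c Z z / sg c z) (by linarith)
    have n4 := up (gW w c Z z * ta c z * √‖rh c z‖) (le_trans (by linarith) (le_mul_of_one_le_right
      (by linarith) (Real.one_le_sqrt.2 (a1.trans (Complex.re_le_norm _)))))
    fin_cases i
    exacts [⟨up _ (show _ ≤ (rh c z).re by linarith), up _ (show _ ≤ w z by linarith)⟩, ⟨n1, n1⟩,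
      ⟨n2, n2⟩, ⟨up' _ (by linarith [k.gO0]), up' _ (by linarith)⟩, ⟨n4, n4⟩,
      ⟨up _ (show _ ≤ gO c Z z + (rh c z).re by linarith [k.gO0]),
        up _ (show _ ≤ gW w c Z z * ta c z by linarith)⟩]
  exact ⟨(le_supp (h i) (by positivity) (fun z hz => ((pw_om hc one_pos p pa.2.2.2.2.1
    (pa.2.2.1.add isCompact_Icc pa.2.2.2.2.1) i).pos hz).le) fun z hz =>
      (e z hz).imp (fun k => k i) fun k => (key z hz k.1 k.2).1).p0,
    (le_supp (h i) (by positivity) (fun z hz => ((pw_nu hc one_pos p i).pos hz).le) fun z hz =>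
      (e z hz).imp (fun k => k i) fun k => (key z hz k.1 k.2).2).pn⟩

theorem SD.one (h : SD s F K) (hs : s ⊆ Ici 1) (i : Fin 6) : Le s (F i) (fun _ => 1) K :=
  (h i).mono subset_rfl (fun z hz => by
    rw [Sdec.omH_eq]
    exact mul_le_one₀ (Real.rpow_le_one_of_one_le_of_nonpos (hs hz) (by norm_num))
      (omH_pos one_pos (by simp) i (hs hz)).le (Sdec.om_le le_rfl i (hs hz))) le_rfl

/-- multiplication by a slowly varying function of `z` -/
theorem SD.mul (h : SD s F K) (hs : s ⊆ Ici 1) {φ φ₁ φ₂ : ℝ → ℂ} {A : ℝ} (A0 : 0 ≤ A)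
    (b : ∀ z ∈ s, ‖φ z‖ ≤ A ∧ ‖φ₁ z‖ * z ≤ A ∧ ‖φ₂ z‖ ≤ A) :
    SD s (fun i y => jm ![φ y.1, 0, 0, φ₁ y.1, 0, φ₂ y.1] (fun k => F k y) i) (4 * (A * K)) := by
  have K0 := mul_nonneg A0 (h 0).M0
  have o0 : ∀ z ∈ s, 0 ≤ od z := (h 0).w0
  have m : ∀ i, Le s (fun y => φ y.1 * F i y) (omH od i) (A * K) := fun i =>
    (h i).mulz A0 (h i).w0 fun z hz => mul_le_mul_of_nonneg_right (b z hz).1 ((h i).w0 z hz)
  have b1 : ∀ z ∈ s, ‖φ₁ z‖ ≤ A := fun z hz =>
    (le_mul_of_one_le_right (norm_nonneg _) (hs hz)).trans (b z hz).2.1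
  have m3 := (h 0).mulz (φ := φ₁) A0 (h 3).w0 fun z hz => by
    change _ * od z ≤ A * (od z / z)
    rw [← mul_div_assoc, le_div_iff₀ (one_pos.trans_le (hs hz))]
    nlinarith [(b z hz).2.1, o0 z hz]
  have m4 := (h 1).mulz (φ := φ₁) A0 o0 fun z hz => mul_le_mul_of_nonneg_right (b1 z hz) (o0 z hz)
  have m5 := (h 3).mulz (φ := φ₁) A0 o0 fun z hz => mul_le_mul (b1 z hz)
    (div_le_self (o0 z hz) (hs hz)) ((h 3).w0 z hz) A0
  have m6 := (h 0).mulz (φ := φ₂) A0 o0 fun z hz =>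
    mul_le_mul_of_nonneg_right (b z hz).2.2 (o0 z hz)
  intro i
  fin_cases i
  · exact ((m 0).mono subset_rfl (fun _ _ => le_rfl) (by linarith)).congr (by simp [jm])
  · exact ((m 1).mono subset_rfl (fun _ _ => le_rfl) (by linarith)).congr (by simp [jm])
  · exact ((m 2).mono subset_rfl (fun _ _ => le_rfl) (by linarith)).congr (by simp [jm])
  · exact ((m3.add (m 3)).mono subset_rfl (fun _ _ => le_rfl) (by linarith)).congr (by simp [jm])
  · exact ((m4.add (m 4)).mono subset_rfl (fun _ _ => le_rfl) (by linarith)).congr (by simp [jm])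
  · exact ((((m6.add m5).add m5).add (m 5)).mono subset_rfl (fun _ _ => le_rfl)
      (by linarith)).congr fun z _ θ => by simp [jm]; ring

theorem jet_z {g : ℝ → ℂ} (hg : ContDiff ℝ ∞ g) (i : Fin 6) (y : ℝ × ℝ) :
    jet (fun y => g y.1) i y = ![g y.1, 0, 0, deriv g y.1, 0, deriv (deriv g) y.1] i :=
  have h1 := contDiff_infty_iff_deriv.1 hg
  (lj_z (.of_forall fun z => (h1.1 z).hasDerivAt)
    ((contDiff_infty_iff_deriv.1 h1.2).1 _).hasDerivAt).jet i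

/-- functions of `z` with bounded support -/
theorem sd_z {g : ℝ → ℂ} (hg : ContDiff ℝ ∞ g) {A : ℝ} (h0 : ∀ z, A ≤ z → g z = 0) :
    ∃ K, SD (Ici 1) (jet fun y => g y.1) K := by
  have p : ∀ i, ∀ z ∈ Ici (1 : ℝ), 0 < omH od i z := fun i z =>
    omH_pos one_pos (fun z hz => Real.rpow_pos_of_pos (one_pos.trans_le hz) _) i
  have c := fun i => Sdec.jet_cont (F := fun y => g y.1) (hg.comp contDiff_fst) i
  choose B hB using fun i => (isCompact_Icc (a := 1) (b := A)).exists_bound_of_continuousOn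
    ((((c i).comp (f := fun z => (z, 0)) (by fun_prop)).norm.continuousOn).div
      ((omH_cont one_pos (continuousOn_id.rpow_const fun z hz => .inl
        (one_pos.trans_le hz).ne') i).mono Icc_subset_Ici_self) fun z hz => (p i z hz.1).ne')
  refine ⟨4 * ‖B‖, fun i => (le_z (φ := fun z => jet (fun y => g y.1) i (z, 0)) (norm_nonneg B)
    (fun z hz => (p i z hz).le) fun z hz => ?_).congr fun z _ θ => by simp only [jet_z hg]⟩
  rcases le_or_gt z A with h | h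
  · rw [← div_le_iff₀ (p i z hz)]
    exact (le_abs_self _).trans ((hB i z ⟨hz, h⟩).trans
      ((le_abs_self _).trans (norm_le_pi_norm B i)))
  · rw [jet_congr (G := fun _ => 0) ((ev_ht (y := (z, 0)) h).mono fun q hq => h0 _ hq.le)]
    have := mul_nonneg (norm_nonneg B) (p i z hz).le
    fin_cases i <;> simpa [jet] using this

/-- slowly varying functions -/
theorem slow_bd {g : ℝ → ℂ} (hg : ContDiff ℝ ∞ g) {a : ℝ} {b : ℂ} (h0 : ∀ t, a ≤ t → g t = b) :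
    ∃ A, 0 ≤ A ∧ ∀ l, 1 ≤ l → ∀ z, 0 ≤ z → ‖g (z / l)‖ ≤ A ∧
      ‖deriv (fun z => g (z / l)) z‖ * z ≤ A ∧ ‖deriv (deriv fun z => g (z / l)) z‖ ≤ A := by
  have h1 := contDiff_infty_iff_deriv.1 hg
  have h2 := contDiff_infty_iff_deriv.1 h1.2
  obtain ⟨A, hA⟩ := (isCompact_Icc (a := 0) (b := |a| + 1)).exists_bound_of_continuousOn
    (f := fun t : ℝ => (g t, t * deriv g t, deriv (deriv g) t)) (Continuous.continuousOn
      (hg.continuous.prodMk ((Complex.continuous_ofReal.mul h1.2.continuous).prodMk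
        h2.2.continuous)))
  have hB : ∀ t, 0 ≤ t → ‖(g t, t * deriv g t, deriv (deriv g) t)‖ ≤ A := fun t ht => by
    rcases le_total t (|a| + 1) with h | h
    · exact hA t ⟨ht, h⟩
    · have e : ∀ t, |a| + 1 ≤ t → (g t, t * deriv g t, deriv (deriv g) t) = (b, 0, 0) :=
        fun t h => by
          have e : g =ᶠ[𝓝 t] fun _ => b := mem_of_superset
            (Ioi_mem_nhds (show a < t by linarith [le_abs_self a])) fun x hx => h0 x hx.le
          simp [e.eq_of_nhds, e.deriv_eq, e.deriv.deriv_eq]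
      rw [e t h, ← e _ le_rfl]
      exact hA _ ⟨by positivity, le_rfl⟩
  refine ⟨A, (norm_nonneg _).trans (hB 0 le_rfl), fun l hl z hz => ?_⟩
  have l0 : 0 < l := by linarith
  have d : ∀ {f : ℝ → ℂ}, Differentiable ℝ f → ∀ z,
      HasDerivAt (fun z => f (z / l)) (l⁻¹ • deriv f (z / l)) z := fun h z =>
    one_div l ▸ (h _).hasDerivAt.scomp z ((hasDerivAt_id z).div_const l)
  have b := hB (z / l) (by positivity)
  rw [show deriv (fun z => g (z / l)) = _ from funext fun z => (d h1.1 z).deriv,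
    ((d h2.1 z).fun_const_smul l⁻¹).deriv]
  have li : l⁻¹ ≤ 1 := inv_le_one_of_one_le₀ hl
  simp only [Prod.norm_mk, max_le_iff, norm_mul, norm_smul, Complex.norm_real, Real.norm_eq_abs,
    abs_of_nonneg (div_nonneg hz l0.le), abs_of_pos (inv_pos.2 l0)] at b ⊢
  exact ⟨b.1, le_trans (le_of_eq (by ring)) b.2.1, le_trans (mul_le_of_le_one_left (by positivity)
    li) ((mul_le_of_le_one_left (norm_nonneg _) li).trans b.2.2)⟩

/-- the decay of the shrinker -/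
theorem sd_VS (eqs : EQS) (sdec : SDEC) {M : Mod} (g : M.Geo) : ∃ R K, 1 ≤ R ∧ 0 ≤ K ∧ ∀ j,
    SD (Ici R) (jet fun y => VS (M.f j) y - 2) K := by
  choose R K h using fun j => sdec _ (g.ended.cyl j) M.R ((eqs M g).1 j)
  refine ⟨‖R‖ + 1, ‖K‖, by linarith [norm_nonneg R], norm_nonneg _, fun j i => Le.mono
    (s := Ici (R j)) (M := K j) ?_ (Ici_subset_Ici.2 (by
      linarith [le_abs_self (R j), show |R j| ≤ _ from norm_le_pi_norm R j])) (fun _ _ => le_rfl)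
      ((le_abs_self _).trans (norm_le_pi_norm K j))⟩
  have z0 : ∀ z ∈ Ici (R j), 0 < z := fun z hz => (one_pos.trans_le (h j).1).trans_le hz
  fin_cases i
  exacts [(h j).2.1 0, (h j).2.1 1, (h j).2.1 2, one_mul (K j) ▸ (((h j).2.2.mulz
    (φ := fun z => (z : ℂ)⁻¹) zero_le_one (fun z hz => div_nonneg ((h j).2.2.w0 z hz) (z0 z hz).le)
      fun z hz => by simp [abs_of_pos (z0 z hz), div_eq_inv_mul]).congr fun z hz θ => by
        simp [Sdec.jet_sub (VS (M.f j)) 3, (z0 z hz).ne']), (h j).2.1 4, (h j).2.1 5]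

variable {M : Mod} {k : ℕ}

theorem cd_bt (g : M.Geo) (G : GD M k) (z₃ : ℝ) (j : Fin M.n₁) (c : ℂ) :
    ContDiff ℝ ∞ (G.bt z₃ j c) := by
  have := g.cd_VS j
  have h := Complex.ofRealCLM.contDiff (n := ∞)
  exact ((h.comp (contDiff_const.sub ((cd_cut 1).comp (contDiff_fst.div_const z₃)))).mul
    (this.sub contDiff_const)).sub ((h.comp (contDiff_const.sub ((cd_cut _).comp contDiff_fst))).mul
      (contDiff_const.mul (((h.comp contDiff_fst).pow 2).sub contDiff_const)))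

theorem bt_zero (G : GD M k) {z₃ : ℝ} (j : Fin M.n₁) (c : ℂ) (h : G.ρ + 7 ≤ 2 * z₃) (z0 : 0 < z₃)
    (hz : 2 * z₃ < z) (i : Fin 6) (θ : ℝ) : jet (G.bt z₃ j c) i (z, θ) = 0 := by
  rw [jet_congr (G := fun _ => 0) ((ev_ht (y := (z, θ)) hz).mono fun q hq => by
    simp [GD.bt, cut_one (a := 1) (z := q.1 / z₃) ((le_div_iff₀ z0).2 (by linarith)),
      cut_one (a := G.ρ + 6) (z := q.1) (by linarith)])]
  fin_cases i <;> simp [jet]

/-- the jets of `bt` -/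
theorem sd_bt (eqs : EQS) (sdec : SDEC) (g : M.Geo) : ∃ R K, 1 ≤ R ∧ 0 ≤ K ∧ ∀ k (G : GD M k),
    ∃ K', 0 ≤ K' ∧ ∀ z₃, 1 ≤ z₃ → ∀ j c, SD (Ici R) (jet (G.bt z₃ j c)) (K + ‖c‖ * K') := by
  obtain ⟨R, K, R1, K0, h⟩ := sd_VS eqs sdec g
  have o := Complex.ofRealCLM.contDiff (n := ∞)
  have c1 : ContDiff ℝ ∞ fun t => ((1 - cut 1 t : ℝ) : ℂ) := o.comp (contDiff_const.sub (cd_cut 1))
  obtain ⟨A, A0, hA⟩ := slow_bd c1 (a := 2) (b := 0) fun t ht => by
    simp [cut_one (a := 1) (z := t) (by linarith)]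
  refine ⟨R, 4 * (A * K), R1, by positivity, fun k G => ?_⟩
  have c2 : ContDiff ℝ ∞ fun t : ℝ => ((1 - cut (G.ρ + 6) t : ℝ) : ℂ) * (t ^ 2 - 2) :=
    (o.comp (contDiff_const.sub (cd_cut _))).mul ((o.pow 2).sub contDiff_const)
  obtain ⟨K', h'⟩ := sd_z c2 (A := G.ρ + 7) fun t ht => by
    simp [cut_one (a := G.ρ + 6) (z := t) (by linarith)]
  refine ⟨K', (h' 0).M0, fun z₃ z1 j c i => ?_⟩
  have s := Ici_subset_Ici.2 R1
  have c3 : ContDiff ℝ ∞ fun t => ((1 - cut 1 (t / z₃) : ℝ) : ℂ) :=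
    c1.comp (contDiff_id.div_const z₃)
  have two : (2 : WithTop ℕ∞) ≤ ∞ := by norm_cast
  refine ((((h j).mul s A0 fun z hz => hA z₃ z1 z (zero_le_one.trans (s hz))) i).add
    (norm_neg c ▸ ((h' i).mono s (fun _ _ => le_rfl) le_rfl).cmul (-c))).congr fun z _ θ => ?_
  have a1 : ContDiff ℝ 2 fun y : ℝ × ℝ => ((1 - cut 1 (y.1 / z₃) : ℝ) : ℂ) :=
    (c3.comp contDiff_fst).of_le two
  have a2 := ((g.cd_VS j).sub (contDiff_const (c := 2))).of_le two
  have a3 : ContDiff ℝ 2 fun y : ℝ × ℝ => ((1 - cut (G.ρ + 6) y.1 : ℝ) : ℂ) * (y.1 ^ 2 - 2) :=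
    (c2.comp contDiff_fst).of_le two
  have e := ((((lj a1.contDiffAt).mul (lj a2.contDiffAt)).add
    ((lj (contDiffAt_const (c := -c))).mul (lj a3.contDiffAt (y := (z, θ))))).congr
      (G := G.bt z₃ j c) (.of_forall fun q => by simp [GD.bt]; ring)).jet i
  rw [e, Pi.add_apply, funext fun k => jet_z c3 k _]
  congr 1
  fin_cases i <;> simp [jm, jet]

/-- **the reference profile** at the base points -/
def BT : Prop := ∀ M : Mod, M.Geo → ∀ η : ℝ, 0 < η → ∃ z₁, ∀ k (G : GD M k), z₁ ≤ G.z₀ →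
  ∀ᶠ p in ev (Fin M.n₁), ∀ j, ∃ B : Fin 6 → WI G.z₀ (p.W j), B ∈ P2 G.z₀ (p.W j) ∧
    (∀ i, ∀ z ∈ Icc G.z₀ (p.W j), ∀ θ, B i (z, θ) = jet (G.bt p.z₃ j (p.c j)) i (z, θ) ∧
      (rJ (p.c j) G.z₀ (p.W j) + B) i (z, θ) = G.Vj p.z₃ j (p.W j) (p.c j) 0 i (z, θ)) ∧
    xw (wK (31 / 16) (p.c j)) (p.c j) G.z₀ (p.W j) B ≤ η ∧
    xw (wh (p.c j)) (p.c j) G.z₀ (p.W j) B ≤ η

theorem Vj_zero (G : GD M k) (z₃ : ℝ) (j : Fin M.n₁) (Z : ℝ) (c : ℂ) (i : Fin 6) (y : ℝ × ℝ) :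
    G.Vj z₃ j Z c 0 i y =
      ![rh c y.1, 0, 0, 2 * c * y.1, 0, 2 * c] i + jet (G.bt z₃ j c) i y := by
  fin_cases i <;> simp [GD.Vj, P218N.rj, zt, zt₁, zt₂, rh]

theorem re_rh (h : ‖c‖ * z ^ 2 ≤ 1) (z1 : 1 ≤ z) : 1 ≤ (rh c z).re := by
  have e : (rh c z).re = 2 + c.re * (z ^ 2 - 2) := by simp [rh, pow_two]
  have : |c.re * (z ^ 2 - 2)| ≤ ‖c‖ * z ^ 2 := by
    rw [abs_mul]
    exact mul_le_mul (Complex.abs_re_le_norm c) (abs_le.2 ⟨by nlinarith, by linarith⟩)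
      (abs_nonneg _) (norm_nonneg _)
  linarith [(abs_le.1 this).1]

theorem bt (eqs : EQS) (sdec : SDEC) : BT := fun M g η η0 => by
  obtain ⟨R, K, R1, K0, h⟩ := sd_bt eqs sdec g
  obtain ⟨z₁, h1⟩ := eventually_atTop.1 ((((tendsto_rpow_neg_atTop (y := 1 / 16)
    (by norm_num)).const_mul 6).mul_const (K + 1)).eventually (ge_mem_nhds (by simpa using η0)))
  refine ⟨max z₁ (R + 1), fun k G hz => ?_⟩
  obtain ⟨K', K0', h⟩ := h k G
  have r : R + 1 ≤ G.z₀ := le_of_max_le_right hz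
  filter_upwards [ev_cyl (R := G.z₀) (Y := 1) (by linarith) (by nlinarith), ev_ad,
    ev_cs (ev₀_z fun _ _ => |G.ρ| + 7), ev_Z fun q _ _ => 6 * q.z₃ + 8 * K'] with p cy ad z3 hZ j
  have c := cy j
  have l : G.z₀ ≤ p.W j := by linarith [c.RZ]
  have W1 := hZ.trans (ad.hW j).1
  have z7 : 7 ≤ p.z₃ := by linarith [abs_nonneg G.ρ]
  have sd : SD (Icc G.z₀ (p.W j)) (jet (G.bt p.z₃ j (p.c j))) (K + 1) := fun i =>
    (h _ (by linarith) j _ i).mono (fun z hz => show R ≤ z by linarith [hz.1])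
      (fun _ _ => le_rfl) (by
        have : 8 * K' ≤ p.W j ^ 2 := by nlinarith
        nlinarith [c.cZ, mul_le_mul_of_nonneg_left this (norm_nonneg (p.c j))])
  have ct := fun i => (Sdec.jet_cont (cd_bt g G p.z₃ j (p.c j)) i).continuousOn
    (s := Icc G.z₀ (p.W j) ×ˢ univ)
  have e := fun i z hz θ => (ret_cl l).toW_apply (ct i)
    (sd.one (fun z hz => show 1 ≤ z by linarith [hz.1]) i) (z := z) hz θ
  have xn : ∀ w, PW (Icc G.z₀ (p.W j)) w → (∀ z, 1 ≤ z → 1 ≤ (rh (p.c j) z).re →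
      z ^ (-15 / 8 : ℝ) ≤ w z) → xw w (p.c j) G.z₀ (p.W j)
        (fun i => toW _ _ (jet (G.bt p.z₃ j (p.c j)) i)) ≤ η := fun w pw hw => by
    have pa := pw_all c le_rfl
    refine ((ret_cl l).xn_le_iff (pw_om c one_pos pw pa.2.2.2.2.1 (pa.2.2.1.add isCompact_Icc
      pa.2.2.2.2.1)) (pw_nu c one_pos pw) η0.le).2 fun i => ((sd.xn c (by linarith) pw
        (fun z hz => ?_) i).congr (e i)).mono subset_rfl (fun _ _ => le_rfl) (fun _ _ => le_rfl)
          (neg_div (16 : ℝ) 1 ▸ h1 _ (le_of_max_le_left hz))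
    rcases lt_or_ge (2 * p.z₃) z with k | k
    · exact .inl (bt_zero G j _ (by linarith [le_abs_self G.ρ]) (by linarith) k)
    · have z1 : 1 ≤ z := by linarith [hz.1]
      have z9 : 9 * z ^ 2 ≤ p.W j ^ 2 := by nlinarith
      have := mul_le_mul_of_nonneg_left z9 (norm_nonneg (p.c j))
      have := re_rh (c := p.c j) (by linarith [c.cZ]) z1
      exact .inr ⟨this, hw z z1 this⟩
  refine ⟨_, MJ.p2 l (((jet_jet fun _ _ => (cd_bt g G p.z₃ j (p.c j)).contDiffAt.of_le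
    (by norm_cast)).congr e).mj (by rw [interior_Icc, closure_Ioo (by linarith [c.RZ])])
      (fun i => W.adm _ _) fun i => (W.cont _).continuousOn), fun i z hz θ => ⟨e i z hz θ, ?_⟩,
    xn _ ((pw_all c le_rfl).1 _) fun z a b => (w_lo a b).1, xn _ (pw_cyl (cont_wh c)
      fun z hz => ((adw c (by linarith)).2 z hz).1) fun z a b => (w_lo a b).2⟩
  rw [Vj_zero, ← rJ_ev l hz θ, ← e i z hz θ]
  rfl

end Vale.Agent.P218I
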