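import Vale.Agent.P218T.Lfd

/-! The order in which the constants are chosen, as a filter; the fields of `Obj.At` as separate
statements; the interface from the fields. -/

open Set Filter Topology

noncomputable section

namespace Vale.Agent.P218T

open Vale.Agent.P218Q (Prof DF)

variable {α ι : Type} [Fintype α] [Fintype ι]

/-- the constants which are fixed first: `K`, the radius `r`, the height `z₃` of the cutoff of the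
reference surface, the smallest order `J₀` -/
structure Cs where
  K : ℝ
  r : ℝ
  z₃ : ℝ
  J₀ : ℕ

/-- all constants and a base point -/
structure Pt (ι : Type) extends Cs where
  J : ℕ
  K₂ : ℝ
  Z : ℝ
  m : ι → ℝ
  W : ι → ℝ
  c : ι → ℂ
  v : ℝ

/-- admissible base points -/
structure Pt.Ad (p : Pt ι) : Prop where
  hJ : p.J₀ ≤ p.J
  hW : ∀ l, p.W l ∈ Icc p.Z (10 * p.Z)
  hm : ∀ l, p.m l ∈ Icc (p.W l / 25) (3 * p.W l / 5)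
  hc : Dsc p.J p.W p.c
  hv : p.v ∈ Icc (0 : ℝ) 1

/-- `K` large, then `r` small, then `z₃` large, then `J₀` large -/
def ev₀ : Filter Cs :=
  atTop.bind fun K => (𝓝[>] 0).bind fun r => atTop.bind fun z => atTop.map fun J => ⟨K, r, z, J⟩

/-- then any `J`, then `K₂` large, then `Z` large, then any admissible base point -/
def ev₁ (q : Cs) : Filter (Pt ι) :=
  (⊤ : Filter ℕ).bind fun J => atTop.bind fun K₂ => atTop.bind fun Z =>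
    𝓟 {p | p.toCs = q ∧ p.J = J ∧ p.K₂ = K₂ ∧ p.Z = Z ∧ p.Ad}

variable (ι) in
/-- the order of all constants -/
def ev : Filter (Pt ι) := ev₀.bind ev₁

theorem ev₀_iff {Q : Cs → Prop} : (∀ᶠ q in ev₀, Q q) ↔ ∀ᶠ K in atTop, ∀ᶠ r in 𝓝[>] 0,
    ∀ᶠ z in atTop, ∀ᶠ J in atTop, Q ⟨K, r, z, J⟩ := by
  simp only [ev₀, eventually_bind, eventually_map]

theorem ev₁_iff {q : Cs} {Q : Pt ι → Prop} : (∀ᶠ p in ev₁ q, Q p) ↔ ∀ J, ∀ᶠ K₂ in atTop,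
    ∀ᶠ Z in atTop, ∀ m W c v, Pt.Ad ⟨q, J, K₂, Z, m, W, c, v⟩ → Q ⟨q, J, K₂, Z, m, W, c, v⟩ := by
  simp only [ev₁, eventually_bind, eventually_top, eventually_principal, mem_ofPred_eq]
  refine forall_congr' fun J => eventually_congr (.of_forall fun K₂ =>
    eventually_congr (.of_forall fun Z => ⟨fun h m W c v a => h _ ⟨rfl, rfl, rfl, rfl, a⟩, ?_⟩))
  rintro h ⟨q, J, K₂, Z, m, W, c, v⟩ ⟨rfl, rfl, rfl, rfl, a⟩
  exact h _ _ _ _ a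

theorem ev_iff {Q : Pt ι → Prop} : (∀ᶠ p in ev ι, Q p) ↔ ∀ᶠ K in atTop, ∀ᶠ r in 𝓝[>] 0,
    ∀ᶠ z in atTop, ∀ᶠ J₀ in atTop, ∀ J, ∀ᶠ K₂ in atTop, ∀ᶠ Z in atTop, ∀ m W c v,
      Pt.Ad ⟨⟨K, r, z, J₀⟩, J, K₂, Z, m, W, c, v⟩ → Q ⟨⟨K, r, z, J₀⟩, J, K₂, Z, m, W, c, v⟩ := by
  simp only [ev, eventually_bind, ev₀_iff, ev₁_iff]

theorem ev_ad : ∀ᶠ p in ev ι, p.Ad := ev_iff.2 (by simp)

theorem ev_cs {Q : Cs → Prop} (h : ∀ᶠ q in ev₀, Q q) : ∀ᶠ p in ev ι, Q p.toCs :=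
  eventually_bind.2 (h.mono fun _ hq => ev₁_iff.2 fun _ => .of_forall fun _ => .of_forall
    fun _ _ _ _ _ _ => hq)

theorem ev₀_K (A : ℝ) : ∀ᶠ q in ev₀, A ≤ q.K :=
  ev₀_iff.2 ((eventually_ge_atTop A).mono fun _ h => by simp [h])

/-- `r` is small in terms of `K` -/
theorem ev₀_r {f : ℝ → ℝ} (hf : ∀ᶠ K in atTop, 0 < f K) : ∀ᶠ q in ev₀, 0 < q.r ∧ q.r ≤ f q.K :=
  ev₀_iff.2 (hf.mono fun _ h => mem_of_superset (Ioc_mem_nhdsGT h) fun _ hr =>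
    Eventually.of_forall fun _ => .of_forall fun _ => hr)

/-- `z₃` is large in terms of `K` and `r` -/
theorem ev₀_z (f : ℝ → ℝ → ℝ) : ∀ᶠ q in ev₀, f q.K q.r ≤ q.z₃ :=
  ev₀_iff.2 (.of_forall fun K => .of_forall fun r => (eventually_ge_atTop (f K r)).mono fun _ h =>
    .of_forall fun _ => h)

/-- `J₀` is large in terms of `K`, `r`, `z₃` -/
theorem ev₀_J (f : ℝ → ℝ → ℝ → ℝ) : ∀ᶠ q in ev₀, f q.K q.r q.z₃ ≤ q.J₀ :=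
  ev₀_iff.2 (.of_forall fun K => .of_forall fun r => .of_forall fun z =>
    tendsto_natCast_atTop_atTop.eventually_ge_atTop (f K r z))

/-- `K₂` is large in terms of the first constants and of `J` -/
theorem ev_K₂ (f : Cs → ℕ → ℝ) : ∀ᶠ p in ev ι, f p.toCs p.J ≤ p.K₂ :=
  eventually_bind.2 (.of_forall fun q => ev₁_iff.2 fun J => (eventually_ge_atTop (f q J)).mono
    fun _ h => .of_forall fun _ _ _ _ _ _ => h)

/-- `Z` is large in terms of all constants -/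
theorem ev_Z (f : Cs → ℕ → ℝ → ℝ) : ∀ᶠ p in ev ι, f p.toCs p.J p.K₂ ≤ p.Z :=
  eventually_bind.2 (.of_forall fun q => ev₁_iff.2 fun J => .of_forall fun K₂ =>
    (eventually_ge_atTop (f q J K₂)).mono fun _ h _ _ _ _ _ => h)

instance : ev₀.NeBot := ⟨fun h => by
  have : ∀ᶠ _ in ev₀, False := h ▸ eventually_bot
  rw [ev₀_iff] at this
  simp only [eventually_const] at this⟩

namespace Obj

variable {X Y : (ι → ℝ) → Type} {C : Type} [∀ W, NormedAddCommGroup (X W)]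
  [∀ W, NormedSpace ℂ (X W)] [∀ W, NormedAddCommGroup (Y W)] [∀ W, NormedSpace ℂ (Y W)]
  [NormedAddCommGroup C] [NormedSpace ℂ C]

/-- the object with its constants -/
def cs (o : Obj α ι X Y C) (q : Cs) (K₂ Zs : ℕ → ℝ) : Obj α ι X Y C :=
  { o with r := q.r, K := q.K, η := 1 / (100 * q.K), K₂ := K₂, P := 100, J₀ := q.J₀, Zs := Zs }

variable (o : Obj α ι X Y C) (p : Pt ι)

/-- the box -/
def Bx : Set (X p.W × Pm ι) := {y | o.N p.W p.c y.1 < p.r ∧ ‖y.2 - bs p.c p.v‖ < (p.Z ^ 100)⁻¹}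

/-- solutions -/
def So (W : ι → ℝ) (c : ι → ℂ) (v : ℝ) (a : α → ℂ) (U : X W) : Prop :=
  o.N W c U < p.r ∧ o.FF p.J 0 W (U, bs c v) = o.ia W a

def EQV : Prop := ∀ U, ‖U‖ ≤ p.Z ^ 100 * o.N p.W p.c U ∧ o.N p.W p.c U ≤ p.Z ^ 100 * ‖U‖ ∧
  o.N p.W p.c U ≤ p.Z ^ 100 * o.Np p.W p.c U ∧ o.Np p.W p.c U ≤ p.Z ^ 100 * ‖U‖

def INJ : Prop := Function.Injective (o.S p.W p.c)

def HOLF : Prop := ∀ y ∈ o.Bx p, DifferentiableAt ℂ (o.FF p.J p.m p.W) y ∧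
  ‖o.S p.W p.c (o.FF p.J p.m p.W y)‖ ≤ p.Z ^ 100

def HOLA : Prop := ∀ y ∈ o.Bx p, DifferentiableAt ℂ (o.f p.J p.m p.W) y ∧
  ‖o.f p.J p.m p.W y‖ ≤ p.K₂ ∧ ∀ j, DifferentiableAt ℂ (o.O j p.J p.m p.W) y

def HOLB : Prop := ∀ y ∈ o.Bx p, DifferentiableAt ℂ (o.Tv p.J p.m p.W) y ∧
  ‖o.Tv p.J p.m p.W y‖ ≤ p.Z ^ 100 * Real.exp (-p.Z ^ 2 / 4) ∧
  ∀ j, DifferentiableAt ℂ (o.D j p.J p.m p.W) y ∧
    ‖o.D j p.J p.m p.W y‖ ≤ p.Z ^ 100 * Real.exp (-p.Z ^ 2 / 4)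

def NL : Prop := ∀ U, o.N p.W p.c U < p.r → ∀ U',
  o.N p.W p.c (U' - o.S p.W p.c (fderiv ℂ (o.FF p.J p.m p.W) (U, bs p.c p.v) (U', 0)))
    ≤ o.N p.W p.c U' / 2 ∧
  o.Np p.W p.c (U' - o.S p.W p.c (fderiv ℂ (o.FF p.J p.m p.W) (U, bs p.c p.v) (U', 0)))
    ≤ o.Np p.W p.c U' / 2

def RES : Prop := o.N p.W p.c (o.S p.W p.c (o.FF p.J p.m p.W (0, bs p.c p.v))) ≤ p.r / 16

def IA : Prop := ∀ a, o.N p.W p.c (o.S p.W p.c (o.ia p.W a)) ≤ p.K * ‖a‖ ∧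
  o.Np p.W p.c (o.S p.W p.c (o.ia p.W a)) ≤ p.K * ‖a‖

def DER : Prop := ∀ U, o.N p.W p.c U < p.r → ∀ c', o.Np p.W p.c (o.S p.W p.c
  (fderiv ℂ (o.FF p.J p.m p.W) (U, bs p.c p.v) (o.U0 p.W c', c', 0))) ≤ 1 / (100 * p.K) * ‖c'‖

def UZ : Prop := ∀ c', o.Np p.W p.c (o.U0 p.W c') ≤ p.K * ‖c'‖ ∧ o.Xi p.W (o.U0 p.W c') = c'

def FN : Prop := ∀ U, ‖o.Xi p.W U‖ ≤ p.K * o.Np p.W p.c U ∧
  ‖o.lam p.W U‖ ≤ p.K * o.Np p.W p.c U ∧ ‖o.mu p.W U‖ ≤ p.K * o.Np p.W p.c U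

def CON : Prop := ∀ y ∈ o.Bx p, ∀ a, o.FF p.J p.m p.W y = o.ia p.W a → o.A p.W y.1 = a

def FV : Prop := ∀ y ∈ o.Bx p, ∀ a, o.FF p.J p.m p.W y = o.ia p.W a → ∀ y' : X p.W × Pm ι,
  fderiv ℂ (o.f p.J p.m p.W) y y' = ∑ i, o.lam p.W y.1 i * o.A p.W y'.1 i
    + ∑ j, o.mu p.W y.1 j * o.Xi p.W y'.1 j + ∑ j, o.D j p.J p.m p.W y * y'.2.2.1 j
    + ∑ j, o.O j p.J p.m p.W y * y'.2.2.2.1 j + o.Tv p.J p.m p.W y * y'.2.2.2.2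

def CJ : Prop := ∀ a U, o.So p p.W p.c p.v a U →
  o.So p p.W (star p.c) p.v (star a) (o.cj p.W U) ∧
  o.Xi p.W (o.cj p.W U) = star (o.Xi p.W U) ∧ o.lam p.W (o.cj p.W U) = star (o.lam p.W U) ∧
  o.mu p.W (o.cj p.W U) = star (o.mu p.W U) ∧
  o.f p.J p.m p.W (o.cj p.W U, bs (star p.c) p.v) = star (o.f p.J p.m p.W (U, bs p.c p.v))

def NC : Prop := ∀ᶠ c' in 𝓝 p.c, ∀ U, o.N p.W c' U ≤ 2 * o.N p.W p.c U

def RP : Prop := ∀ᶠ t : (ι → ℝ) × (ι → ℂ) × ℝ in 𝓝 (p.W, p.c, p.v), ∀ a U,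
  o.N p.W p.c U < p.r / 2 →
  o.FF p.J p.m p.W (U, t.2.1, fun l => (t.1 l - p.W l : ℝ), 0, t.2.2) = o.ia p.W a →
  o.So p t.1 t.2.1 t.2.2 a (o.rp p.W t.1 U) ∧ o.Xi t.1 (o.rp p.W t.1 U) = o.Xi p.W U ∧
  o.co t.1 (o.rp p.W t.1 U) = o.co p.W U ∧
  o.f p.J p.m t.1 (o.rp p.W t.1 U, bs t.2.1 t.2.2)
    = o.f p.J p.m p.W (U, t.2.1, fun l => (t.1 l - p.W l : ℝ), 0, t.2.2) ∧
  ∀ j, o.O j p.J p.m t.1 (o.rp p.W t.1 U, bs t.2.1 t.2.2)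
    = o.O j p.J p.m p.W (U, t.2.1, fun l => (t.1 l - p.W l : ℝ), 0, t.2.2)

def PROF : Prop := ∀ a U, o.So p p.W p.c p.v a U → ∀ j, ∃ V V1 V2,
  Prof p.K₂ (p.W j) (p.c j) (fun s => o.O j p.J (fun _ => s) p.W (U, bs p.c p.v)) V V1 V2

def DFV : Prop := p.v = 1 → ∀ a U, o.So p p.W p.c p.v a U → ∀ j,
  DF p.J p.K₂ (p.W j) (p.c j) (o.D j p.J p.m p.W (U, bs p.c p.v))

def USS : Prop := o.N p.W p.c (o.US p.W) < p.r ∧ o.Xi p.W (o.US p.W) = 0 ∧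
  o.lam p.W (o.US p.W) = 0 ∧ o.mu p.W (o.US p.W) = 0

def USZ : Prop := p.c = 0 →
  o.Np p.W p.c (o.S p.W p.c (o.FF p.J p.m p.W (o.US p.W, bs p.c p.v))) ≤ p.K₂ / p.Z ^ 2

def MID : Prop := Mid p.W p.c → ∀ U, o.Np p.W 0 U ≤ p.K₂ * o.Np p.W p.c U ∧
  (o.N p.W p.c U < p.r → ‖o.f p.J p.m p.W (U, bs p.c p.v) - o.FS‖
    ≤ p.K₂ * (o.Np p.W 0 (U - o.US p.W) + ‖p.c‖ + 1 / p.Z))

/-- independence of the heights of the observables and of the order -/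
def IND (J₀ : ℕ) : Prop :=
  (∀ J m W U c v, o.FF J m W (U, bs c v) = o.FF J 0 W (U, bs c v) ∧
    o.f J m W (U, bs c v) = o.f J 0 W (U, bs c v) ∧
    ∀ j, o.D j J m W (U, bs c v) = o.D j J 0 W (U, bs c v) ∧
      o.O j J m W (U, bs c v) = o.O j J (fun _ => m j) W (U, bs c v)) ∧
  ∀ J W U c, o.FF J 0 W (U, bs c 0) = o.FF J₀ 0 W (U, bs c 1) ∧
    o.f J 0 W (U, bs c 0) = o.f J₀ 0 W (U, bs c 1)

/-- all fields -/
structure All : Prop where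
  eqv : o.EQV p
  inj : o.INJ p
  holf : o.HOLF p
  hola : o.HOLA p
  holb : o.HOLB p
  nl : o.NL p
  res : o.RES p
  ia : o.IA p
  der : o.DER p
  uz : o.UZ p
  fn : o.FN p
  con : o.CON p
  fv : o.FV p
  cj : o.CJ p
  nc : o.NC p
  rp : o.RP p
  prof : o.PROF p
  dfv : o.DFV p
  uss : o.USS p
  usz : o.USZ p
  mid : o.MID p

/-- **the interface from the fields**; the cuts may be taken as large as we want -/
theorem pde_of (ob : Cs → Obj α ι X Y C) (hi : ∀ q, (ob q).IND q.J₀)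
    (h : ∀ᶠ p in ev ι, (ob p.toCs).All p) :
    ∀ᶠ q in ev₀, ∃ K₂, ∀ Z₁, ∃ Zs, Z₁ ≤ Zs q.J₀ ∧ ((ob q).cs q K₂ Zs).PDE := by
  filter_upwards [eventually_bind.1 h, ev₀_K 1, ev₀_r (f := fun _ => 1) (by simp),
    ev₀_J fun _ _ _ => 10 ^ 13] with q h hK hr hJ
  rw [ev₁_iff] at h
  choose K₂ h using fun J => ((h J).and (eventually_ge_atTop 1)).exists
  choose Z h' using fun J => eventually_atTop.1 (h J).1
  refine ⟨K₂, fun Z₁ => ⟨fun J => max (max Z₁ (max (Z q.J₀) q.J₀)) (max (Z J) J), by simp,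
    hr.1, hK, fun J => (h J).2, ⟨by dsimp only [cs]; positivity, ?_⟩, by exact_mod_cast hJ,
    fun J _ => ⟨?_, by simp [cs]⟩, (hi q).1, (hi q).2, fun J Z' m W c v a => ?_⟩⟩
  · dsimp only [cs]
    rw [mul_one_div_cancel (by positivity)]
  · simp [cs]
  · have k := h' J Z' (le_trans (by simp [cs]) a.hZ) m W c v ⟨a.hJ, a.hW, a.hm, a.hc, a.hv⟩
    exact ⟨k.eqv, k.inj, fun y hy => ⟨(k.holf y hy).1, (k.hola y hy).1, (k.holb y hy).1, fun j =>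
      ⟨((k.holb y hy).2.2 j).1, (k.hola y hy).2.2 j⟩⟩, fun y hy => ⟨(k.holf y hy).2,
      (k.hola y hy).2.1, (k.holb y hy).2.1, fun j => ((k.holb y hy).2.2 j).2⟩, k.nl, k.res, k.ia,
      k.der, k.uz, k.fn, k.con, k.fv, k.cj, k.nc, k.rp, k.prof, k.dfv, k.uss, k.usz, k.mid⟩

end Obj

end Vale.Agent.P218T
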