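import Vale.Agent.P218M.Spec
import Vale.Agent.P218I.Ev

/-! The openings in the disc are admissible for the linear theory. -/

set_option linter.all false

open Set Filter Topology

noncomputable section

namespace Vale.Agent.P218I

open Vale.Agent.P218M Vale.Agent.P218T
open Vale.Agent.P218Q (dsc vb nu)

/-- the openings in the disc are admissible for the linear theory -/
theorem cyl_of_dsc {Y Y' R Z : ℝ} {c : ℂ} (h : c ∈ dsc Y' Z) (R2 : 2 ≤ R) (RZ : R + 1 ≤ Z)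
    (h1 : 7 * Y ≤ 25 * Y') (h2 : Y ≤ R ^ 2) (Y0 : 0 ≤ Y') : Cyl Y R Z c := by
  have Z3 : 3 ≤ Z := by linarith
  have hd : ‖vb Z c - 3‖ < 3 - 4 * Y' / Z ^ 2 := h
  have q0 : 0 ≤ 4 * Y' / Z ^ 2 := by positivity
  have Z9 : 9 ≤ Z ^ 2 := by nlinarith
  have key : ∀ z ∈ Icc R Z, ∃ t ∈ Icc (0 : ℝ) 1, t * (Z ^ 2 - 2) = z ^ 2 - 2 ∧
      rh c z - 3 = (t : ℂ) * (vb Z c - 3) + ((1 - t : ℝ) : ℂ) * (-1) := fun z hz => by
    have z4 : 4 ≤ z ^ 2 := by nlinarith [hz.1]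
    have zZ : z ^ 2 ≤ Z ^ 2 := pow_le_pow_left₀ (by linarith [hz.1]) hz.2 2
    have e : (z ^ 2 - 2) / (Z ^ 2 - 2) * (Z ^ 2 - 2) = z ^ 2 - 2 := div_mul_cancel₀ _ (by linarith)
    refine ⟨(z ^ 2 - 2) / (Z ^ 2 - 2), ⟨div_nonneg (by linarith) (by linarith),
      (div_le_one (by linarith)).2 (by linarith)⟩, e, ?_⟩
    generalize (z ^ 2 - 2) / (Z ^ 2 - 2) = t at e
    have e' : (t : ℂ) * (Z ^ 2 - 2) = z ^ 2 - 2 := by exact_mod_cast e
    simp only [rh, vb]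
    push_cast
    linear_combination (-c) * e'
  have nrm : ∀ z ∈ Icc R Z, ∃ t ∈ Icc (0 : ℝ) 1, t * (Z ^ 2 - 2) = z ^ 2 - 2 ∧
      ‖rh c z - 3‖ ≤ t * (3 - 4 * Y' / Z ^ 2) + (1 - t) := fun z hz => by
    obtain ⟨t, ht, e, e'⟩ := key z hz
    refine ⟨t, ht, e, e' ▸ (norm_add_le _ _).trans (add_le_add ?_ ?_)⟩
    · rw [norm_mul, Complex.norm_real, Real.norm_of_nonneg ht.1]
      exact mul_le_mul_of_nonneg_left hd.le ht.1
    · rw [norm_mul, Complex.norm_real, Real.norm_of_nonneg (sub_nonneg.2 ht.2)]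
      simp
  refine ⟨by linarith, RZ, ?_, fun z hz => ?_, fun z hz => ?_⟩
  · have e : c * ((Z ^ 2 - 2 : ℝ) : ℂ) = (vb Z c - 3) + 1 := by
      simp only [vb]
      push_cast
      ring
    have h3 := norm_add_le (vb Z c - 3) 1
    rw [← e, norm_mul, Complex.norm_real, Real.norm_of_nonneg (by linarith), norm_one] at h3
    nlinarith [norm_nonneg c]
  · obtain ⟨t, ht, e, l⟩ := nrm z hz
    have h3 := (Complex.abs_re_le_norm (rh c z - 3)).trans l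
    have h4 : 2 * (1 - t) + t * (4 * Y' / Z ^ 2) ≤ (rh c z).re := by
      have := neg_abs_le (rh c z - 3).re
      simp only [Complex.sub_re, Complex.re_ofNat] at this h3
      linarith
    have z4 : R ^ 2 ≤ z ^ 2 := pow_le_pow_left₀ (by linarith) hz.1 2
    have zt : t * Z ^ 2 ≤ z ^ 2 := by nlinarith [ht.2]
    refine le_trans ?_ (mul_le_mul_of_nonneg_left h4 (sq_nonneg z))
    have h5 : t * (t * (4 * Y')) ≤ z ^ 2 * (t * (4 * Y' / Z ^ 2)) := by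
      have e2 : t * (t * (4 * Y')) = t * Z ^ 2 * (t * (4 * Y' / Z ^ 2)) := by
        field_simp
      rw [e2]
      exact mul_le_mul_of_nonneg_right zt (mul_nonneg ht.1 q0)
    have h6 := mul_le_mul_of_nonneg_left (h2.trans z4) (sub_nonneg.2 ht.2)
    have h7 := mul_le_mul_of_nonneg_left h1 (mul_self_nonneg t)
    rcases le_total Y 0 with h8 | h8
    · exact h8.trans (mul_nonneg (sq_nonneg _) (by linarith [ht.2, mul_nonneg ht.1 q0]))
    · linarith [mul_nonneg h8 (mul_self_nonneg (t - 25 / 28))]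
  · obtain ⟨t, ht, -, l⟩ := nrm z hz
    have h3 : ‖rh c z - 3‖ ≤ 3 := by nlinarith [ht.1, ht.2, mul_nonneg ht.1 q0]
    have h4 := pow_le_pow_left₀ (norm_nonneg _) h3 2
    rw [Complex.sq_norm, Complex.normSq_apply] at h4 ⊢
    simp only [Complex.sub_re, Complex.sub_im, Complex.re_ofNat, Complex.im_ofNat] at h4
    nlinarith

theorem cyl_of_dsc' {Y R Z : ℝ} {J : ℕ} {c : ℂ} (h : c ∈ dsc (7 / 5 * nu J) Z) (R2 : 2 ≤ R)
    (RZ : R + 1 ≤ Z) (h1 : Y ≤ 5 * J) (h2 : Y ≤ R ^ 2) : Cyl Y R Z c :=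
  have J0 : (0 : ℝ) ≤ J := J.cast_nonneg
  cyl_of_dsc h R2 RZ (by unfold nu; linarith) h2 (by unfold nu; linarith)

/-- at the base points -/
theorem ev_cyl {ι : Type} [Fintype ι] {Y R : ℝ} (R2 : 2 ≤ R) (h : Y ≤ R ^ 2) :
    ∀ᶠ p in ev ι, ∀ j, Cyl Y R (p.W j) (p.c j) := by
  filter_upwards [ev_ad, ev_cs (ev₀_J fun _ _ _ => Y), ev_Z fun _ _ _ => R + 1] with p a h1 h2 j
  have h3 : (p.J₀ : ℝ) ≤ p.J := by exact_mod_cast a.hJ
  exact cyl_of_dsc' (a.hc j) R2 (h2.trans (a.hW j).1) (by linarith [p.J.cast_nonneg (α := ℝ)]) h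

end Vale.Agent.P218I
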