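import Vale.Agent.P218I.Bas
import Vale.Agent.P218N.Cj

/-!
# P218, INST: conjugation of the linear pieces and of the norms
-/

open MeasureTheory Set Filter Topology
open scoped ContDiff Real ComplexConjugate

noncomputable section

namespace Vale.Agent.P218I

open Vale.Agent.P218T Vale.Agent.P218L Vale.Agent.P218M GD
open Vale.Agent.P218H (HH f1 f2 tri)
open Vale.Agent.P218N (V3 cx nu jt mix km Jt)
open Vale.Agent.P218W (W Ret toW jet low cst wn wn2 xn XE XK WI cl ret_cl ret_max)

attribute [local simp] map_ofNat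

namespace Cja

theorem toW_conj {s : Set ℝ} {r : ℝ → ℝ} (h : Ret s r) {F F' : ℝ × ℝ → ℂ}
    (e : ∀ z ∈ s, ∀ θ, F' (z, θ) = conj (F (z, θ))) : toW s r F' = star (toW s r F) := by
  by_cases k : ∃ x : W r, ∀ z ∈ s, ∀ θ, x (z, θ) = F (z, θ)
  · obtain ⟨x, hx⟩ := k
    rw [h.toW_eq hx, h.toW_eq (x := star x) fun z hz θ => by
      rw [P218W.W.star_apply, hx z hz, e z hz]]
  · have k' : ¬∃ x : W r, ∀ z ∈ s, ∀ θ, x (z, θ) = F' (z, θ) := fun ⟨x, hx⟩ =>
      k ⟨star x, fun z hz θ => by rw [P218W.W.star_apply, hx z hz, e z hz, Complex.conj_conj]⟩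
    rw [toW, toW, dif_neg k, dif_neg k', star_zero]

theorem starH_zero : star (0 : HH α₀ E3) = 0 := P272.K.LIN.Hol.ext fun _ => map_zero conj

theorem starH_sub (x y : HH α₀ E3) : star (x - y) = star x - star y :=
  P272.K.LIN.Hol.ext fun p => map_sub conj (x p) (y p)

theorem toH_conj {F F' : E3 → ℂ} (e : ∀ p, F' p = conj (F p)) : toH F' = star (toH F) := by
  by_cases k : ∃ x : HH α₀ E3, ∀ p, x p = F p
  · obtain ⟨x, hx⟩ := k
    rw [toH_eq hx, toH_eq (x := star x) fun p => by rw [P218H.starH_apply, hx, e]]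
  · have k' : ¬∃ x : HH α₀ E3, ∀ p, x p = F' p := fun ⟨x, hx⟩ =>
      k ⟨star x, fun p => by rw [P218H.starH_apply, hx, e, Complex.conj_conj]⟩
    rw [toH, toH, dif_neg k, dif_neg k', starH_zero]

theorem toL_conj {A B : Type} [NormedAddCommGroup A] [NormedSpace ℂ A] [NormedAddCommGroup B]
    [NormedSpace ℂ B] [StarAddMonoid B] {F : A → B} {a a' : A} (h : F a' = star (F a)) :
    toL F a' = star (toL F a) := by
  by_cases k : ∃ T : A →L[ℂ] B, ∀ a, T a = F a
  · rw [toL_apply k, toL_apply k, h]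
  · simp [toL, dif_neg k]

theorem jet_conj (F : ℝ × ℝ → ℂ) (i : Fin 6) (p : ℝ × ℝ) :
    jet (fun q => conj (F q)) i p = conj (jet F i p) := by
  let T := (ContinuousLinearEquiv.refl ℝ (ℝ × ℝ)).arrowCongr Complex.conjCLE
  have h1 : fderiv ℝ (fun q => conj (F q)) = T ∘ fderiv ℝ F :=
    funext fun q => Complex.conjCLE.comp_fderiv (f := F) (x := q)
  have h2 := T.comp_fderiv (f := fderiv ℝ F) (x := p)
  fin_cases i <;> simp [jet, h1, h2, T]

theorem jet_re {F : ℝ × ℝ → ℂ} (h : ∀ p, conj (F p) = F p) (p : ℝ × ℝ) :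
    star (fun i => jet F i p) = fun i => jet F i p := funext fun i => by
  rw [Pi.star_apply, Complex.star_def, ← jet_conj, funext h]

theorem fd_conj {ι : Type} [Fintype ι] {f : (ι → ℂ) → ℂ} (hf : ∀ J, f (star J) = conj (f J))
    {V : ι → ℂ} (hV : star V = V) (H : ι → ℂ) :
    fderiv ℂ f V (star H) = conj (fderiv ℂ f V H) := by
  by_cases h : DifferentiableAt ℂ f V
  · have := h.hasFDerivAt.star_star
    rw [show star ∘ f ∘ star = f from funext fun J => by simp [hf], hV] at this
    conv_lhs => rw [this.fderiv]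
    simp
  · simp [fderiv_zero_of_not_differentiableAt h]

theorem kJ_star (γ n : ℝ → E3) (θ : ℝ) (J : Fin 7 → ℂ) : kJ γ n θ (star J) = conj (kJ γ n θ J) := by
  simp [kJ, P218N.kE, P218N.kH, P218N.kD]

theorem jk_star (z : ℝ) (J : Fin 6 → ℂ) : jk z (star J) = star (jk z J) :=
  funext fun i => by fin_cases i <;> simp [jk]

theorem jk_uS (g : ℝ × ℝ → ℝ) (p : ℝ × ℝ) :
    star (jk p.1 fun i => jet (uS g) i p) = jk p.1 fun i => jet (uS g) i p := by
  rw [← jk_star, jet_re (F := uS g) fun _ => Complex.conj_ofReal _]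

theorem DL_star (M : Mod) (e : M.I) (p : ℝ × ℝ) (J : Fin 6 → ℂ) :
    DL M e p (star J) = conj (DL M e p J) := by
  cases e with
  | inl j =>
    exact fd_conj (fun J => by simp [vJ, P218N.vv, P218N.vD]) (jet_re (fun _ => Complex.conj_ofReal _) p) J
  | inr l =>
    simp only [DL, DK, jk_star, fd_conj (kJ_star _ _ _) (jk_uS _ p), map_div₀, map_mul,
      Complex.conj_ofReal, map_ofNat]

theorem jt_conj (φ : E3 → ℂ) (x : E3) : jt (fun y => conj (φ y)) x = star (jt φ x) :=
  funext fun i => funext fun i' =>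
    congrFun ((congrArg (P218H.dd i) (P218H.dd_conj i' φ)).trans (P218H.dd_conj i _)) x

theorem mix_star (j j' : Jt) : mix (star j) (star j') = star (mix j j') := by
  funext i i'
  rcases i with _ | c <;> rcases i' with _ | b <;> rfl

/-! ### the norms -/

section norms

variable {s : Set ℝ} {r o n : ℝ → ℝ}

theorem wn_star (h : Ret s r) (x : W r) : wn s o (star x) = wn s o x := by
  have e : (cst s r fun z => (o z : ℂ)⁻¹) = star (cst s r fun z => (o z : ℂ)⁻¹) :=
    toW_conj h fun z _ θ => by simp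
  change ‖cst s r _ * star x‖ = ‖cst s r _ * x‖
  rw [e, ← star_mul', norm_star, ← e]

theorem wn2_star (h : Ret s r) (x : W r) : wn2 s o n (star x) = wn2 s o n x := by
  have e : P218W.W.P0 (star x) = star (P218W.W.P0 x) := P218W.W.ext fun p => by
    rw [P218W.W.star_apply]
    exact (congrFun (P218W.W.P0_f _) p).trans ((P218W.co_conj x 0 p.1).trans
      (congrArg conj (congrFun (P218W.W.P0_f x) p).symm))
  have e' : P218W.W.Pn (star x) = star (P218W.W.Pn x) := by simp [P218W.W.Pn, e]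
  change max (wn s o (P218W.W.P0 (star x))) (wn s n (P218W.W.Pn (star x))) = _
  rw [e, e', wn_star h, wn_star h]
  rfl

theorem xn_star (h : Ret s r) {o n : Fin 6 → ℝ → ℝ} (J : Fin 6 → W r) :
    xn s o n (star J) = xn s o n J := by
  simp only [xn, Seminorm.finset_sup_apply]
  exact congrArg _ (Finset.sup_congr rfl fun i _ => NNReal.eq (wn2_star h (J i)))

theorem pN_star {R Z : ℝ} (h : R ≤ Z) (c : ℂ) (J : XE R Z) :
    pN (conj c) R Z (cjE J) = pN c R Z J := by
  have e : ∀ z, rh (conj c) z = conj (rh c z) := fun z => by simp [rh]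
  have e1 : ∀ z, sg (conj c) z = sg c z := fun z => by rw [sg, sg, e, ← map_inv₀, Complex.conj_re]
  have e2 : wK (31 / 16) (conj c) = wK (31 / 16) c := funext fun z => by simp [wK, e]
  have e3 : P218W.nu (wK (31 / 16) c) (conj c) Z = P218W.nu (wK (31 / 16) c) c Z := by
    simp only [P218W.nu, gW, ta, e, e1, Complex.norm_conj, Complex.conj_re]
  refine Eq.trans ?_ (xn_star (ret_cl h) J.1)
  simp only [pN, P218W.MP.xe, P218W.om, e2, e3, gO, wO, e, Complex.conj_re]
  rfl

end norms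

variable {M : Mod} {k : ℕ} {G : GD M k} {Z : Fin M.n₁ → ℝ}

/-- conjugation of the unknowns -/
abbrev cU (U : G.XX Z) : G.XX Z := (star U.1, cX U.2.1, star U.2.2)

theorem N_star (h : ∀ j, G.z₀ ≤ Z j) (c : Fin M.n₁ → ℂ) (U : G.XX Z) :
    tri (G.pn Z (star c)) (cU U) ≤ tri (G.pn Z c) U := by
  refine max_le_max (P218H.norm_star2 _).le (max_le_max (prs_le (fun j => ?_) ?_) (norm_star U.2.2).le)
  · exact (pN_star (h j) (c j) _).trans_le
      ((le_prs (p := fun j => pN (c j) G.z₀ (Z j)) U.2.1).1 j)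
  · refine le_trans ((pi_norm_le_iff_of_nonneg (norm_nonneg _)).2 fun l => ?_)
      (le_prs (p := fun j => pN (c j) G.z₀ (Z j)) U.2.1).2
    refine le_trans ((pi_norm_le_iff_of_nonneg (norm_nonneg _)).2 fun i => ?_)
      (norm_le_pi_norm U.2.1.2 l)
    exact (norm_star ((U.2.1.2 l).1 i)).trans_le (norm_le_pi_norm (U.2.1.2 l).1 i)

theorem jx_conj (v : G.X' Z) (e : M.I) (i : Fin 6) (y : ℝ × ℝ) :
    LD.jx (cX v) e i y = conj (LD.jx v e i y) := by
  cases e with
  | inl j => rfl
  | inr l => simp [LD.jx, P218W.wj, cX, cjK]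

theorem wc_conj (U : G.XX Z) : wc (cU U) = fun x => conj (wc U x) := P218H.wf_conj _ _ _

theorem we_conj (U : G.XX Z) : we (cU U) = fun x => conj (we U x) := funext fun x => by
  change ∑ e : M.I, _ = conj (∑ e : M.I, _)
  simp only [map_sum, ← Mod.lift_map conj (map_zero _), jx_conj, map_mul, Complex.conj_ofReal]

theorem uu_conj (U : G.XX Z) : uu (cU U) = fun x => conj (uu U x) := funext fun x => by
  simp [uu, wc_conj, we_conj]

theorem L1_conj (hb : ∀ i x, conj (G.b i x) = G.b i x) (U : G.XX Z) : L1 (cU U) = star (L1 U) := by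
  have e : lo (cU U) = fun p => conj (lo U p) := funext fun p => by
    simp [lo, P218H.f2_star, P218H.wf_conj, wc_conj, we_conj, P218H.cm_conj, hb]
  refine toH_conj fun x => ?_
  rw [e, P218H.ext_conj]
  simp [P218H.f2_star, P218H.op_conj]

theorem toY_conj (h : ∀ j, G.z₀ ≤ Z j) {F F' : M.I → ℝ × ℝ → ℂ}
    (e : ∀ e p, F' e p = conj (F e p)) : G.toY Z F' = star (G.toY Z F) :=
  Prod.ext (funext fun j => Prod.ext (toW_conj (ret_cl (h j)) fun _ _ _ => e _ _) (star_zero _).symm)
    (funext fun _ => toW_conj (ret_max _) fun _ _ _ => e _ _)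

theorem L2_conj (h : ∀ j, G.z₀ ≤ Z j) (v : G.X' Z) : L2 (cX v) = star (L2 v) :=
  toY_conj h fun e p => by
    rw [map_mul, Complex.conj_ofReal, ← DL_star, funext fun i => jx_conj v e i p]
    rfl

theorem inj_conj (h : ∀ j, G.z₀ ≤ Z j) (f : P218H.C1a 3 β₀) :
    G.inj Z (star f) = star (G.inj Z f) :=
  toL_conj (toY_conj h fun e p => by simp [P218H.f1_star])

theorem gam_conj (v : G.X' Z) : G.gam Z (cX v) = star (G.gam Z v) :=
  funext fun i => congrFun (P218W.low_star G.z₀ ((v.1 i.1).1 0)) i.2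

theorem Mm_conj (o : G.toLD.Ok) (m : Fin M.n₁ × Fin 3 → ℂ) : G.Mm (star m) = star (G.Mm m) := by
  have e : ∀ j, star (G.gy j) = G.gy j := fun j => by
    have h : star ((G.yv j).1 0) = (G.yv j).1 0 := P218W.W.ext (o.real j 0)
    rw [LD.gy, star_add, star_smul, ← P218W.low_star, h]
    congr 1
    · apply P218N.ext3 <;> simp
    · simp
  funext i
  have e' : conj (G.gy i.1 i.2) = G.gy i.1 i.2 := congrFun (e i.1) i.2
  simp [LD.Mm, e']

theorem AA_conj (U : G.XX Z) : G.AA Z (cU U) = star (G.AA Z U) :=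
  toL_conj (funext fun i => by simp [wc_conj, ← integral_conj])

theorem ka_re (hb : ∀ i x, conj (G.b i x) = G.b i x) (hp : ∀ i x, conj (G.ph i x) = G.ph i x)
    (j : Fin M.n₁) : conj (G.ka j) = G.ka j := by
  simp [LD.ka, LD.Y, ← integral_conj, hb, hp]

theorem XI_conj (hb : ∀ i x, conj (G.b i x) = G.b i x) (hk : ∀ j, conj (G.ka j) = G.ka j)
    (U : G.XX Z) : G.XI Z (cU U) = star (G.XI Z U) :=
  toL_conj (funext fun j => by simp [uu_conj, ← integral_conj, hb, hk])

theorem n3k_conj (l : Fin M.n₂) (J : XK G.z₀) : n3k l (cjK J) = star (n3k l J) :=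
  toW_conj (ret_max _) fun z _ θ => by
    rw [Ek, Ek, map_mul, map_div₀, ← kJ_star, star_add, jk_uS _ (z, θ), Complex.conj_ofReal,
      map_mul, Complex.conj_ofReal, map_ofNat]
    rfl

theorem ad_re (hb : ∀ i x, conj (G.b i x) = G.b i x) : (G.ad Z).Re := by
  have h1 : ∀ e (F : ℝ × ℝ → ℂ) x, (∀ y, conj (F y) = F y) → star (M.lift e F x) = M.lift e F x :=
    fun e F x h => by rw [Complex.star_def, ← Mod.lift_map conj (map_zero _), funext h]
  have h2 : ∀ e (F : ℝ × ℝ → V3) x, (∀ y, star (F y) = F y) → star (M.lift e F x) = M.lift e F x :=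
    fun e F x h => by rw [← Mod.lift_map star (star_zero _), funext h]
  refine ⟨funext fun x => ?_, funext₂ fun j x => h1 _ _ x fun _ => Complex.conj_ofReal _,
    funext₂ fun j x => h1 _ _ x fun _ => Complex.conj_ofReal _,
    funext₂ fun j x => h1 _ _ x fun _ => Complex.conj_ofReal _,
    funext₂ fun j x => h2 _ _ x fun _ => P218N.Cjg.cx_star _, funext₂ fun j l => ?_,
    funext fun j => P218N.Cjg.cx_star _, funext₂ hb⟩
  · rw [Pi.star_apply]
    simp only [ad, star_add, star_sum, star_smul, P218N.Cjg.nu_star, Complex.star_def,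
      Complex.conj_ofReal]
    congr 1
    exact Finset.sum_congr rfl fun l _ => congrArg _ (h2 _ _ x fun y => by
      simp [P218N.Cjg.cx_star])
  · fin_cases l
    exacts [star_zero _, P218N.Cjg.cx_star _, P218N.Cjg.cx_star _]

end Cja

end Vale.Agent.P218I
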