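import Vale.Agent.P218I.Spec
import Vale.Agent.P218I.Cd

/-! The row `CY`. -/

namespace Vale.Agent.P218I

theorem cy : CY := fun _ _ _ _ _ h R2 RZ h2 h1 => cyl_of_dsc' h R2 (by linarith) h1 h2

end Vale.Agent.P218I
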