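import Vale.Agent.P218L.Defs
import Vale.Agent.P218N.Amb
import Vale.Agent.P218C.Frm
import Vale.Agent.P218I.Ev

/-!
# P218, INST: the object
-/

open MeasureTheory Set Filter Topology
open scoped ContDiff RealInnerProductSpace Real ComplexConjugate

noncomputable section

namespace Vale.Agent.P218I

open Vale.Agent.P218T Vale.Agent.P218L
open Vale.Agent.P218H (J1 op sa st Core EndD C1a C2a HH f1 f2 tri)
open Vale.Agent.P218N (V3 cx nu sig AD Pi' Jt jt mix km rj Ef Bc Tf Df)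
open Vale.Agent.P218W (W jet co low toW cl WI XE YE XK)
open Vale.Agent.P218T.HJ (Tb)

/-- the Hölder exponent of the core -/
abbrev α₀ : ℝ := 3 / 4

open Classical in
/-- the Hölder function with the given values, if there is one -/
def toH (F : E3 → ℂ) : HH α₀ E3 := if h : ∃ x : HH α₀ E3, ∀ p, x p = F p then h.choose else 0

open Classical in
/-- the element of `XE R Z` whose function, read at the height `ζ z`, is `F` on `[R, Z₀]` -/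
def toE (R Z₀ Z : ℝ) (ζ : ℝ → ℝ) (F : ℝ × ℝ → ℂ) : XE R Z :=
  if h : ∃ J : XE R Z, ∀ z ∈ Icc R Z₀, ∀ θ, J.1 0 (ζ z, θ) = F (z, θ) then h.choose else 0

/-- a step: `0` below `a`, `1` above `a + 1` -/
def cut (a z : ℝ) : ℝ := Real.smoothTransition (z - a)

/-- the height of the shifted end -/
def zt (Z : ℝ) (l : ℂ) (z : ℝ) : ℂ := z + l * cut (Z - 2) z

/-- its derivative -/
def zt₁ (Z : ℝ) (l : ℂ) (z : ℝ) : ℂ := 1 + l * (deriv (cut (Z - 2)) z : ℝ)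

/-- its second derivative -/
def zt₂ (Z : ℝ) (l : ℂ) (z : ℝ) : ℂ := l * (deriv (deriv (cut (Z - 2))) z : ℝ)

/-- conjugation on a cylindrical end -/
def cjE {R Z : ℝ} (J : XE R Z) : XE R Z :=
  ⟨star J.1, J.2.1.conj, fun θ => by simp [J.2.2.1 θ], fun k hk => by
    have := J.2.2.2 (-k) (by rwa [abs_neg])
    rw [P218W.W.coL_apply] at this ⊢
    exact (P218W.co_conj (J.1 0) k R).trans (by rw [this, map_zero])⟩

/-- conjugation on a conical end -/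
def cjK {R : ℝ} (J : XK R) : XK R :=
  ⟨star J.1, P218W.Jet.congr J.2.1.conj fun i z _ θ => by simp [P218W.wj],
    fun z hz θ => by simp [J.2.2.1 z hz θ], fun θ => by simp [J.2.2.2 θ]⟩

/-- the fixed data: the linear data, the ambient operator `bA`, the spectral parameter `sp`, the
commutator `cC`, the modulus `Km`, the bound `C'` of the inverse -/
structure GD (M : Mod) (k : ℕ) extends LD M k where
  bA : J1 3 → J1 3 → E3 → ℝ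
  sp : ℝ
  cC : C2a 3 α₀ →L[ℂ] C1a 3 β₀
  Km : ℝ
  C' : ℝ

namespace GD

variable {M : Mod} {k : ℕ} (G : GD M k)

/-- the core -/
abbrev cor : Core 3 k (Fin M.n₁ × Fin 3) := G.core G.Km

/-- the unknowns `(v, ve, m, l)` -/
abbrev XX (Z : Fin M.n₁ → ℝ) :=
  C2a 3 α₀ × G.X' Z × (Fin M.n₁ × Fin 3 → ℂ) × (Fin k → ℂ)

/-- the data -/
abbrev YY (Z : Fin M.n₁ → ℝ) :=
  HH α₀ E3 × G.Y' Z × (Fin M.n₁ × Fin 3 → ℂ) × (Fin k → ℂ)

/-- the core parts -/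
abbrev CC := C2a 3 α₀ × (Fin M.n₁ → Fin 6 → WI G.z₀ (G.ρ + 9)) × (Fin M.n₂ → XK G.z₀) ×
  (Fin M.n₁ × Fin 3 → ℂ)

/-! ### the reference surface -/

/-- the difference between the reference profile and `2 + c (z ^ 2 - 2)` -/
def bt (z₃ : ℝ) (j : Fin M.n₁) (c : ℂ) (y : ℝ × ℝ) : ℂ :=
  (1 - cut 1 (y.1 / z₃) : ℝ) * (VS (M.f j) y - 2) - (1 - cut (G.ρ + 6) y.1 : ℝ) * (c * (y.1 ^ 2 - 2))

/-- the jet of the reference profile: cut `Z`, opening `c`, shift `l` -/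
def Vj (z₃ : ℝ) (j : Fin M.n₁) (Z : ℝ) (c l : ℂ) (i : Fin 6) (y : ℝ × ℝ) : ℂ :=
  rj c (zt Z l y.1) (zt₁ Z l y.1) (zt₂ Z l y.1) i + jet (G.bt z₃ j c) i y

/-- the end data -/
abbrev ed (z₃ : ℝ) (Z : Fin M.n₁ → ℝ) (c : Fin M.n₁ → ℂ) : EndD 3 (Fin M.n₁ × Fin 3) β₀ :=
  G.ends Z fun j => G.TC (Z j) (G.Vj z₃ j (Z j) (c j) 0)

/-- natural, unknowns -/
def pn (Z : Fin M.n₁ → ℝ) (c : Fin M.n₁ → ℂ) : Seminorm ℂ (G.X' Z) :=
  prs fun j => pN (c j) G.z₀ (Z j)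

/-- natural, data -/
def qn (Z : Fin M.n₁ → ℝ) (c : Fin M.n₁ → ℂ) : Seminorm ℂ (G.Y' Z) :=
  prs fun j => qN (c j) G.z₀ (Z j)

/-- heavy, unknowns -/
def ph' (Z : Fin M.n₁ → ℝ) (c : Fin M.n₁ → ℂ) : Seminorm ℂ (G.X' Z) :=
  prs fun j => pH (c j) G.z₀ (Z j)

/-- heavy, data -/
def qh (Z : Fin M.n₁ → ℝ) (c : Fin M.n₁ → ℂ) : Seminorm ℂ (G.Y' Z) :=
  prs fun j => qH (c j) G.z₀ (Z j)

open Classical in
/-- the inverse of the gluing system -/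
def SS (z₃ : ℝ) (Z : Fin M.n₁ → ℝ) (c : Fin M.n₁ → ℂ) : G.YY Z →L[ℂ] G.XX Z :=
  if h : ∃ T : G.XX Z ≃L[ℂ] G.YY Z, (G.ed z₃ Z c).Sys G.cor G.bA G.sp G.cC T
    then h.choose.symm else 0

/-! ### the ambient fields -/

/-- the switch of the end `e` -/
def lam (e : M.I) (x : E3) : ℝ := st (G.ρ + 1) x * M.lift e (fun _ => (1 : ℝ)) x

/-- the ambient fields -/
def ad (Z : Fin M.n₁ → ℝ) : AD (Fin M.n₁) (Fin k) where
  w := M.w
  a x := ((1 - ∑ e, G.lam e x : ℝ) : ℂ) • nu M.w x + ∑ l, (G.lam (.inr l) x : ℂ) •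
    M.lift (.inr l) (fun y => ((q M (.inr l) y : ℂ))⁻¹ • cx (M.n l y.2)) x
  lam j := G.lam (.inl j)
  VS j := M.lift (.inl j) (VS (M.f j))
  rS j := M.lift (.inl j) fun y => ((√2 + M.f j y : ℝ) : ℂ)
  q j := M.lift (.inl j) fun y => (q M (.inl j) y : ℂ)
  er j := M.lift (.inl j) fun y => cx (eR (M.Q j) y.2)
  rot := G.rot
  om j := om (M.Q j)
  ax j := cx (axis (M.Q j))
  sh j := M.lift (.inl j) fun y => cut (Z j - 2) y.1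
  ze j := G.lam (.inl j)
  b := G.b
  ψ := G.ψ

variable {G} {Z : Fin M.n₁ → ℝ}

/-- the core function -/
def wc (U : G.XX Z) : E3 → ℂ := G.cor.wf G.et (f2 U.1)

/-- the end function -/
def we (U : G.XX Z) : E3 → ℂ := G.ev Z U.2.1

/-- the glued function -/
def uu (U : G.XX Z) (x : E3) : ℂ := G.cor.cc x • wc U x + G.cor.ce x • we U x

/-- the parameters of the ambient equation; `m` are the heights of the observables -/
def par (m : Fin M.n₁ → ℝ) (y : G.XX Z × Pm (Fin M.n₁)) : Pi' (Fin M.n₁) (Fin k) :=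
  (y.1.2.2.1, y.1.2.2.2, y.2.2.1, y.2.2.2.1, fun j => km (m j))

/-- the total jet of the squared radius on the end `j` -/
def Vt (z₃ : ℝ) (y : G.XX Z × Pm (Fin M.n₁)) (j : Fin M.n₁) (p : ℝ × ℝ) (i : Fin 6) : ℂ :=
  G.Vj z₃ j (Z j) (y.2.1 j) (y.2.2.1 j) i p + (y.1.2.1.1 j).1 i p

/-- the total height -/
def ft (z₃ : ℝ) (y : G.XX Z × Pm (Fin M.n₁)) (x : E3) : ℂ := uu y.1 x + ∑ j, M.lift (.inl j)
  (fun p => q M (.inl j) p * (G.Vj z₃ j (Z j) (y.2.1 j) (y.2.2.1 j) 0 p - VS (M.f j) p)) x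

/-- the remainder in the core equation -/
def Qc (m : Fin M.n₁ → ℝ) (y : G.XX Z × Pm (Fin M.n₁)) (x : E3) : ℂ :=
  (G.ad Z).Rm x (mix (jt (uu y.1) x) (jt (wc y.1) x + jt (fun p => G.cor.ce p • we y.1 p) x
    - G.cor.ce x • jt (we y.1) x)) (par m y)

/-- the remainder in the end equation, near zone -/
def Qn (m : Fin M.n₁ → ℝ) (y : G.XX Z × Pm (Fin M.n₁)) (x : E3) : ℂ :=
  (G.ad Z).Rm x (mix (jt (uu y.1) x) (jt (we y.1) x + jt (fun p => G.cor.cc p • wc y.1 p) x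
    - G.cor.cc x • jt (wc y.1) x)) (par m y)
  - G.cor.cc x • (G.ad Z).Rm x (mix (jt (uu y.1) x) 0) (par m y)

/-- the equation of a cylindrical end -/
def Ec (z₃ : ℝ) (m : Fin M.n₁ → ℝ) (y : G.XX Z × Pm (Fin M.n₁)) (j : Fin M.n₁) (p : ℝ × ℝ) : ℂ :=
  Ef (y.2.2.2.1 j) (km (m j)) (zt (Z j) (y.2.2.1 j) p.1) (zt₁ (Z j) (y.2.2.1 j) p.1)
    (zt₂ (Z j) (y.2.2.1 j) p.1) (Vt z₃ y j p)

/-- the equation of a conical end -/
def Ek (l : Fin M.n₂) (J : XK G.z₀) (p : ℝ × ℝ) : ℂ := kJ (M.γ l) (M.n l) p.2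
  (jk p.1 (fun i => jet (uS (M.g l)) i p) + fun i => J.1 i p) / (2 * spd (M.γ l))

/-- the height of the cut -/
def Zb (y : G.XX Z × Pm (Fin M.n₁)) (j : Fin M.n₁) : ℂ := Z j + y.2.2.1 j

/-- the squared radius at the cut -/
def Vb (y : G.XX Z × Pm (Fin M.n₁)) (j : Fin M.n₁) : ℂ := 2 + y.2.1 j * (Zb y j ^ 2 - 2)

/-- the slope at the cut -/
def pb (y : G.XX Z × Pm (Fin M.n₁)) (j : Fin M.n₁) (θ : ℝ) : ℂ :=
  2 * y.2.1 j * Zb y j + (y.1.2.1.1 j).1 3 (Z j, θ)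

/-- the boundary rows -/
def Bj (J₀ J : ℕ) (m : Fin M.n₁ → ℝ) (y : G.XX Z × Pm (Fin M.n₁)) (j : Fin M.n₁) : Fin 3 → ℂ :=
  Bc J₀ J y.2.2.2.2 (y.2.2.2.1 j) (km (m j)) (Zb y j) (Vb y j) (pb y j)

variable (G Z)

/-- the constraints -/
def AA : G.XX Z →L[ℂ] Fin k → ℂ := toL fun U i => ∫ p, wc U p * G.ψ i p ∂ga M.w

/-- the projections on the slow directions -/
def XI : G.XX Z →L[ℂ] Fin M.n₁ → ℂ :=
  toL fun U j => (G.ka j)⁻¹ * ∫ p, uu U p * G.b (j, 0) p ∂ga M.w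

/-- the truncated surface -/
def SW : Set E3 := M.S \ ⋃ j, M.En (.inl j) (Ici (Z j))

variable {G Z}

/-- the terms of lower order in the core equation -/
def lo (U : G.XX Z) (p : E3) : ℂ :=
  G.cor.wf (deriv (deriv G.et)) (f2 U.1) p - (G.sp * (1 - G.cor.ka p)) • wc U p
    - P218H.cm (sa M.w) G.cor.ce (we U) p - ∑ i, U.2.2.1 i * G.b i p + ∑ i, U.2.2.2 i * G.ψ i p

/-- core row, linear part -/
def L1 (U : G.XX Z) : HH α₀ E3 :=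
  toH fun x => G.sp • f2 U.1 x - op G.bA (f2 U.1) x + G.cor.ext (lo U) x

/-- core row, remainder -/
def N1 (m : Fin M.n₁ → ℝ) (y : G.XX Z × Pm (Fin M.n₁)) : HH α₀ E3 := toH (G.cor.ext (Qc m y))

/-- end row, near zone, linear part -/
def L2 (v : G.X' Z) : G.Y' Z := G.toY Z fun e p => G.chn p.1 * DL M e p fun i => LD.jx v e i p

/-- end row, near zone, remainder -/
def N2 (m : Fin M.n₁ → ℝ) (y : G.XX Z × Pm (Fin M.n₁)) : G.Y' Z :=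
  G.toY Z fun e p => G.chn p.1 * cut (G.ρ - 1) p.1 * Qn m y (M.P e p) / kp M e p

/-- end row, far zone of a cylindrical end -/
def n3c (z₃ : ℝ) (m : Fin M.n₁ → ℝ) (j : Fin M.n₁) (y : G.XX Z × Pm (Fin M.n₁)) : WI G.z₀ (Z j) :=
  toW (Icc G.z₀ (Z j)) (cl G.z₀ (Z j)) fun p => (1 - G.chn p.1 : ℝ) * Ec z₃ m y j p

/-- end row, far zone of a conical end -/
def n3k (l : Fin M.n₂) (J : XK G.z₀) : W (max G.z₀) :=
  toW (Ici G.z₀) (max G.z₀) fun p => (1 - G.chn p.1 : ℝ) * Ek l J p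

/-- the end row -/
def Fe (z₃ : ℝ) (J₀ J : ℕ) (m : Fin M.n₁ → ℝ) (y : G.XX Z × Pm (Fin M.n₁)) : G.Y' Z :=
  G.inj Z (G.cC y.1.1) + L2 y.1.2.1 + N2 m y +
    (fun j => (n3c z₃ m j y, Bj J₀ J m y j), fun l => n3k l (y.1.2.1.2 l))

/-- **the equation** -/
def FF (z₃ : ℝ) (J₀ J : ℕ) (m : Fin M.n₁ → ℝ) (y : G.XX Z × Pm (Fin M.n₁)) : G.YY Z :=
  (L1 y.1 - N1 m y, Fe z₃ J₀ J m y, G.gam Z y.1.2.1 + G.Mm y.1.2.2.1, G.AA Z y.1)

/-- **the functional** -/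
def ff (z₃ : ℝ) (J₀ J : ℕ) (m : Fin M.n₁ → ℝ) (y : G.XX Z × Pm (Fin M.n₁)) : ℂ :=
  ∫ x in SW Z, (G.ad Z).If x (jt (ft z₃ y) x) (par m y) ∂sig M.w
    + ∑ j, Tf J₀ J y.2.2.2.2 (Zb y j) (Vb y j)

/-- the observables -/
def oo (z₃ : ℝ) (j : Fin M.n₁) (m : Fin M.n₁ → ℝ) (y : G.XX Z × Pm (Fin M.n₁)) : ℂ :=
  ∫ x in SW Z, (G.ad Z).IO j x (jt (ft z₃ y) x) (par m y) ∂sig M.w

variable (G Z)

/-- the jet of the slow direction -/
def u0j (z₃ : ℝ) (j : Fin M.n₁) (i : Fin 6) (p : ℝ × ℝ) : ℂ :=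
  Frm.jm (fun i => jet (fun p => ((1 - cut 1 (p.1 / z₃) : ℝ) : ℂ)) i p)
    (fun i => yj (G.yv j) i p) i
    + jet (fun p => (cut 1 (p.1 / z₃) - cut (G.ρ + 6) p.1 : ℝ) * ((p.1 : ℂ) ^ 2 - 2)) i p

/-- the slow direction on the end `j` -/
def u0 (z₃ : ℝ) (j : Fin M.n₁) : XE G.z₀ (Z j) := toE G.z₀ (Z j) (Z j) id (G.u0j z₃ j 0)

/-- the difference between the shrinker and the reference surface, cut off at the height `Z / 2` -/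
def usf (M : Mod) (z₃ : ℝ) (j : Fin M.n₁) (Z : ℝ) (p : ℝ × ℝ) : ℂ :=
  (cut 1 (p.1 / z₃) * (1 - cut 2 (4 * p.1 / Z)) : ℝ) * (VS (M.f j) p - 2)

/-- the approximate derivative of the solution in the opening -/
def U0 (z₃ : ℝ) : (Fin M.n₁ → ℂ) →L[ℂ] G.XX Z :=
  .prod 0 (.prod (.prod (.pi fun j => (ContinuousLinearMap.proj j).smulRight (G.u0 Z z₃ j)) 0)
    (.prod (.pi fun i => if i.2 = 0 then -.proj i.1 else 0) 0))

/-- the shrinker -/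
def US (z₃ : ℝ) : G.XX Z :=
  (0, (fun j => toE G.z₀ (Z j) (Z j) id (usf M z₃ j (Z j)), 0), 0, 0)

theorem cl_cl (R Z z : ℝ) : cl R Z (cl R Z z) = cl R Z z := by
  simp only [cl, max_def, min_def]
  split_ifs <;> linarith

/-- the core part -/
def coo : G.XX Z →L[ℂ] G.CC :=
  .prod (.fst ℂ _ _) (.prod
    (.pi fun j => .pi fun i => (P218W.W.res (cl G.z₀ (G.ρ + 9)) (by unfold cl; fun_prop)
        (cl_cl _ _)).toContinuousLinearMap ∘L .proj (φ := fun _ => WI G.z₀ (Z j)) i ∘L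
      (XE G.z₀ (Z j)).subtypeL ∘L .proj (φ := fun j => XE G.z₀ (Z j)) j ∘L .fst ℂ _ _ ∘L
      .fst ℂ _ _ ∘L .snd ℂ _ _)
    (.prod (.snd ℂ _ _ ∘L .fst ℂ _ _ ∘L .snd ℂ _ _) (.fst ℂ _ _ ∘L .snd ℂ _ _ ∘L .snd ℂ _ _)))

variable {G Z}

/-- conjugation on the ends -/
def cX (v : G.X' Z) : G.X' Z := (fun j => cjE (v.1 j), fun l => cjK (v.2 l))

/-- change of the cuts -/
def rp (Z' : Fin M.n₁ → ℝ) (U : G.XX Z) : G.XX Z' :=
  (U.1, (fun j => toE G.z₀ (Z j) (Z' j) (fun z => z + (Z' j - Z j) * cut (Z j - 2) z)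
    ((U.2.1.1 j).1 0), U.2.1.2), U.2.2)

variable (G)

/-- **the object** -/
def obj (a : Cs) : Obj (Fin k) (Fin M.n₁) G.XX G.YY G.CC where
  r := a.r
  K := a.K
  η := 0
  K₂ := 0
  P := 100
  J₀ := a.J₀
  Zs := 0
  FS := ∫ x, Real.exp (-‖x‖ ^ 2 / 4) ∂sig M.w
  N Z c := tri (G.pn Z c)
  Np Z c := tri (G.ph' Z c)
  FF J m _ := FF a.z₃ a.J₀ J m
  ia _ := .inr ℂ _ _ ∘L .inr ℂ _ _ ∘L .inr ℂ _ _
  S := G.SS a.z₃
  f J m _ := ff a.z₃ a.J₀ J m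
  D j J m _ y := Df a.J₀ J y.2.2.2.2 (y.2.2.2.1 j) (km (m j)) (Zb y j) (Vb y j) (pb y j)
  O j _ m _ := oo a.z₃ j m
  Tv J _ _ y := ∑ j, 2 * π * (Tb J (Zb y j) (Vb y j) - Tb a.J₀ (Zb y j) (Vb y j))
  A := G.AA
  Xi := G.XI
  lam _ := -(.snd ℂ _ _ ∘L .snd ℂ _ _ ∘L .snd ℂ _ _)
  mu _ := .pi fun j => G.ka j • (.proj (j, 0) ∘L .fst ℂ _ _ ∘L .snd ℂ _ _ ∘L .snd ℂ _ _)
  co := G.coo
  U0 Z := G.U0 Z a.z₃
  US Z := G.US Z a.z₃
  cj _ U := (star U.1, cX U.2.1, star U.2.2)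
  rp _ Z' := rp Z'

/-- the linearisation on the end `j` at a base point -/
abbrev Tj (p : Pt (Fin M.n₁)) (j : Fin M.n₁) : XE G.z₀ (p.W j) →L[ℂ] YE G.z₀ (p.W j) :=
  G.TC (p.W j) (G.Vj p.z₃ j (p.W j) (p.c j) 0)

/-- the linear theory at a base point -/
structure Lin (p : Pt (Fin M.n₁)) : Prop where
  ex : ∃ T : G.XX p.W ≃L[ℂ] G.YY p.W, (G.ed p.z₃ p.W p.c).Sys G.cor G.bA G.sp G.cC T ∧
    (∀ y, tri (G.pn p.W p.c) (T.symm y) ≤ G.C' * tri (G.qn p.W p.c) y) ∧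
    ∀ y, tri (G.ph' p.W p.c) (T.symm y) ≤ G.C' * tri (G.qh p.W p.c) y
  tc : ∀ j J, (G.Tj p j J).2 = low (p.W j) (J.1 3) ∧ ∀ z ∈ Icc G.z₀ (p.W j), ∀ θ,
    (G.Tj p j J).1 (z, θ) = fderiv ℂ (vJ 1 z) (fun i => G.Vj p.z₃ j (p.W j) (p.c j) 0 i (z, θ))
      fun i => J.1 i (z, θ)
  inj : ∀ f, (∀ j, (G.inj p.W f).1 j = (((G.inj p.W f).1 j).1, 0)) ∧ ∀ e z θ, G.z₀ ≤ z →
    (∀ j, e = .inl j → z ≤ p.W j) →
    LD.fy (G.inj p.W f) e (z, θ) = G.chn z * f1 f (M.P e (z, θ)) / kp M e (z, θ)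

/-- the hypotheses on the fixed data -/
structure Ok : Prop where
  ld : G.toLD.Ok
  cor : G.cor.Ok
  amb : G.cor.AmbOf G.bA
  one : 1 ≤ G.C'
  cone : ∀ l J, ∀ y : ℝ × ℝ, G.z₀ ≤ y.1 → G.TS l J y = DK M l y fun i => J.1 i y
  lin : ∀ᶠ p in ev (Fin M.n₁), G.Lin p

end GD

/-- the form of the rows: `z₀` is large in terms of the model -/
def Row (Q : ∀ (M : Mod) (k : ℕ), GD M k → Prop) : Prop :=
  ∀ M : Mod, M.Geo → ∃ z₁ : ℝ, ∀ k (G : GD M k), z₁ ≤ G.z₀ → G.Ok → Q M k G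

/-- rows about base points -/
def RowP (Q : ∀ (M : Mod) (k : ℕ), GD M k → Pt (Fin M.n₁) → Prop) : Prop :=
  Row fun M k G => ∀ᶠ p in ev (Fin M.n₁), Q M k G p

end Vale.Agent.P218I
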