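import Vale.Agent.P218I.Spec
import Vale.Agent.P218L.OknA

/-! The row `EQN`: all weights are between two powers of the cut. -/

open Set Filter Topology

noncomputable section

namespace Vale.Agent.P218I

open Vale.Agent.P218T Vale.Agent.P218L Vale.Agent.P218M Vale.Agent.P218W
open Vale.Agent.P218H (tri tri_le tri_norm)
open Vale.Agent.P218L.Okn (le_prs1 le_prs2 prs_le)

namespace Eqn

/-- `T ^ (-a) ≤ x ≤ T ^ b` -/
def Sz (T : ℝ) (a b : ℕ) (x : ℝ) : Prop := (T ^ a)⁻¹ ≤ x ∧ x ≤ T ^ b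

variable {T x y : ℝ} {a b a' b' : ℕ}

theorem Sz.pos (h : Sz T a b x) (T1 : 6 ≤ T) : 0 < x := lt_of_lt_of_le (by positivity) h.1

theorem Sz.mono (h : Sz T a b x) (T1 : 6 ≤ T) (ha : a ≤ a') (hb : b ≤ b') : Sz T a' b' x :=
  ⟨(inv_anti₀ (by positivity) (pow_le_pow_right₀ (by linarith) ha)).trans h.1,
    h.2.trans (pow_le_pow_right₀ (by linarith) hb)⟩

theorem Sz.mul (h : Sz T a b x) (k : Sz T a' b' y) (T1 : 6 ≤ T) :
    Sz T (a + a') (b + b') (x * y) :=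
  ⟨by rw [pow_add, mul_inv]; exact mul_le_mul h.1 k.1 (by positivity) (h.pos T1).le,
    by rw [pow_add]; exact mul_le_mul h.2 k.2 (k.pos T1).le (by positivity)⟩

theorem Sz.inv (h : Sz T a b x) (T1 : 6 ≤ T) : Sz T b a x⁻¹ :=
  ⟨inv_anti₀ (h.pos T1) h.2, inv_le_of_inv_le₀ (by positivity) h.1⟩

theorem Sz.div (h : Sz T a b x) (k : Sz T a' b' y) (T1 : 6 ≤ T) :
    Sz T (a + b') (b + a') (x / y) := h.mul (k.inv T1) T1

theorem Sz.add (h : Sz T a b x) (T1 : 6 ≤ T) (y0 : 0 ≤ y) (k : y ≤ T ^ b) :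
    Sz T a (b + 1) (x + y) :=
  ⟨by linarith [h.1], by
    have : 0 ≤ T ^ b := by positivity
    rw [pow_succ]; nlinarith [h.2]⟩

theorem Sz.rpow (h : Sz T a b x) (T1 : 6 ≤ T) {e : ℝ} {n : ℕ} (e0 : 0 ≤ e) (en : e ≤ n) :
    Sz T (a * n) (b * n) (x ^ e) := by
  have u : ∀ {x : ℝ} {b : ℕ}, 0 ≤ x → x ≤ T ^ b → x ^ e ≤ T ^ (b * n) := fun x0 l => by
    rw [pow_mul, ← Real.rpow_natCast _ n]
    exact (Real.rpow_le_rpow x0 l e0).trans
      (Real.rpow_le_rpow_of_exponent_le (one_le_pow₀ (by linarith)) en)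
  have x0 := h.pos T1
  refine ⟨inv_le_of_inv_le₀ (by positivity) ?_, u x0.le h.2⟩
  rw [← Real.inv_rpow x0.le]
  exact u (by positivity) (h.inv T1).2

theorem Sz.sqrt (h : Sz T (2 * a) (2 * b) x) (T1 : 6 ≤ T) : Sz T a b √x :=
  ⟨Real.le_sqrt_of_sq_le (by rw [inv_pow, ← pow_mul, mul_comm]; exact h.1),
    Real.sqrt_le_iff.2 ⟨by positivity, by rw [← pow_mul, mul_comm]; exact h.2⟩⟩

variable {R Z z : ℝ} {c : ℂ} {w o₀ o₁ : ℝ → ℝ}

/-- the elementary weights -/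
theorem base (h : Cyl 1 R Z c) (R1 : 1 ≤ R) (T1 : 6 ≤ Z) (hz : z ∈ Icc R Z) :
    Sz Z 0 1 z ∧ Sz Z 2 1 (rh c z).re ∧ Sz Z 2 1 ‖rh c z‖ ∧ Sz Z 1 2 (sg c z) ∧
      Sz Z 0 2 (ta c z) ∧ 0 ≤ z ^ 2 * ly Z z ∧ z ^ 2 * ly Z z ≤ Z ^ 2 := by
  have k := h.wtc one_pos hz
  have z0 := h.z0 hz
  have a0 := k.re0
  have an : (rh c z).re ≤ ‖rh c z‖ := Complex.re_le_norm _
  have zz : z ^ 2 ≤ Z ^ 2 := pow_le_pow_left₀ z0.le hz.2 2
  have t : 1 ≤ Z ^ 2 * (rh c z).re := (h.tip z hz).trans (by gcongr)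
  have l : (Z ^ 2)⁻¹ ≤ (rh c z).re := by rwa [inv_le_iff_one_le_mul₀ (by positivity), mul_comm]
  have n6 := k.re6.trans (T1.trans_eq (pow_one Z).symm)
  have y1 : ly Z z ≤ 1 := Real.exp_le_one_iff.2 (by linarith)
  have d := h.dsc z hz
  refine ⟨⟨by simpa using R1.trans hz.1, by simpa using hz.2⟩, ⟨l, an.trans n6⟩, ⟨l.trans an, n6⟩,
    ⟨le_trans ?_ k.sg6, ?_⟩, ⟨by simpa using k.ta1, ?_⟩, (mul_pos (by positivity) (ly_pos _ _)).le,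
    (mul_le_of_le_one_right (by positivity) y1).trans zz⟩
  · rw [pow_one, one_div]; exact inv_anti₀ (by norm_num) T1
  · rw [k.sge, div_le_iff₀ (pow_pos (a0.trans_le an) 2)]
    nlinarith [mul_le_mul_of_nonneg_left (pow_le_pow_left₀ a0.le an 2) (sq_nonneg Z)]
  · rw [ta, div_le_iff₀ a0]
    refine (sq_le_sq₀ (norm_nonneg _) (by positivity)).1 (d.trans ?_)
    nlinarith [mul_le_mul_of_nonneg_left t (mul_pos (pow_pos (z0.trans_le hz.2) 2) a0).le,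
      mul_le_mul_of_nonneg_right (show 6 ≤ Z ^ 2 by nlinarith) a0.le]

/-- the composed weights -/
theorem comp (h : Cyl 1 R Z c) (R1 : 1 ≤ R) (T1 : 6 ≤ Z) (hz : z ∈ Icc R Z) :
    Sz Z 6 2 (wK (31 / 16) c z) ∧ Sz Z 6 2 (wK (19 / 32) c z) ∧ Sz Z 4 1 (wO c z) ∧
      Sz Z 5 4 (gO c Z z) ∧ Sz Z 1 4 (hv c z) := by
  obtain ⟨b1, b2, b3, -, -, b6, b7⟩ := base h R1 T1 hz
  have z0 := (h.z0 hz).le
  have o : Sz Z 4 1 (wO c z) := by
    rw [wO, neg_div, Real.rpow_neg z0, ← Real.inv_rpow z0]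
    exact ((b1.inv T1).rpow T1 (n := 2) (by norm_num) (by norm_num)).mul
      (b2.rpow T1 (n := 1) (by norm_num) (by norm_num)) T1
  refine ⟨?_, ?_, o, o.mul ((b2.inv T1).add T1 b6 b7) T1, ?_⟩
  · rw [wK, show (2 - 2 * (31 / 16) : ℝ) = -(15 / 8) by norm_num, Real.rpow_neg z0,
      ← Real.inv_rpow z0]
    exact ((b1.inv T1).rpow T1 (n := 2) (by norm_num) (by norm_num)).mul
      (b3.rpow T1 (n := 2) (by norm_num) (by norm_num)) T1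
  · exact ((b1.rpow T1 (n := 1) (by norm_num) (by norm_num)).mul
      (b3.rpow T1 (n := 1) (by norm_num) (by norm_num)) T1).mono T1 (by simp) le_rfl
  · rw [hv, sq]; exact (b1.mul b1 T1).div b2 T1

theorem sz_gW (h : Cyl 1 R Z c) (R1 : 1 ≤ R) (T1 : 6 ≤ Z) (hz : z ∈ Icc R Z)
    (k : Sz Z 6 2 (w z)) : Sz Z 7 5 (gW w c Z z) := by
  obtain ⟨-, -, -, b4, -, b6, b7⟩ := base h R1 T1 hz
  exact k.mul (b4.add T1 b6 b7) T1

theorem sz_nu (h : Cyl 1 R Z c) (R1 : 1 ≤ R) (T1 : 6 ≤ Z) (hz : z ∈ Icc R Z)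
    (k : Sz Z 6 2 (w z)) (i : Fin 6) : Sz Z 9 9 (nu w c Z i z) := by
  obtain ⟨b1, -, b3, b4, b5, -⟩ := base h R1 T1 hz
  have g := sz_gW h R1 T1 hz k
  fin_cases i
  exacts [k.mono T1 (by simp) (by simp),
    Sz.sqrt (((k.mul g T1).div b4 T1).mono T1 (by simp) (by simp)) T1,
    (g.div b4 T1).mono T1 (by simp) (by simp), ((g.mul b5 T1).div b1 T1).mono T1 (by simp) (by simp),
    ((g.mul b5 T1).mul (Sz.sqrt (a := 1) (b := 1) (b3.mono T1 le_rfl (by simp)) T1) T1).mono T1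
      (by simp) (by simp), (g.mul b5 T1).mono T1 (by simp) (by simp)]

theorem sz_om (h : Cyl 1 R Z c) (R1 : 1 ≤ R) (T1 : 6 ≤ Z) (hz : z ∈ Icc R Z)
    (k : Sz Z 6 2 (w z)) (k₀ : Sz Z 9 9 (o₀ z)) (k₁ : Sz Z 8 9 (o₁ z)) (i : Fin 6) :
    Sz Z 9 9 (om o₀ o₁ w c Z i z) := by
  have n := sz_nu h R1 T1 hz k
  fin_cases i
  exacts [k₀, n 1, n 2, k₁.div (base h R1 T1 hz).1 T1, n 4, k₁.mono T1 (by simp) le_rfl]

/-- a weighted seminorm against the norm -/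
theorem l2_of {s : Set ℝ} {r o n : ℝ → ℝ} {C : ℝ} (C0 : 0 < C) (x : W r)
    (ho : ∀ z ∈ s, C⁻¹ ≤ o z) (hn : ∀ z ∈ s, C⁻¹ ≤ n z) : L2 s x o n (C * ‖x‖) :=
  ((x.le_on s).wt (ω' := fun _ => C⁻¹) C0.le (fun _ _ => by positivity)
    fun _ _ => by rw [mul_inv_cancel₀ C0.ne']).l2.mono subset_rfl ho hn le_rfl

theorem xe_le (h : Cyl 1 R Z c) (R1 : 1 ≤ R) (T1 : 6 ≤ Z) (p : PW (Icc R Z) w)
    (p₀ : PW (Icc R Z) o₀) (p₁ : PW (Icc R Z) o₁)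
    (k : ∀ z ∈ Icc R Z, Sz Z 6 2 (w z) ∧ Sz Z 9 9 (o₀ z) ∧ Sz Z 8 9 (o₁ z)) (J : XE R Z) :
    ‖J‖ ≤ 2 * Z ^ 9 * MP.xe o₀ o₁ w c R Z J ∧ MP.xe o₀ o₁ w c R Z J ≤ Z ^ 9 * ‖J‖ := by
  have r := ret_cl (show R ≤ Z by linarith [h.RZ])
  have po := pw_om h one_pos p p₀ p₁
  have pn := pw_nu h one_pos p
  have a := fun i z hz => sz_om h R1 T1 hz (k z hz).1 (k z hz).2.1 (k z hz).2.2 i
  have b := fun i z hz => sz_nu h R1 T1 hz (k z hz).1 i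
  refine ⟨(pi_norm_le_iff_of_nonneg (by positivity)).2 fun i => ?_,
    (r.xn_le_iff po pn (by positivity)).2 fun i => (l2_of (C := Z ^ 9) (by positivity) _
      (fun z hz => (a i z hz).1) fun z hz => (b i z hz).1).mono subset_rfl (fun _ _ => le_rfl)
      (fun _ _ => le_rfl) (mul_le_mul_of_nonneg_left (norm_le_pi_norm J.1 i) (by positivity))⟩
  have := (((r.xn_le_iff po pn (apply_nonneg _ _)).1 (le_refl (xn _ _ _ J.1)) i).le
    (ω := fun _ => Z ^ 9) (fun z hz => (a i z hz).2) fun z hz => (b i z hz).2).wt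
      (ω' := fun _ => 1) (C := Z ^ 9) (by positivity) (by simp) (by simp)
  exact (r.norm_le this).trans_eq (by rw [← mul_assoc, mul_comm (Z ^ 9)]; rfl)

/-- the three seminorms of an end -/
theorem ends (h : Cyl 1 R Z c) (R1 : 1 ≤ R) (T1 : 6 ≤ Z) :
    (∀ J, (‖J‖ ≤ 2 * Z ^ 9 * pN c R Z J ∧ pN c R Z J ≤ Z ^ 9 * ‖J‖) ∧
      ‖J‖ ≤ 2 * Z ^ 9 * pH c R Z J ∧ pH c R Z J ≤ Z ^ 9 * ‖J‖) ∧
    ∀ g, qN c R Z g ≤ Z ^ 9 * ‖g‖ := by
  obtain ⟨pK, pw, pg, ph, px, -⟩ := pw_all h le_rfl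
  have RZ : R ≤ Z := by linarith [h.RZ]
  have mZ := right_mem_Icc.2 RZ
  have s : ∀ z ∈ Icc R Z, Sz Z 5 5 (gO c Z z + (rh c z).re) := fun z hz =>
    have b := (base h R1 T1 hz).2.1
    (comp h R1 T1 hz).2.2.2.1.add T1 (b.pos T1).le (b.mono T1 le_rfl (by simp)).2
  refine ⟨fun J => ⟨xe_le h R1 T1 (pK _) px (pg.add isCompact_Icc px) (fun z hz =>
    ⟨(comp h R1 T1 hz).1, (base h R1 T1 hz).2.1.mono T1 (by simp) (by simp),
      (s z hz).mono T1 (by simp) (by simp)⟩) J, xe_le h R1 T1 (pK _) (ph.mul isCompact_Icc px)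
    (ph.mul isCompact_Icc (pg.add isCompact_Icc px)) (fun z hz => ⟨(comp h R1 T1 hz).2.1,
      ((comp h R1 T1 hz).2.2.2.2.mul (base h R1 T1 hz).2.1 T1).mono T1 (by simp) (by simp),
      ((comp h R1 T1 hz).2.2.2.2.mul (s z hz) T1).mono T1 (by simp) (by simp)⟩) J⟩, fun g => ?_⟩
  have b0 := ((base h R1 T1 mZ).1.mul (comp h R1 T1 mZ).2.2.1 T1).mono T1 (a' := 9) (by simp) le_rfl
  have b1 := ((base h R1 T1 mZ).1.mul (comp h R1 T1 mZ).1 T1).mono T1 (a' := 9) (by simp) le_rfl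
  refine (yn_le_iff RZ pg (pw_gW h one_pos (pK _)) (b0.pos T1) (b1.pos T1)).2 ⟨(l2_of (C := Z ^ 9)
    (by positivity) _ (fun z hz => ((comp h R1 T1 hz).2.2.2.1.mono T1 (by simp) le_rfl).1)
    fun z hz => ((sz_gW h R1 T1 hz (comp h R1 T1 hz).1).mono T1 (by simp) le_rfl).1).mono
      subset_rfl (fun _ _ => le_rfl) (fun _ _ => le_rfl)
      (mul_le_mul_of_nonneg_left (norm_fst_le g) (by positivity)), fun i => ?_⟩
  have : (Z ^ 9)⁻¹ ≤ ![Z * wO c Z, Z * wK (31 / 16) c Z, Z * wK (31 / 16) c Z] i := by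
    fin_cases i
    exacts [b0.1, b1.1, b1.1]
  calc _ ≤ Z ^ 9 * ‖g‖ * (Z ^ 9)⁻¹ := by
        rw [mul_comm, inv_mul_cancel_left₀ (by positivity)]
        exact (norm_le_pi_norm _ i).trans (norm_snd_le g)
    _ ≤ _ := by gcongr

variable {ι : Type} [Fintype ι] {A : ι → Type} {B : Type} [∀ j, NormedAddCommGroup (A j)]
  [∀ j, NormedSpace ℂ (A j)] [NormedAddCommGroup B] [NormedSpace ℂ B] {p : ∀ j, Seminorm ℂ (A j)}
  {K : ℝ}

theorem prs_norm (K1 : 1 ≤ K) (h : ∀ j x, p j x ≤ K * ‖x‖) (x : (∀ j, A j) × B) :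
    prs p x ≤ K * normSeminorm ℂ _ x :=
  prs_le (fun j => (h j _).trans (mul_le_mul_of_nonneg_left
    ((norm_le_pi_norm _ j).trans (norm_fst_le x)) (by linarith)))
    ((norm_snd_le x).trans (le_mul_of_one_le_left (norm_nonneg _) K1))

theorem norm_prs (K1 : 1 ≤ K) (h : ∀ j x, ‖x‖ ≤ K * p j x) (x : (∀ j, A j) × B) :
    normSeminorm ℂ _ x ≤ K * prs p x :=
  have := apply_nonneg (prs (B := B) p) x
  norm_prod_le_iff.2 ⟨(pi_norm_le_iff_of_nonneg (by positivity)).2 fun j => (h j _).trans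
    (mul_le_mul_of_nonneg_left (le_prs1 p x j) (by linarith)),
    (le_prs2 p x).trans (le_mul_of_one_le_left this K1)⟩

end Eqn

open Eqn in
theorem eqn (cy : CY) : EQN := fun M _ => ⟨2, fun k G hz _ => by
  filter_upwards [ev_ad, ev_Z fun _ _ _ => 2 * G.z₀ + 10 ^ 10, ev_cs (ev₀_J fun _ _ _ => 1)]
    with p a h1 h2
  have h3 : (p.J₀ : ℝ) ≤ p.J := by exact_mod_cast a.hJ
  have e := fun j => ends (cy p.J (p.W j) G.z₀ 1 (p.c j) (a.hc j) hz (by linarith [(a.hW j).1])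
    (by nlinarith) (by linarith)) (by linarith) (by linarith [(a.hW j).1])
  have Z0 : 0 < p.Z := by linarith
  have K1 : 1 ≤ p.Z ^ 10 := one_le_pow₀ (by linarith)
  have w : ∀ j, 2 * p.W j ^ 9 ≤ p.Z ^ 10 := fun j => by
    have := pow_le_pow_left₀ (Z0.le.trans (a.hW j).1) (a.hW j).2 9
    rw [mul_pow] at this
    nlinarith [mul_le_mul_of_nonneg_left (show 2 * 10 ^ 9 ≤ p.Z by linarith) (pow_pos Z0 9).le]
  have w' : ∀ j, p.W j ^ 9 ≤ p.Z ^ 10 := fun j => by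
    linarith [w j, pow_nonneg (Z0.le.trans (a.hW j).1) 9]
  have up : ∀ {x y : ℝ}, 0 ≤ y → x ≤ p.Z ^ 10 * y → x ≤ p.Z ^ 20 * y := fun y0 l =>
    l.trans (mul_le_mul_of_nonneg_right (pow_le_pow_right₀ (by linarith) (by simp)) y0)
  have n1 : ∀ U, G.Nn p U ≤ p.Z ^ 10 * ‖U‖ := fun U => by
    exact tri_le K1 (prs_norm K1 fun j x =>
      ((e j).1 x).1.2.trans (mul_le_mul_of_nonneg_right (w' j) (norm_nonneg _))) U
  refine ⟨fun U => ⟨up (apply_nonneg _ _) ((tri_norm U).ge.trans (tri_le K1 (norm_prs K1 fun j x =>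
    ((e j).1 x).1.1.trans (mul_le_mul_of_nonneg_right (w j) (apply_nonneg _ _))) U)), up (norm_nonneg _) (n1 U),
    (n1 U).trans ?_, up (norm_nonneg _) (tri_le K1 (prs_norm K1 fun j x => ((e j).1 x).2.2.trans
    (mul_le_mul_of_nonneg_right (w' j) (norm_nonneg _))) U)⟩, fun g => up (norm_nonneg _)
    (tri_le K1 (prs_norm K1 fun j x => ((e j).2 x).trans
    (mul_le_mul_of_nonneg_right (w' j) (norm_nonneg _))) g)⟩
  rw [show 20 = 10 + 10 from rfl, pow_add, mul_assoc]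
  exact mul_le_mul_of_nonneg_left ((tri_norm U).ge.trans (tri_le K1 (norm_prs K1 fun j x =>
    ((e j).1 x).2.1.trans (mul_le_mul_of_nonneg_right (w j) (apply_nonneg _ _))) U))
    (by positivity)⟩

end Vale.Agent.P218I
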