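import Vale.Agent.P218I.FaraA
import Vale.Agent.P218I.AsmA

/-!
# P218, row I.FARA: the far zone of a cylindrical end, holomorphy
-/

open Set Filter Topology
open scoped Real

noncomputable section

namespace Vale.Agent.P218I

open Vale.Agent.P218T Vale.Agent.P218L Vale.Agent.P218M Vale.Agent.P218W
open Vale.Agent.P218T.Frm (jm lj)
open Vale.Agent.P218N (km)

namespace Fa

theorem kk {k a : ℂ} (h : k.im = 0) (k0 : 0 < k.re) (a0 : 0 ≤ a.re) :
    k + a ≠ 0 ∧ ‖k / (k + a)‖ ≤ 1 ∧ ‖a / (k + a)‖ ≤ 1 := by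
  refine ⟨fun e => ?_, ?_, ?_⟩
  · have := congrArg Complex.re e
    simp at this
    linarith
  all_goals
    rw [norm_div]
    refine div_le_one_of_le₀ ((sq_le_sq₀ (norm_nonneg _) (norm_nonneg _)).1 ?_) (norm_nonneg _)
    simp only [Complex.sq_norm, Complex.normSq_apply, Complex.add_re, Complex.add_im, h]
    nlinarith [mul_nonneg k0.le a0, sq_nonneg a.re, sq_nonneg a.im]

/-- the Gaussian on the reference profile -/
def aa (c : ℂ) (z : ℝ) : ℂ := Complex.exp (-(z ^ 2 + rh c z) / 4)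

theorem aa_re {c : ℂ} {z : ℝ} (h : ‖rh c z‖ ≤ 6) : 0 ≤ (aa c z).re := by
  have := abs_le.1 ((Complex.abs_im_le_norm _).trans h)
  rw [aa, Complex.exp_re]
  refine mul_nonneg (Real.exp_pos _).le (Real.cos_nonneg_of_neg_pi_div_two_le_of_le ?_ ?_) <;>
    simp [pow_two] <;> linarith [Real.pi_gt_three]

/-- the fixed elements -/
def fx (R Z : ℝ) (c k : ℂ) : Fx (WI R Z) :=
  ⟨cI R Z fun z => z, cI R Z fun z => cut (Z - 2) z, cI R Z fun z => (deriv (cut (Z - 2)) z : ℝ),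
    cI R Z fun z => (deriv (deriv (cut (Z - 2))) z : ℝ), cI R Z fun z => k / (k + aa c z),
    cI R Z fun z => aa c z / (k + aa c z), c⟩

end Fa

open Fa GD in
/-- **FARA** -/
theorem fara (eqs : EQS) (sdec : SDEC) : FARA := fun M g => by
  obtain ⟨η, η0, η1, bd⟩ := bd
  obtain ⟨A, hA⟩ := cut_bd
  obtain ⟨z₁, hb⟩ := bt eqs sdec M g (η / 8) (by positivity)
  obtain ⟨z₂, pt⟩ := pt (bt eqs sdec) M g 1 one_pos
  have Y1 : 1 ≤ (η ^ 8)⁻¹ := (one_le_inv₀ (by positivity)).2 (pow_le_one₀ η0.le η1)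
  refine ⟨max (max z₁ z₂) ((η ^ 8)⁻¹ + 1), fun k G hz o => ?_⟩
  simp only [max_le_iff] at hz
  have o' := Complex.ofRealCLM.contDiff (n := (⊤ : ℕ∞))
  have c2 : ContDiff ℝ (⊤ : ℕ∞) fun t : ℝ => ((1 - cut (G.ρ + 6) t : ℝ) : ℂ) * (t ^ 2 - 2) :=
    (o'.comp (contDiff_const.sub (cd_cut _))).mul ((o'.pow 2).sub contDiff_const)
  obtain ⟨K, hK⟩ := sd_z c2 (A := G.ρ + 7) fun t ht => by
    simp [cut_one (a := G.ρ + 6) (z := t) (by linarith)]
  have K0 := div_nonneg (hK 0).M0 η0.le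
  filter_upwards [hb k G hz.1.1, pt k G hz.1.2 o.ld 0 1 one_pos, ev_cyl (R := G.z₀)
    (Y := (η ^ 8)⁻¹) (by linarith) (by nlinarith), ev_ad,
    ev_Z fun _ _ _ => 10 ^ 9 + 4 * |A| + 8 * (K / η) + 2 / η,
    ev_cs (ev₀_r (f := fun _ => η / 8) (.of_forall fun _ => by positivity))]
    with p hb pt cy ad hZ hr j
  obtain ⟨B, B2, e, n1, -⟩ := hb j
  have c := cy j
  have c1 : Cyl 1 G.z₀ (p.W j) (p.c j) :=
    ⟨c.R0, c.RZ, c.cZ, fun z hz => Y1.trans (c.tip z hz), c.dsc⟩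
  have l : G.z₀ ≤ p.W j := by linarith [c.RZ]
  have R1 : 1 ≤ G.z₀ := by linarith
  have A0 := abs_nonneg A
  have η2 : 0 < 2 / η := by positivity
  have W1 := (ad.hW j).1
  have W2 := (ad.hW j).2
  have hT : Fact (6 ≤ p.W j) := ⟨by linarith⟩
  have W0 : 0 < p.W j := by linarith
  have sΓ := fun i => SD.one (s := Icc G.z₀ (p.W j)) (fun i => (hK i).mono
    (fun z hz => R1.trans hz.1) (fun _ _ => le_rfl) le_rfl) (fun z hz => R1.trans hz.1) i
  have eΓ := fun i z hz θ => (ret_cl l).toW_apply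
    (Sdec.jet_cont (c2.comp contDiff_fst) i).continuousOn (sΓ i) (z := z) hz θ
  generalize hΓ : (fun i => toW (Icc G.z₀ (p.W j)) (cl G.z₀ (p.W j)) (jet ((fun t : ℝ =>
    ((1 - cut (G.ρ + 6) t : ℝ) : ℂ) * (t ^ 2 - 2)) ∘ Prod.fst) i)) = Γ
  simp only [congrFun hΓ _] at eΓ
  have Γ2 : Γ ∈ P2 G.z₀ (p.W j) := (mem_P2 l).2 fun z hz =>
    (co_congr (G := fun _ => 0) (fun θ => (eΓ 2 z hz θ).trans (jet_z c2 2 _)) 0).trans
      (by simp [co, P218W.c1])
  have Γn : ‖Γ‖ ≤ K := (pi_norm_le_iff_of_nonneg (hK 0).M0).2 fun i =>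
    (ret_cl l).norm_le ((sΓ i).congr (eΓ i))
  have kr : (km (p.m j)).im = 0 ∧ 0 < (km (p.m j)).re := by
    rw [km, show -(p.m j : ℂ) ^ 2 / 4 = (-p.m j ^ 2 / 4 : ℝ) by push_cast; rfl,
      ← Complex.ofReal_exp]
    exact ⟨Complex.ofReal_im _, Real.exp_pos _⟩
  have ka := fun z hz => kk kr.1 kr.2 (aa_re (c1.wtc one_pos (z := z) hz).re6)
  have ca : Continuous (aa (p.c j)) := by
    have := cont_rh (p.c j)
    unfold aa
    fun_prop
  have cg := (continuousOn_const (c := km (p.m j))).div (continuousOn_const.add ca.continuousOn)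
    fun z hz => (ka z hz).1
  have cb := ca.continuousOn.div (continuousOn_const.add ca.continuousOn) fun z hz => (ka z hz).1
  have d1 := (contDiff_infty_iff_deriv.1 (cd_cut (p.W j - 2))).2
  have c0 := (Complex.continuous_ofReal.comp (cd_cut (p.W j - 2)).continuous).continuousOn
    (s := Icc G.z₀ (p.W j))
  have c3 := (Complex.continuous_ofReal.comp d1.continuous).continuousOn (s := Icc G.z₀ (p.W j))
  have c4 := (Complex.continuous_ofReal.comp
    (contDiff_infty_iff_deriv.1 d1).2.continuous).continuousOn (s := Icc G.z₀ (p.W j))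
  have x1 : ∀ {φ : ℝ → ℝ}, ContinuousOn (fun z => (φ z : ℂ)) (Icc G.z₀ (p.W j)) →
      (∀ z, |φ z| ≤ |A| + 1) → N (p.W j) 1 (cI G.z₀ (p.W j) fun z => φ z) := fun c h =>
    (cI_le l c fun z _ => by simpa using h z).trans (by rw [zpow_one]; linarith)
  let L : G.XX p.W × Pm (Fin M.n₁) → (Fin 6 → WI G.z₀ (p.W j)) × ℂ × ℂ × ℂ := fun y =>
    (B - (y.2.1 j - p.c j) • Γ + (y.1.2.1.1 j).1, y.2.1 j - p.c j, y.2.2.1 j, y.2.2.2.1 j)
  let f := fx G.z₀ (p.W j) (p.c j) (km (p.m j))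
  have key : ∀ y : G.XX p.W × Pm (Fin M.n₁), pN (p.c j) G.z₀ (p.W j) (y.1.2.1.1 j) < p.r ∧
      ‖y.2 - bs p.c p.v‖ < (p.Z ^ 100)⁻¹ → f.Un (L y) ∧
      N (p.W j) 8 (f.FF (L y) - LW (p.c j) _ _ (L y).1) ∧
      N (p.W j) (9 + 5) (LW (p.c j) _ _ (B - (y.2.1 j - p.c j) • Γ)) ∧
      ∀ z ∈ Icc G.z₀ (p.W j), ∀ θ, (G.fc (p.W j) * f.FF (L y) : WI _ _) (z, θ) =
        (1 - G.chn z : ℝ) * Ec p.z₃ p.m y j (z, θ) := fun y hy => by
    have s : N (p.W j) (-90) (y.2 - bs p.c p.v) := hy.2.le.trans (by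
      rw [zpow_neg]
      refine inv_anti₀ (by positivity) ?_
      calc p.W j ^ (90 : ℤ) = p.W j ^ 90 := by norm_cast
        _ ≤ (10 * p.Z) ^ 90 := by gcongr
        _ = (10 ^ 9) ^ 10 * p.Z ^ 90 := by rw [mul_pow, ← pow_mul]
        _ ≤ p.Z ^ 10 * p.Z ^ 90 := by gcongr; linarith
        _ = _ := by rw [← pow_add])
    have s' : N (p.W j) (-90) (L y).2 := by
      refine le_trans (max_le ?_ (max_le ?_ ?_)) s
      · exact (norm_le_pi_norm (y.2 - bs p.c p.v).1 j).trans (norm_fst_le _)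
      · simpa [bs] using (norm_le_pi_norm (y.2 - bs p.c p.v).2.1 j).trans
          ((norm_fst_le _).trans (norm_snd_le _))
      · simpa [bs] using (norm_le_pi_norm (y.2 - bs p.c p.v).2.2.1 j).trans
          ((norm_fst_le _).trans ((norm_snd_le _).trans (norm_snd_le _)))
    have b : xw (wK (31 / 16) (p.c j)) (p.c j) _ _ (B - (y.2.1 j - p.c j) • Γ) ≤ η / 4 := by
      have a : ‖y.2.1 j - p.c j‖ ≤ p.W j ^ (-10 : ℤ) :=
        N.mono ((norm_fst_le (L y).2).trans s') (by decide)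
      have := mul_le_mul a ((xw_norm c1 R1 Γ).2.trans (mul_le_mul_of_nonneg_left Γn
        (by positivity))) (apply_nonneg _ _) (by positivity)
      rw [show p.W j ^ (-10 : ℤ) * (p.W j ^ 9 * K) = K / η / p.W j * η by field_simp,
        ← map_smul_eq_mul] at this
      have := map_sub_le_add (xw (wK (31 / 16) (p.c j)) (p.c j) _ _) B ((y.2.1 j - p.c j) • Γ)
      nlinarith [(div_le_iff₀ W0).2 (show K / η ≤ 1 / 8 * p.W j by linarith)]
    obtain ⟨u, n⟩ := bd _ _ f (L y) c R1 ((div_le_iff₀' η0).1 (by linarith))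
      ((cI_le l (C := p.W j) (by fun_prop) fun z hz => by simp [abs_of_pos (c.z0 hz), hz.2]).trans
        (by rw [zpow_two]; nlinarith))
      (x1 c0 fun z => by linarith [abs_of_nonneg (cut_mem (p.W j - 2) z).1, (cut_mem (p.W j - 2) z).2])
      (x1 c3 fun z => by linarith [(hA (p.W j - 2) z).1, le_abs_self A])
      (x1 c4 fun z => by linarith [(hA (p.W j - 2) z).2, le_abs_self A])
      ((cI_le l cg fun z hz => (ka z hz).2.1).trans_eq (mul_one _))
      ((cI_le l cb fun z hz => (ka z hz).2.2).trans_eq (mul_one _))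
      ((P2 _ _).add_mem ((P2 _ _).sub_mem B2 ((P2 _ _).smul_mem _ Γ2))
        ((XE.mj (by linarith [c.RZ]) _).p2 l))
      ((map_add_le_add _ _ _).trans ((add_le_add b hy.1.le).trans (by linarith [hr.2]))) s'
    refine ⟨u, n, LW_N c1 R1 (xw_N c1 R1 (by linarith)), fun z hz θ => ?_⟩
    rw [W.mul_apply, fc_apply hz, u.val hz θ rfl (ka z hz).1 (cst_Icc l (by fun_prop) hz θ)
      (cst_Icc l cg hz θ) (cst_Icc l cb hz θ) (ζ := zt (p.W j) (y.2.2.1 j) z)
      (ζ₁ := zt₁ (p.W j) (y.2.2.1 j) z) (ζ₂ := zt₂ (p.W j) (y.2.2.1 j) z)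
      (by rw [show f.x₀ (z, θ) = _ from cst_Icc l c0 hz θ]; rfl)
      (by rw [show f.x₁ (z, θ) = _ from cst_Icc l c3 hz θ]; rfl)
      (by rw [show f.x₂ (z, θ) = _ from cst_Icc l c4 hz θ]; rfl) (V := Vt p.z₃ y j (z, θ))
      fun i => ?_]
    · rfl
    have two : (2 : WithTop ℕ∞) ≤ (⊤ : ℕ∞) := by norm_cast
    have := (((lj ((cd_bt g G p.z₃ j (p.c j)).of_le two).contDiffAt).add
      ((lj (contDiffAt_const (c := -(y.2.1 j - p.c j)))).mul (lj ((c2.comp contDiff_fst).of_le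
        two).contDiffAt (y := (z, θ))))).congr (G := G.bt p.z₃ j (y.2.1 j))
          (.of_forall fun q => by simp [GD.bt]; ring)).jet i
    simp only [Vt, Vj, this, L, f, fx, add_sub_cancel, Pi.add_apply, Pi.sub_apply, Pi.smul_apply,
      W.add_apply, W.sub_apply, W.smul_apply, (e i z hz θ).1, eΓ i z hz θ, add_assoc]
    congr 1
    fin_cases i <;> simp [jm, jet] <;> ring
  intro y hy
  have hy' : _ ∧ _ := ⟨((le_Nn y.1).1 j).trans_lt hy.1, hy.2⟩
  obtain ⟨u, n, n', v⟩ := key y hy'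
  have eq := fun y h => (ret_cl l).toW_eq (F := fun q => (1 - G.chn q.1 : ℝ) * Ec p.z₃ p.m y j q)
    (key y h).2.2.2
  have dv : Differentiable ℂ fun y : G.XX p.W × Pm (Fin M.n₁) => (y.1.2.1.1 j).1 :=
    ((XE _ _).subtypeL ∘L pe j).differentiable
  have cx : Continuous (xw (wK (31 / 16) (p.c j)) (p.c j) G.z₀ (p.W j)) :=
    Eqv.cont ⟨_, fun J => ⟨(xw_norm c1 R1 J).1, (xw_norm c1 R1 J).2.trans (by
      gcongr; linarith [pow_pos W0 9])⟩⟩
  refine ⟨((differentiableAt_const (G.fc _)).mul (u.d.comp y (by fun_prop))).congr_of_eventuallyEq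
    (((((cx.comp dv.continuous).tendsto y).eventually (gt_mem_nhds hy'.1)).and
      ((Continuous.tendsto (f := fun y : G.XX p.W × Pm (Fin M.n₁) => ‖y.2 - bs p.c p.v‖)
        (by fun_prop) y).eventually (gt_mem_nhds hy'.2))).mono eq), ?_,
    fun z hz θ => by rw [n3c, eq y hy', v z hz]⟩
  obtain ⟨pK, pw, pg, -⟩ := pw_all c1 le_rfl
  have mZ := right_mem_Icc.2 l
  have t := yw_N c1 R1 ((yn_le_iff l pg (pw_gW c1 one_pos (pK _)) (mul_pos W0 (pw.pos mZ))
    (mul_pos W0 ((pK _).pos mZ))).1 ((pt j (y.1.2.1.1 j)).2.1.trans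
      (show _ ≤ 1 by linarith [hy'.1, hr.2]))).1
  have fc : N (p.W j) 1 (G.fc (p.W j)) := x1 (Complex.continuous_ofReal.comp (continuous_const.sub
    (continuous_const.sub (cd_cut _).continuous))).continuousOn fun z => by
      have := cut_mem (G.ρ + 5) z
      rw [chn_eq, sub_sub_cancel, abs_of_nonneg this.1]
      linarith [this.2]
  have := (fc.mul ((n.add n').sub t)).mono (b := 17) (by decide)
  rw [n3c, eq y hy', ← mul_sub]
  refine le_trans (le_of_eq ?_) (this.trans ?_)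
  · simp only [L, map_add, Prod.fst_sub, T0_apply]
    congr 2
    ring
  · calc p.W j ^ (17 : ℤ) = p.W j ^ 17 := by norm_cast
      _ ≤ (10 * p.Z) ^ 17 := by gcongr
      _ = 10 ^ 17 * p.Z ^ 17 := mul_pow _ _ _
      _ ≤ p.Z ^ 3 * p.Z ^ 17 := mul_le_mul_of_nonneg_right (le_trans (by norm_num)
        (pow_le_pow_left₀ (by norm_num) (show (10 : ℝ) ^ 9 ≤ p.Z by linarith) 3))
          (pow_nonneg (by linarith) _)
      _ = _ := by rw [← pow_add]

end Vale.Agent.P218I
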