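import Vale.Agent.P218I.Pt
import Vale.Agent.P218I.Eqn

/-!
# P218, row I.FARA: the equation of a cylindrical end in the algebra
-/

open Set Filter Topology
open scoped Real

noncomputable section

namespace Vale.Agent.P218I.Fa

open Vale.Agent.P218T Vale.Agent.P218L Vale.Agent.P218M Vale.Agent.P218W
open Vale.Agent.P218N (vD vv rj Ef te lk lk')
open Ring (inverse)

/-- `‖x‖ ≤ T ^ a` -/
def N (T : ℝ) (a : ℤ) {E : Type} [Norm E] (x : E) : Prop := ‖x‖ ≤ T ^ a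

section
variable {T : ℝ} [hT : Fact (6 ≤ T)] {a b : ℤ} {E : Type} [NormedAddCommGroup E] {x y : E}

theorem N.mono (h : N T a x) (l : a ≤ b) : N T b x :=
  h.trans (zpow_le_zpow_right₀ (by linarith [hT.1]) l)

theorem N.of {C : ℝ} (h : ‖x‖ ≤ C) (l : C ≤ 6) : N T 1 x := by
  simpa [N] using h.trans (l.trans hT.1)

theorem N.two {C : ℝ} (h : ‖x‖ ≤ 2 * C) (l : C ≤ T ^ a) : N T (a + 1) x := by
  have := hT.1
  rw [N, zpow_add_one₀ (by linarith)]
  nlinarith [zpow_pos (show 0 < T by linarith) a]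

theorem N.add (h : N T a x) (k : N T b y) : N T (max a b + 1) (x + y) :=
  .two ((norm_add_le_of_le (h.mono (le_max_left _ _)) (k.mono (le_max_right _ _))).trans_eq
    (two_mul _).symm) le_rfl

omit hT in
theorem N.neg (h : N T a x) : N T a (-x) := by simpa [N] using h

theorem N.sub (h : N T a x) (k : N T b y) : N T (max a b + 1) (x - y) :=
  sub_eq_add_neg x y ▸ h.add k.neg

theorem N.smul [NormedSpace ℂ E] {c : ℂ} (h : N T a c) (k : N T b x) : N T (a + b) (c • x) := by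
  have := hT.1
  rw [N, zpow_add₀ (by linarith), norm_smul]
  exact mul_le_mul h k (norm_nonneg _) (by positivity)

theorem N.zero : N T a (0 : E) := by
  have := hT.1
  simp only [N, norm_zero]
  positivity

theorem N.half (h : N T a x) (l : a ≤ -1) : ‖x‖ ≤ 1 / 6 :=
  (h.mono l).trans (by simpa using inv_anti₀ (by norm_num) hT.1)

theorem N.mul {A : Type} [NormedRing A] {x y : A} (h : N T a x) (k : N T b y) :
    N T (a + b) (x * y) := by
  have := hT.1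
  rw [N, zpow_add₀ (by linarith)]
  exact (norm_mul_le _ _).trans (mul_le_mul h k (norm_nonneg _) (by positivity))

end

theorem inv_le {A : Type} [NormedCommRing A] [CompleteSpace A] {x : A} (h : ‖x‖ ≤ 1 / 2) :
    IsUnit (1 + x) ∧ ‖inverse (1 + x) - 1‖ ≤ 2 * ‖x‖ := by
  have n : ‖-x‖ < 1 := by rw [norm_neg]; linarith
  have u : IsUnit (1 + x) := sub_neg_eq_add 1 x ▸ (Units.oneSub (-x) n).isUnit
  refine ⟨u, ?_⟩
  have e : inverse (1 + x) - 1 = -(x * (inverse (1 + x) - 1) + x) := by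
    linear_combination Ring.mul_inverse_cancel _ u
  have := (norm_add_le _ _).trans (add_le_add_left (norm_mul_le x (inverse (1 + x) - 1)) ‖x‖)
  rw [← norm_neg, ← e] at this
  nlinarith [norm_nonneg (inverse (1 + x) - 1)]

theorem inv_le' {r : ℝ → ℝ} {x : W r} (h : ‖x‖ ≤ 1 / 2) : ‖inverse (1 + x)‖ ≤ 6 := by
  have := norm_add_le (inverse (1 + x) - 1) 1
  rw [sub_add_cancel] at this
  linarith [(inv_le h).2, W.norm_one_le (r := r)]

theorem exp_le {r : ℝ → ℝ} {x : W r} (h : ‖x‖ ≤ 1 / 2) : ‖NormedSpace.exp x - 1‖ ≤ 2 * ‖x‖ :=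
  W.norm_le ((x.le_norm.cexp (by simp) h).congr fun z _ θ => by simp [W.exp_apply])

theorem cI_le {R Z C : ℝ} (l : R ≤ Z) {φ : ℝ → ℂ} (c : ContinuousOn φ (Icc R Z))
    (h : ∀ z ∈ Icc R Z, ‖φ z‖ ≤ C) : ‖cI R Z φ‖ ≤ 4 * C :=
  (ret_cl l).norm_le ((le_z ((norm_nonneg _).trans (h R (left_mem_Icc.2 l))) (by simp)
    (by simpa using h)).congr fun z hz θ => cst_Icc l c hz θ)

theorem cut_bd : ∃ C : ℝ, ∀ a z, |deriv (cut a) z| ≤ C ∧ |deriv (deriv (cut a)) z| ≤ C := by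
  have h1 := (contDiff_infty_iff_deriv.1 (cd_cut 0)).2
  have h2 := (contDiff_infty_iff_deriv.1 h1).2
  obtain ⟨C, hC⟩ := (h1.continuous.prodMk h2.continuous).bounded_above_of_compact_support
    (.intro (isCompact_Icc (a := 0) (b := 0 + 1)) fun z hz => by
      rcases lt_or_ge z 0 with k | k
      · simp [(cut_ev k).deriv_eq, (cut_ev k).deriv.deriv_eq]
      · have k := cut_ev' (not_le.1 fun j => hz ⟨k, j⟩)
        simp [k.deriv_eq, k.deriv.deriv_eq])
  refine ⟨C, fun a z => ?_⟩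
  have e : cut a = fun z => cut 0 (z - a) := funext fun z => by simp [cut]
  have e1 : deriv (cut a) = fun z => deriv (cut 0) (z - a) :=
    funext fun z => by rw [e, deriv_comp_sub_const]
  rw [e1, deriv_comp_sub_const]
  exact max_le_iff.1 (hC (z - a))

/-- the fixed elements of the algebra -/
structure Fx (A : Type) where
  z : A
  x₀ : A
  x₁ : A
  x₂ : A
  g : A
  b : A
  c : ℂ

namespace Fx

variable {R Z : ℝ} (f : Fx (WI R Z)) (q : (Fin 6 → WI R Z) × ℂ × ℂ × ℂ)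

/-- `1 / ζ₁` -/
def ii : WI R Z := inverse (1 + q.2.2.1 • f.x₁)

/-- `ζ ^ 2 - z ^ 2` -/
def hh : WI R Z := q.2.2.1 • f.x₀ * (f.z + f.z + q.2.2.1 • f.x₀)

/-- the change of the jet -/
def DD : Fin 6 → WI R Z := ![q.2.1 • (f.z * f.z - 2) + (f.c + q.2.1) • f.hh q, 0, 0,
  q.1 3 * (f.ii q - 1) + (2 : ℂ) • (q.2.1 • f.z + (f.c + q.2.1) • q.2.2.1 • f.x₀),
  q.1 4 * (f.ii q - 1), q.1 5 * ((f.ii q - 1) * (f.ii q + 1)) -
    q.1 3 * q.2.2.1 • f.x₂ * (f.ii q * f.ii q * f.ii q) + q.2.1 • 2]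

/-- the relative change of the Gaussian -/
def ee : WI R Z := NormedSpace.exp ((-1 / 4 : ℂ) • (q.1 0 + f.DD q 0 + f.hh q)) - 1

/-- the profile of the observable -/
def ll : WI R Z := f.g * inverse (1 + f.b * f.ee q) * (f.g * inverse (1 + f.b * f.ee q))

/-- `te - 1` -/
def tt : WI R Z := (-2 : ℂ) • q.2.2.2 • (f.ll q * (f.b * (1 + f.ee q) * inverse (1 + f.b * f.ee q))) *
  inverse (1 + q.2.2.2 • f.ll q)

/-- the jet in the shifted height -/
def Vq : Fin 6 → WI R Z := rJ f.c R Z + (q.1 + f.DD q)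

/-- the terms of the shift and of the observable -/
def EE : WI R Z := f.tt q * (f.Vq q 0 - (1 / 2 : ℂ) • ((f.z + q.2.2.1 • f.x₀) * f.Vq q 3)) -
  (1 / 2 : ℂ) • (q.2.2.1 • f.x₀ * f.Vq q 3)

/-- the equation -/
def FF : WI R Z := VV R Z (f.Vq q) + f.EE q

/-- the denominators are units -/
structure Un : Prop where
  u1 : IsUnit (1 + q.2.2.1 • f.x₁)
  u2 : IsUnit (1 + f.b * f.ee q)
  u3 : IsUnit (1 + q.2.2.2 • f.ll q)
  u4 : IsUnit (f.Vq q 0)
  u5 : IsUnit (vD (f.Vq q 0) (f.Vq q 3) (f.Vq q 1))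

variable {f q}

theorem Un.d (u : f.Un q) : DifferentiableAt ℂ f.FF q := by
  have iv : ∀ {φ : (Fin 6 → WI R Z) × ℂ × ℂ × ℂ → WI R Z}, IsUnit (φ q) → DifferentiableAt ℂ φ q →
      DifferentiableAt ℂ (fun q => inverse (φ q)) q := fun h d =>
    (W.analyticAt_inverse h).differentiableAt.comp q d
  have d1 : DifferentiableAt ℂ f.ii q := iv u.u1 (by fun_prop)
  have d2 : DifferentiableAt ℂ f.hh q := by unfold hh; fun_prop
  have d3 : DifferentiableAt ℂ f.DD q := differentiableAt_pi.2 fun i => by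
    fin_cases i <;> simp only [DD, Fin.reduceFinMk, Matrix.cons_val] <;> fun_prop
  have d4 : DifferentiableAt ℂ f.ee q := ((W.analyticAt_exp _).differentiableAt.comp q
    (f := fun q => (-1 / 4 : ℂ) • (q.1 0 + f.DD q 0 + f.hh q)) (by fun_prop)).sub_const 1
  have d5 := iv (φ := fun q => 1 + f.b * f.ee q) u.u2 (by fun_prop)
  have d6 : DifferentiableAt ℂ f.ll q := by unfold ll; fun_prop
  have d7 := iv (φ := fun q => 1 + q.2.2.2 • f.ll q) u.u3 (by fun_prop)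
  have d8 : DifferentiableAt ℂ f.tt q := by unfold tt; fun_prop
  have d9 : DifferentiableAt ℂ f.Vq q := by unfold Vq; fun_prop
  refine ((VV_an u.u4 u.u5).differentiableAt.comp q d9).add ?_
  unfold EE
  fun_prop

theorem Un.val (u : f.Un q) {z : ℝ} (hz : z ∈ Icc R Z) (θ : ℝ) {k a : ℂ}
    (ha : a = Complex.exp (-(z ^ 2 + rh f.c z) / 4)) (hk : k + a ≠ 0) (e0 : f.z (z, θ) = z)
    (eg : f.g (z, θ) = k / (k + a)) (eb : f.b (z, θ) = a / (k + a)) {ζ ζ₁ ζ₂ : ℂ}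
    (h0 : ζ = z + q.2.2.1 * f.x₀ (z, θ)) (h1 : ζ₁ = 1 + q.2.2.1 * f.x₁ (z, θ))
    (h2 : ζ₂ = q.2.2.1 * f.x₂ (z, θ)) {V : Fin 6 → ℂ}
    (hV : ∀ i, V i = rj (f.c + q.2.1) ζ ζ₁ ζ₂ i + q.1 i (z, θ)) :
    f.FF q (z, θ) = Ef q.2.2.2 k ζ ζ₁ ζ₂ V := by
  have l := hz.1.trans hz.2
  have n1 : ζ₁ ≠ 0 := h1 ▸ W.ne_zero_of_isUnit u.u1 (z, θ)
  have i1 : f.ii q (z, θ) = ζ₁⁻¹ := by rw [ii, W.inverse_apply u.u1, h1]; rfl
  have v : ∀ i, f.Vq q i (z, θ) = ![V 0, V 1, V 2, V 3 / ζ₁, V 4 / ζ₁,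
      (V 5 - V 3 * ζ₂ / ζ₁) / ζ₁ ^ 2] i := fun i => by
    rw [Vq, Pi.add_apply, W.add_apply, rJ_ev l hz]
    fin_cases i <;> simp [DD, hh, hV, rj, rh, i1, e0] <;> field_simp <;> subst h0 h2 <;> ring
  have eE : a * (1 + f.ee q (z, θ)) = Complex.exp (-(ζ ^ 2 + V 0) / 4) := by
    have : V 0 = rh f.c z + (q.1 0 (z, θ) + f.DD q 0 (z, θ)) := by
      rw [← show rJ f.c R Z 0 (z, θ) = rh f.c z from rJ_ev l hz θ 0]; exact (v 0).symm
    simp only [ee, W.sub_apply, W.exp_apply, W.one_apply, add_sub_cancel, ha, ← Complex.exp_add,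
      W.smul_apply, W.add_apply, this, hh, W.mul_apply, e0, h0]
    congr 1
    ring
  generalize hE : Complex.exp (-(ζ ^ 2 + V 0) / 4) = E at eE
  have e2 : (1 + f.b * f.ee q) (z, θ) = (k + E) / (k + a) := by
    simp only [W.add_apply, W.mul_apply, W.one_apply, eb, ← eE]
    field_simp
    ring
  have n2 : k + E ≠ 0 := fun h => W.ne_zero_of_isUnit u.u2 (z, θ) (by rw [e2, h, zero_div])
  have e3 : f.ll q (z, θ) = lk k (ζ ^ 2 + V 0) := by
    simp only [ll, W.mul_apply, W.inverse_apply u.u2, e2, eg, lk, hE]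
    field_simp
  have e4 : f.tt q (z, θ) = te q.2.2.2 k (ζ ^ 2 + V 0) - 1 := by
    have : (f.b * (1 + f.ee q) * inverse (1 + f.b * f.ee q)) (z, θ) = E / (k + E) := by
      rw [W.mul_apply, W.inverse_apply u.u2, e2, W.mul_apply, eb, W.add_apply, W.one_apply,
        div_mul_eq_mul_div, eE]
      field_simp
    rw [tt, W.mul_apply, W.inverse_apply u.u3, W.smul_apply, W.smul_apply, W.mul_apply, this,
      W.add_apply, W.smul_apply, e3, W.one_apply, te, lk', hE, div_eq_mul_inv (4 * _), lk, hE]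
    field_simp
    ring
  rw [Fx.FF, W.add_apply, VV_ev l u.u4 u.u5 hz]
  simp only [EE, W.sub_apply, W.mul_apply, W.add_apply, W.smul_apply, e4, v, e0, ← h0, Ef, vv,
    Matrix.cons_val]
  rw [h0]
  ring

end Fx

section
open Eqn

variable {R Z : ℝ} {c : ℂ} [hT : Fact (6 ≤ Z)] (h : Cyl 1 R Z c) (R1 : 1 ≤ R)
include h R1

theorem xw_norm (J : Fin 6 → WI R Z) : ‖J‖ ≤ 2 * Z ^ 9 * xw (wK (31 / 16) c) c R Z J ∧
    xw (wK (31 / 16) c) c R Z J ≤ Z ^ 9 * ‖J‖ := by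
  have T1 := hT.1
  obtain ⟨pK, -, pg, -, px, -⟩ := pw_all h le_rfl
  have r := ret_cl (show R ≤ Z by linarith [h.RZ])
  have po := pw_om h one_pos (pK (31 / 16)) px (pg.add isCompact_Icc px)
  have pn := pw_nu h one_pos (pK (31 / 16))
  have a := fun i z hz => sz_om (o₀ := fun z => (rh c z).re)
    (o₁ := fun z => gO c Z z + (rh c z).re) h R1 T1 (z := z) hz (comp h R1 T1 hz).1
    ((base h R1 T1 hz).2.1.mono T1 (by simp) (by simp)) (((comp h R1 T1 hz).2.2.2.1.add T1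
      ((base h R1 T1 hz).2.1.pos T1).le ((base h R1 T1 hz).2.1.mono T1 le_rfl (by simp)).2).mono T1
        (by simp) (by simp)) i
  have b := fun i z hz => sz_nu h R1 T1 (z := z) hz (comp h R1 T1 hz).1 i
  refine ⟨(pi_norm_le_iff_of_nonneg (by positivity)).2 fun i => ?_,
    (r.xn_le_iff po pn (by positivity)).2 fun i => (l2_of (C := Z ^ 9) (by positivity) _
      (fun z hz => (a i z hz).1) fun z hz => (b i z hz).1).mono subset_rfl (fun _ _ => le_rfl)
      (fun _ _ => le_rfl) (mul_le_mul_of_nonneg_left (norm_le_pi_norm J i) (by positivity))⟩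
  have := (((r.xn_le_iff po pn (apply_nonneg _ _)).1 (le_refl (xn _ _ _ J)) i).le
    (ω := fun _ => Z ^ 9) (fun z hz => (a i z hz).2) fun z hz => (b i z hz).2).wt
      (ω' := fun _ => 1) (C := Z ^ 9) (by positivity) (by simp) (by simp)
  exact (r.norm_le this).trans_eq (by rw [← mul_assoc, mul_comm (Z ^ 9)]; rfl)

theorem xw_N {J : Fin 6 → WI R Z} (l : xw (wK (31 / 16) c) c R Z J ≤ 1 / 2) (i : Fin 6) :
    N Z 9 (J i) := by
  have := hT.1
  have := mul_le_mul_of_nonneg_left l (show 0 ≤ 2 * Z ^ 9 by positivity)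
  exact (norm_le_pi_norm J i).trans ((xw_norm h R1 J).1.trans (this.trans_eq (by norm_cast; ring)))

theorem yw_N {x : WI R Z} (l : L2 (Icc R Z) x (gO c Z) (gW (wK (31 / 16) c) c Z) 1) : N Z 6 x :=
  have T1 := hT.1
  N.two (a := 5) (C := Z ^ 5) (((ret_cl (by linarith [h.RZ])).norm_le ((l.le (ω := fun _ => Z ^ 5)
    (fun z hz => ((comp h R1 T1 hz).2.2.2.1.mono T1 le_rfl (by simp)).2)
    fun z hz => (sz_gW h R1 T1 hz (comp h R1 T1 hz).1).2).wt (ω' := fun _ => 1) (C := Z ^ 5)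
      (by positivity) (by simp) (by simp))).trans_eq (by ring)) (by norm_cast)

theorem LW_N {a : ℤ} {x : Fin 6 → WI R Z} (l : ∀ i, N Z a (x i)) : N Z (a + 5) (LW c R Z x) := by
  have T1 := hT.1
  have RZ : R ≤ Z := by linarith [h.RZ]
  have a1 : N Z 2 (cI R Z fun z => z / 2) := (cI_le RZ (C := Z / 2) (by fun_prop) fun z hz => by
    simp [abs_of_pos (h.z0 hz)]; linarith [hz.2]).trans (by norm_cast; nlinarith)
  have a2 : N Z 3 (cI R Z fun z => (rh c z)⁻¹) := (cI_le RZ (C := Z ^ 2)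
    ((cont_rh c).continuousOn.inv₀ fun z => cyl_ne h one_pos) fun z hz => (norm_inv _).trans_le
      ((base h R1 T1 hz).2.2.1.inv T1).2).trans (by norm_cast; nlinarith)
  exact ((((l 5).sub (a1.mul (l 3))).add (l 0)).add (a2.mul (l 2))).mono (by omega)

end

/-- **the estimates** -/
theorem bd : ∃ η : ℝ, 0 < η ∧ η ≤ 1 ∧ ∀ (R Z : ℝ) [Fact (6 ≤ Z)] (f : Fx (WI R Z)) q,
    Cyl (η ^ 8)⁻¹ R Z f.c → 1 ≤ R → 2 ≤ η * Z → N Z 2 f.z → N Z 1 f.x₀ → N Z 1 f.x₁ → N Z 1 f.x₂ →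
    ‖f.g‖ ≤ 4 → ‖f.b‖ ≤ 4 → q.1 ∈ P2 R Z → xw (wK (31 / 16) f.c) f.c R Z q.1 ≤ η / 2 →
    N Z (-90) q.2 → f.Un q ∧ N Z 8 (f.FF q - LW f.c R Z q.1) := by
  obtain ⟨r₀, C, r0, C0, ev⟩ := end_val
  obtain ⟨η, η0, η1, η2, η3⟩ : ∃ η, 0 < η ∧ η ≤ r₀ ∧ η ≤ 1 / 1000 ∧ C * η ≤ 1 :=
    ⟨min r₀ (min (1 / 1000) (1 / C)), by positivity, min_le_left _ _,
      (min_le_right _ _).trans (min_le_left _ _),
      (le_div_iff₀' C0).1 ((min_le_right _ _).trans (min_le_right _ _))⟩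
  refine ⟨η, η0, by linarith, fun R Z hT f q cy R1 hZ z x₀ x₁ x₂ g b p2 hq hs => ?_⟩
  have T1 := hT.1
  have Y1 : 1 ≤ (η ^ 8)⁻¹ := (one_le_inv₀ (by positivity)).2 (pow_le_one₀ η0.le (by linarith))
  have c1 : Cyl 1 R Z f.c := ⟨cy.R0, cy.RZ, cy.cZ, fun z hz => Y1.trans (cy.tip z hz), cy.dsc⟩
  have sa : Sa r₀ _ R Z η f.c _ := ⟨cy, Y1, (adw c1 R1).1, ((pw_all c1 le_rfl).1 _).c, η0, η1,
    (mul_inv_cancel₀ (by positivity)).ge⟩
  have d : N Z (-90) q.2.1 := (norm_fst_le _).trans hs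
  have l : N Z (-90) q.2.2.1 := (norm_fst_le _).trans ((norm_snd_le _).trans hs)
  have ε : N Z (-90) q.2.2.2 := (norm_snd_le _).trans ((norm_snd_le _).trans hs)
  have c0 : ‖f.c‖ ≤ 1 := by nlinarith [cy.cZ, norm_nonneg f.c, show 36 ≤ Z ^ 2 by nlinarith]
  have c := (N.of c0 (by norm_num)).add d
  have J := xw_N c1 R1 (J := q.1) (by linarith)
  have one : N Z 1 (1 : WI R Z) := .of W.norm_one_le (by norm_num)
  have two : N Z 2 (2 : WI R Z) := (one_add_one_eq_two (R := WI R Z) ▸ one.add one :)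
  have two' : N Z 1 (2 : ℂ) := .of (C := 2) (by simp) (by norm_num)
  have hf : N Z 1 (1 / 2 : ℂ) := .of (C := 1) (by simp; norm_num) (by norm_num)
  have s1 := ((l.smul x₁).half (by norm_num)).trans (by norm_num : (1 / 6 : ℝ) ≤ 1 / 2)
  have i : N Z 1 (f.ii q) := .of (inv_le' s1) le_rfl
  have i' : N Z (-89 + 1) (f.ii q - 1) := .two (inv_le s1).2 (l.smul x₁)
  have hh : N Z _ (f.hh q) := (l.smul x₀).mul ((z.add z).add (l.smul x₀))
  have D : ∀ i, N Z (-70) (f.DD q i) := fun j => by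
    fin_cases j
    exacts [((d.smul ((z.mul z).sub two)).add (c.smul hh)).mono (by decide), .zero, .zero,
      (((J 3).mul i').add (two'.smul ((d.smul z).add (c.smul (l.smul x₀))))).mono (by decide),
      ((J 4).mul i').mono (by decide), ((((J 5).mul (i'.mul (i.add one))).sub
        (((J 3).mul (l.smul x₂)).mul ((i.mul i).mul i))).add (d.smul two)).mono (by decide)]
  have p2' : q.1 + f.DD q ∈ P2 R Z := (P2 R Z).add_mem p2 ((mem_P2 sa.le).2 fun z _ => by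
    simp [Fx.DD, co, P218W.c1])
  have hK : xw (wK (31 / 16) f.c) f.c R Z (q.1 + f.DD q) ≤ η := by
    have a : ‖f.DD q‖ ≤ Z ^ (-10 : ℤ) := (pi_norm_le_iff_of_nonneg (by positivity)).2 fun j =>
      (D j).mono (by decide)
    have := (xw_norm c1 R1 (f.DD q)).2.trans (mul_le_mul_of_nonneg_left a (by positivity))
    have e : Z ^ 9 * Z ^ (-10 : ℤ) ≤ η / 2 := by
      rw [show Z ^ 9 * Z ^ (-10 : ℤ) = 1 / Z by field_simp, div_le_iff₀ (by linarith)]
      linarith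
    linarith [map_add_le_add (xw (wK (31 / 16) f.c) f.c R Z) q.1 (f.DD q)]
  obtain ⟨u4, u5, -, rr⟩ := ev _ _ _ _ _ _ sa _ p2' hK
  have k0 : ‖q.1 0 + f.DD q 0‖ ≤ 36 * (2 * η) := (ret_cl sa.le).norm_le
    ((((sa.xw_le η0.le).1 hK 0).le (ω := fun _ => 36) (fun z hz => ((Complex.re_le_norm _).trans
      (c1.wtc one_pos hz).re6).trans (by norm_num)) fun z hz => by
        have := (c1.wtc one_pos hz).re6
        exact (mul_le_mul (Real.rpow_le_one_of_one_le_of_nonpos (R1.trans hz.1) (by norm_num))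
          ((Real.rpow_le_rpow (norm_nonneg _) this (by norm_num)).trans
            (Real.rpow_le_rpow_of_exponent_le (by norm_num) (show _ ≤ (2 : ℝ) by norm_num)))
          (by positivity) zero_le_one).trans (by norm_num)).wt (by norm_num) (by simp) (by simp))
  have k1 : ‖(-1 / 4 : ℂ) • (q.1 0 + f.DD q 0 + f.hh q)‖ ≤ 1 / 16 := by
    rw [norm_smul, show ‖(-1 / 4 : ℂ)‖ = 1 / 4 by simp]
    linarith [norm_add_le (q.1 0 + f.DD q 0) (f.hh q), hh.half (by decide)]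
  have e : ‖f.ee q‖ ≤ 1 / 8 := (exp_le (by linarith)).trans (by linarith)
  have s2 : ‖f.b * f.ee q‖ ≤ 1 / 2 := (norm_mul_le _ _).trans
    ((mul_le_mul b e (norm_nonneg _) (by norm_num)).trans (by norm_num))
  have n : N Z 1 (inverse (1 + f.b * f.ee q)) := .of (inv_le' s2) le_rfl
  have g' : N Z 1 f.g := .of g (by norm_num)
  have ll : N Z _ (f.ll q) := (g'.mul n).mul (g'.mul n)
  have s3 := ((ε.smul ll).half (by decide)).trans (by norm_num : (1 / 6 : ℝ) ≤ 1 / 2)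
  have tt : N Z _ (f.tt q) := ((N.of (C := 2) (by simp) (by norm_num)).smul (ε.smul (ll.mul
    (((N.of b (by norm_num)).mul (N.of (norm_add_le_of_le W.norm_one_le e) (by norm_num))).mul
      n)))).mul (.of (inv_le' s3) le_rfl)
  have v0 : N Z 2 (cI R Z (rh f.c)) := (cI_le sa.le (cont_rh _).continuousOn fun z hz =>
    (c1.wtc one_pos hz).re6).trans (by rw [zpow_two]; nlinarith)
  have v3 : N Z 2 (cI R Z fun z => 2 * f.c * z) := (cI_le sa.le (C := 3) (by fun_prop)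
    fun z hz => by
      simp only [norm_mul, Complex.norm_ofNat, Complex.norm_real, Real.norm_of_nonneg (c1.z0 hz).le]
      nlinarith [mul_le_mul_of_nonneg_left hz.2 (norm_nonneg f.c), cy.cZ,
        mul_nonneg (norm_nonneg f.c) (show 0 ≤ Z by linarith)]).trans (by rw [zpow_two]; nlinarith)
  have V0 : N Z _ (f.Vq q 0) := v0.add ((J 0).add (D 0))
  have V3 : N Z _ (f.Vq q 3) := v3.add ((J 3).add (D 3))
  have E : N Z _ (f.EE q) := (tt.mul (V0.sub (hf.smul ((z.add (l.smul x₀)).mul V3)))).sub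
    (hf.smul ((l.smul x₀).mul V3))
  refine ⟨⟨(inv_le s1).1, (inv_le s2).1, (inv_le s3).1, u4, u5⟩, ?_⟩
  rw [show f.FF q - LW f.c R Z q.1 = RR f.c R Z (q.1 + f.DD q) + LW f.c R Z (f.DD q) + f.EE q by
    rw [RR, map_add, Fx.FF, Fx.Vq]; ring]
  exact (((yw_N c1 R1 (sa.yw_le.1 (rr.trans (by nlinarith)))).add (LW_N c1 R1 D)).add E).mono
    (by decide)

end Vale.Agent.P218I.Fa
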