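import Vale.Agent.P218I.Bt
import Vale.Agent.P218I.Bas
import Vale.Agent.P218W.NLe

/-! The row `FARB`. -/

open Set Filter Topology Complex

noncomputable section

namespace Vale.Agent.P218I

open Vale.Agent.P218T Vale.Agent.P218L Vale.Agent.P218M Vale.Agent.P218W GD
open Vale.Agent.P218N (Ef te vD)

namespace FarbH

variable {R Z M β₀ β₁ : ℝ} {c : ℂ}

theorem yn_mul {g₀ g : ℝ → ℝ} {y : YE R Z} (h : YN g₀ g β₀ β₁ y M) {f : WI R Z} {φ : ℝ → ℝ}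
    (e : ∀ z ∈ Icc R Z, ∀ θ, f (z, θ) = φ z) (b : ∀ z, |φ z| ≤ 1) : YN g₀ g β₀ β₁ (f * y.1, 0) M :=
  have k : ∀ {o : ℝ → ℝ}, (∀ z ∈ Icc R Z, 0 ≤ o z) → ∀ z ∈ Icc R Z, ‖(φ z : ℂ)‖ * o z ≤ 1 * o z :=
    fun h z hz => mul_le_mul_of_nonneg_right (by simpa using b z) (h z hz)
  ⟨(one_mul M ▸ h.1.mulz (φ := fun z => φ z) zero_le_one h.1.1.w0 h.1.2.w0 (k h.1.1.w0)
    (k h.1.2.w0)).congr fun z hz θ => by simp [e z hz],
    fun i => norm_zero.trans_le ((norm_nonneg _).trans (h.2 i))⟩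

theorem main : ∃ η C : ℝ, 0 < η ∧ η ≤ 1 ∧ 0 < C ∧ ∀ {R Z : ℝ} {c : ℂ}, Cyl (η ^ 8)⁻¹ R Z c →
    ∀ B ∈ P2 R Z, nN c R Z B ≤ η / 2 → ∀ u u' : XE R Z, pN c R Z u < η / 2 →
    (IsUnit ((rJ c R Z + B) 0) ∧
      IsUnit (vD ((rJ c R Z + B) 0) ((rJ c R Z + B) 3) ((rJ c R Z + B) 1))) ∧
    HasDerivAt (fun t : ℂ => VV R Z (rJ c R Z + (B + u.1) + t • u'.1))
      (fderiv ℂ (VV R Z) (rJ c R Z + (B + u.1)) u'.1) 0 ∧
    (∀ᶠ t : ℂ in 𝓝 0, ∀ V, V = rJ c R Z + (B + u.1) + t • u'.1 → IsUnit (V 0) ∧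
      IsUnit (vD (V 0) (V 3) (V 1))) ∧ ∀ (f : WI R Z) (φ : ℝ → ℝ),
      (∀ z ∈ Icc R Z, ∀ θ, f (z, θ) = φ z) → (∀ z, |φ z| ≤ 1) → ∀ g, g = f *
        (fderiv ℂ (VV R Z) (rJ c R Z + (B + u.1)) u'.1 - fderiv ℂ (VV R Z) (rJ c R Z + B) u'.1) →
      qN c R Z (g, 0) ≤ C * pN c R Z u * pN c R Z u' ∧
        qH c R Z (g, 0) ≤ C * pN c R Z u * pH c R Z u' := by
  obtain ⟨r₀, C, r0, C0, e⟩ := end_pk
  refine ⟨min r₀ 1, C, by positivity, min_le_right _ _, C0, fun {R Z c} h B hB b u u' hu => ?_⟩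
  have η0 : 0 < min r₀ 1 := by positivity
  have Y1 : 1 ≤ (min r₀ 1 ^ 8)⁻¹ :=
    (one_le_inv₀ (by positivity)).2 (pow_le_one₀ η0.le (min_le_right _ _))
  replace e := e _ _ _ _ _ h Y1 η0 (min_le_left _ _) (mul_inv_cancel₀ (by positivity)).ge
  have p2 := XE.p2 (show R < Z by linarith [h.RZ])
  rw [pN_eq] at hu
  have n := (map_add_le_add (nN c R Z) B u.1).trans_lt ((add_lt_add_of_le_of_lt b hu).trans_eq
    (add_halves _))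
  obtain ⟨a₁, a₂, a₃, a₄, -, -, d⟩ := e B hB (b.trans (half_le_self η0.le))
  obtain ⟨b₁, b₂, b₃, b₄, -⟩ := e _ (add_mem hB (p2 u)) n.le
  obtain ⟨d₁, d₂⟩ := (d _ (p2 u')).2.2 _ (p2 u) (hu.le.trans (half_le_self η0.le))
  rw [fderiv_FE a₃ a₄, fderiv_FE b₃ b₄, fderiv_RR a₁ a₂, fderiv_RR b₁ b₂, Prod.mk_sub_mk,
    sub_sub_sub_cancel_right] at d₁ d₂
  refine ⟨⟨a₁, a₂⟩, by simpa using hd_line (d := u'.1) (t := 0) (by
    simpa using (VV_an b₁ b₂).differentiableAt), ?_, fun f φ ef bφ g hg => hg ▸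
    ⟨(qN_le h Y1).2 (yn_mul ((qN_le h Y1).1 d₁) ef bφ),
      (qH_le h Y1).2 (yn_mul ((qH_le h Y1).1 d₂) ef bφ)⟩⟩
  have k : Continuous fun t : ℂ => nN c R Z (B + u.1) + ‖t‖ * nN c R Z u'.1 := by fun_prop
  filter_upwards [(k.tendsto 0).eventually_le_const (u := min r₀ 1) (by simpa using n)] with t ht V hV
  obtain ⟨k₁, k₂, -⟩ := e _ (add_mem (add_mem hB (p2 u)) (Submodule.smul_mem _ t (p2 u')))
    ((line_le le_rfl).trans ht)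
  rw [hV, add_assoc]
  exact ⟨k₁, k₂⟩

end FarbH

theorem farbH (cy : CY) (hb : BT) (fa : FARA) : FARB := by
  intro M g
  obtain ⟨η, C, η0, η1, C0, e⟩ := FarbH.main
  obtain ⟨z₁, h₁⟩ := hb M g (η / 2) (half_pos η0)
  obtain ⟨z₂, h₂⟩ := fa M g
  refine ⟨max (max z₁ z₂) (max 2 (η ^ 4)⁻¹), fun k G hz o => ?_⟩
  simp only [max_le_iff] at hz
  filter_upwards [h₁ k G hz.1.1, h₂ k G hz.1.2 o, ev_ad, ev_cs (ev₀_K C),
    ev_cs (ev₀_r (f := fun _ => η / 2) (.of_forall fun _ => half_pos η0)),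
    ev_cs (ev₀_J fun _ _ _ => (η ^ 8)⁻¹), ev_Z fun _ _ _ => 2 * G.z₀ + 2]
    with p b f a hK hr hJ hZ j U hU U' g hg
  obtain ⟨B, p2, eB, nB, -⟩ := b j
  have JJ : (p.J₀ : ℝ) ≤ p.J := by exact_mod_cast a.hJ
  have h := cy p.J _ G.z₀ (η ^ 8)⁻¹ _ (a.hc j) hz.2.1 (hZ.trans (a.hW j).1) (by
    rw [show η ^ 8 = (η ^ 4) ^ 2 by ring, ← inv_pow]; gcongr; exact hz.2.2)
    (by linarith [p.J.cast_nonneg (α := ℝ)])
  have l : G.z₀ ≤ p.W j := by linarith [h.RZ]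
  have n : pN (p.c j) G.z₀ (p.W j) (U.2.1.1 j) < p.r := (((le_prs (p := fun j =>
    pN (p.c j) G.z₀ (p.W j)) U.2.1).1 j).trans (P218H.le_tri (G.pn p.W p.c) U).2.1).trans_lt hU
  obtain ⟨u, d, ev, q⟩ := e h B p2 nB (U.2.1.1 j) (U'.2.1.1 j) (n.trans_le hr.2)
  have a₁ := hd_line (F := n3c p.z₃ p.m j) (x := (U, bs p.c p.v)) (d := (U', 0)) (t := 0) (by
    rw [zero_smul, add_zero]
    exact (f j (U, bs p.c p.v) ⟨hU, by simpa using pow_pos (by linarith : 0 < p.Z) 100⟩).1)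
  rw [zero_smul, add_zero] at a₁
  rw [a₁.unique ((d.const_mul (G.fc _)).congr_of_eventuallyEq (ev.mono fun t ht =>
    (ret_cl l).toW_eq fun z hz θ => ?_)), TC_eq G.toLD l u.1 u.2 fun i z hz θ => (eB i z hz θ).2,
    ← mul_sub] at hg
  · have K0 : 0 ≤ p.K := C0.le.trans hK
    obtain ⟨q₁, q₂⟩ := q _ _ (fun z hz θ => G.fc_apply hz θ) (fun z => by
      have := cut_mem (G.ρ + 5) z
      rw [G.chn_eq, abs_le]; constructor <;> linarith) g hg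
    exact ⟨q₁.trans (by gcongr), q₂.trans (by gcongr)⟩
  · rw [W.mul_apply, G.fc_apply hz, VV_ev l (ht _ rfl).1 (ht _ rfl).2 hz]
    have : ∀ i, (rJ (p.c j) G.z₀ (p.W j) + (B + (U.2.1.1 j).1) + t • (U'.2.1.1 j).1) i (z, θ) =
        Vt p.z₃ ((U, bs p.c p.v) + t • (U', 0)) j (z, θ) i := fun i => by
      rw [Prod.smul_mk, Prod.mk_add_mk, smul_zero, add_zero, ← add_assoc, add_assoc, Pi.add_apply,
        W.add_apply, (eB i z hz θ).2]; rfl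
    simp only [this, Ec]
    rw [Prod.smul_mk, Prod.mk_add_mk, smul_zero, add_zero]
    simp [Ef, te, bs, zt_zero]

end Vale.Agent.P218I
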