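import Vale.Agent.P218I.FarcA
import Vale.Agent.P218L.Lq
import Vale.Agent.P218L.Sdec

/-!
# P218, row I.FARC: the residuals of the reference surface and of the shrinker in the far zone
-/

open Set Filter Topology
open scoped ContDiff Real

noncomputable section

namespace Vale.Agent.P218I

open Vale.Agent.P218T Vale.Agent.P218L Vale.Agent.P218M GD
open Vale.Agent.P218N (rj Ef te)
open Vale.Agent.P218W (Le L2 jet le_z pw_all pw_gW)

namespace Fc

variable {M : Mod} {k : ℕ}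

/-- the squared radius of the shrinker minus `2` -/
def us (M : Mod) (j : Fin M.n₁) (y : ℝ × ℝ) : ℂ := VS (M.f j) y - 2

theorem cd_us (g : M.Geo) (j : Fin M.n₁) : ContDiff ℝ ∞ (us M j) := (g.cd_VS j).sub contDiff_const

theorem cd_mul {ζ : ℝ → ℝ} {u : ℝ × ℝ → ℂ} (h : ContDiff ℝ ∞ ζ) (hu : ContDiff ℝ ∞ u) :
    ContDiff ℝ ∞ fun q : ℝ × ℝ => ζ q.1 * u q :=
  (Complex.ofRealCLM.contDiff.comp (h.comp contDiff_fst)).mul hu

theorem op2_us (g : M.Geo) (j : Fin M.n₁) {y : ℝ × ℝ} (h : M.R < y.1) :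
    op2 (jet (us M j)) y = 0 :=
  (congrArg (vJ 1 y.1) (funext fun i => (PsA.jet_sub _ i y).symm)).trans ((eqs M g).1 j y h)

/-- decay, uniformly on all ends -/
theorem sd (g : M.Geo) : ∃ K : ℝ, 1 ≤ K ∧ ∀ j, JB (Ici K) (jet (us M j)) wd K := by
  choose R K h using fun j => sdec coef (M.f j) (g.ended.cyl j) _ ((eqs M g).1 j)
  obtain ⟨B, hB⟩ := Finite.bddAbove_range fun j => max (R j) (K j)
  refine ⟨max B 1, le_max_right _ _, fun j => ?_⟩
  have l : max (R j) (K j) ≤ max B 1 := le_max_of_le_left (hB ⟨j, rfl⟩)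
  exact JB.mono ⟨(h j).2.1, (h j).2.2.congr fun z _ θ => by
    rw [PsA.jet_sub (VS (M.f j))]; simp only [Matrix.cons_val, zero_add]; rfl⟩
      (Ici_subset_Ici.2 (le_of_max_le_left l)) (le_of_max_le_right l)

theorem Ec_bs {G : GD M k} {Z : Fin M.n₁ → ℝ} (z₃ m) (U : G.XX Z) (c v j) (y : ℝ × ℝ) :
    Ec z₃ m (U, bs c v) j y = vJ 1 y.1 fun i =>
      rj (c j) y.1 1 0 i + jet (G.bt z₃ j (c j)) i y + (U.2.1.1 j).1 i y := by
  simp only [Ec, Ef, te, bs, Pi.zero_apply, zt_zero, Vt, Vj, vJ, zero_mul, mul_zero, zero_div,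
    sub_zero, div_one, one_pow]

theorem rj_eq (c : ℂ) (z : ℝ) (i : Fin 6) :
    rj c z 1 0 i = ![2, 0, 0, 0, 0, 0] i + c * hj z i := by
  fin_cases i <;> simp [rj, hj] <;> ring

theorem cont_hj (i : Fin 6) : Continuous fun z => hj z i := by
  fin_cases i <;> simp only [hj, Fin.reduceFinMk, Matrix.cons_val] <;> fun_prop

theorem jb_hj {s : Set ℝ} {c : ℂ} {b : ℝ} (hs : s ⊆ Icc 2 b) (hc : ‖c‖ * (2 * b ^ 4) ≤ 1) :
    JB s (fun i y => c * hj y.1 i) wd 4 := by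
  have k : ∀ {φ : ℝ → ℂ}, (∀ z, 2 ≤ z → ‖φ z‖ ≤ 2 * z ^ 2) →
      Le s (fun y => c * φ y.1) wd 4 := fun {φ} h => by
    simpa using le_z (φ := fun z => c * φ z) zero_le_one
      (fun z hz => show 0 ≤ wd z from Real.rpow_nonneg (by linarith [(hs hz).1]) _) fun z hz => by
        obtain ⟨z2, zb⟩ := hs hz
        have z0 : 0 < z := by linarith
        have e := Real.rpow_le_rpow_of_exponent_le (x := z) (by linarith)
          (show (-(2 : ℕ) : ℝ) ≤ -31 / 16 by norm_num)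
        rw [Real.rpow_neg z0.le, Real.rpow_natCast] at e
        rw [one_mul, norm_mul]
        refine le_trans ?_ e
        rw [inv_eq_one_div, le_div_iff₀ (by positivity)]
        calc _ ≤ ‖c‖ * (2 * z ^ 2) * z ^ 2 := by gcongr; exact h z z2
          _ = ‖c‖ * (2 * z ^ 4) := by ring
          _ ≤ ‖c‖ * (2 * b ^ 4) := by gcongr
          _ ≤ 1 := hc
  refine ⟨fun i => k (φ := fun z => hj z i) fun z z2 => ?_,
    (k (φ := fun z => z * hj z 3) fun z z2 => ?_).congr fun z _ θ => by ring⟩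
  · have z0 : 0 < z := by linarith
    fin_cases i <;> simp [hj, abs_of_pos z0] <;> try nlinarith
    exact (norm_sub_le _ _).trans (by simp; nlinarith)
  · simp [hj]; nlinarith [abs_mul_abs_self z]

/-- the residual of the reference profile -/
def E (G : GD M k) (z₃ : ℝ) (j : Fin M.n₁) (c : ℂ) (y : ℝ × ℝ) : ℂ :=
  vJ 1 y.1 fun i => rj c y.1 1 0 i + jet (G.bt z₃ j c) i y

/-- the correction of the profile in the near zone -/
def xi (a z : ℝ) : ℝ := -((1 - cut a z) * (z ^ 2 - 2))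

theorem cd_xi (a : ℝ) : ContDiff ℝ ∞ (xi a) :=
  ((contDiff_const.sub (cd_cut a)).mul ((contDiff_id.pow 2).sub contDiff_const)).neg

variable {G : GD M k} {z₃ : ℝ} {j : Fin M.n₁} {c : ℂ} {y : ℝ × ℝ}

theorem E_A (g : M.Geo) (z0 : 0 < z₃) (h : y.1 < z₃) : E G z₃ j c y =
    op2 (fun i y => jet (us M j) i y + c * (hj y.1 i + jz (xi (G.ρ + 6)) y.1 i)) y := by
  have e : G.bt z₃ j c =ᶠ[𝓝 y] fun q => us M j q + c * (xi (G.ρ + 6) q.1 : ℝ) := by
    filter_upwards [continuous_fst.tendsto y (gt_mem_nhds h)] with q b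
    simp [bt, us, xi, cut_zero ((div_le_one z0).2 (le_of_lt b))]
    ring
  have l := (Frm.lj ((cd_us g j).contDiffAt.of_le (by norm_cast))).add
    ((Frm.lj_z (y := y) (.of_forall fun z => hasDerivAt_const z c) (hasDerivAt_const _ 0)).mul
      (lj_jz (cd_xi (G.ρ + 6)) y))
  refine congrArg (vJ 1 y.1) (funext fun i => ?_)
  rw [jet_congr e, l.jet, rj_eq]
  fin_cases i <;> simp [Frm.jm] <;> ring

theorem E_B (h : G.ρ + 7 < y.1) : E G z₃ j c y =
    op2 (fun i y => jet (fun q => ch 1 z₃ q.1 * us M j q) i y + c * hj y.1 i) y := by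
  have e : G.bt z₃ j c =ᶠ[𝓝 y] fun q => ch 1 z₃ q.1 * us M j q := by
    filter_upwards [continuous_fst.tendsto y (lt_mem_nhds h)] with q (b : _ < q.1)
    simp [bt, us, ch, cut_one (a := G.ρ + 6) (z := q.1) (by linarith)]
  refine congrArg (vJ 1 y.1) (funext fun i => ?_)
  rw [jet_congr e, rj_eq]
  ring

theorem E_C (z0 : 0 < z₃) (h : G.ρ + 7 < y.1) (h' : 2 * z₃ < y.1) :
    E G z₃ j c y = vJ 1 y.1 (rj c y.1 1 0) := by
  have e : G.bt z₃ j c =ᶠ[𝓝 y] fun _ => 0 := by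
    filter_upwards [continuous_fst.tendsto y (lt_mem_nhds h),
      continuous_fst.tendsto y (lt_mem_nhds h')] with q (b : _ < q.1) (b' : _ < q.1)
    simp [bt, cut_one (a := G.ρ + 6) (z := q.1) (by linarith),
      cut_one (a := 1) (z := q.1 / z₃) ((le_div_iff₀ z0).2 (by linarith))]
  refine congrArg (vJ 1 y.1) (funext fun i => ?_)
  rw [jet_congr e]
  fin_cases i <;> simp [jet]

theorem gain {s z : ℝ} (s0 : 0 < s) (h : s⁻¹ ^ 16 ≤ z) : wd z ≤ s * z ^ (-15 / 8 : ℝ) := by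
  have p : 0 < s⁻¹ ^ 16 := by positivity
  have z0 := p.trans_le h
  rw [wd, show (-31 / 16 : ℝ) = -1 / 16 + -15 / 8 by norm_num, Real.rpow_add z0]
  refine mul_le_mul_of_nonneg_right
    ((Real.rpow_le_rpow_of_nonpos p h (by norm_num)).trans_eq ?_) (by positivity)
  rw [← Real.rpow_natCast, ← Real.rpow_mul (by positivity)]
  norm_num [Real.rpow_neg_one]

/-- the residual below the height `3 z₃` -/
theorem low (g : M.Geo) : ∃ z₁ : ℝ, ∀ k (G : GD M k), z₁ ≤ G.z₀ → G.Ok → ∀ t, 0 < t →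
    ∀ᶠ z₃ in atTop, ∀ j, ∀ᶠ c in 𝓝 (0 : ℂ), ‖c‖ * (3 * z₃) ^ 2 ≤ 1 ∧
      Le (Icc G.z₀ (3 * z₃)) (E G z₃ j c) (fun z => z ^ (-15 / 8 : ℝ)) t := by
  obtain ⟨K, K1, hK⟩ := sd g
  obtain ⟨η₁, η1, hn⟩ := near
  obtain ⟨η, C, η0, C0, hd⟩ := dec
  obtain ⟨L, L1, hL⟩ := cutoff 1
  refine ⟨max K (K / η₁), fun k G hz o t t0 => ?_⟩
  have h1 := le_of_max_le_left hz
  have h2 := (div_le_iff₀' η1).1 (le_of_max_le_right hz)
  have lo := o.ld.lo
  have hi := o.ld.hi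
  have A0 : 0 < C * (L * K + 4) := by positivity
  filter_upwards [eventually_ge_atTop (2 * G.ρ + 16), eventually_ge_atTop (2 * ((L * K + 4) / η)),
    eventually_ge_atTop (2 * (t / 2 / (C * (L * K + 4)))⁻¹ ^ 16)] with z₃ k1 k2 k3 j
  have z0 : 0 < z₃ := by linarith
  have sm : ∀ b : ℝ, ∀ᶠ c in 𝓝 (0 : ℂ), ‖c‖ * b ≤ 1 := fun b =>
    (continuous_norm.mul continuous_const).continuousAt.eventually_le_const (by simp)
  filter_upwards [sm ((3 * z₃) ^ 2), sm (2 * (3 * z₃) ^ 4), hn G.z₀ (z₃ / 2) (jet (us M j))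
    (fun i z => hj z i + jz (xi (G.ρ + 6)) z i) (by linarith) (PsA.cont_jet (cd_us g j))
    (fun i => (cont_hj i).add (cont_jz (cd_xi _) i))
    (fun i => small (((hK j).1 i).mono (fun z hz => h1.trans hz.1) (fun _ _ => le_rfl) le_rfl)
      (K1.trans h1) Icc_subset_Ici_self h2)
    (fun z hz θ => op2_us g j (show M.R < z by linarith [hz.1])) (t / 2 / z₃ ^ 2) (by positivity)]
    with c c1 c2 a
  have sB : Icc (z₃ / 2) (3 * z₃) ⊆ Icc 2 (3 * z₃) :=
    Icc_subset_Icc_left (by linarith [g.one.1])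
  have b1 := hL z₃ (by linarith) (Icc (z₃ / 2) (3 * z₃)) _ _ _
    (sB.trans (Icc_subset_Icc zero_le_two (by linarith))) (cd_us g j)
    ((hK j).mono (fun z hz => show K ≤ z by linarith [hz.1]) le_rfl)
  have b2 := jb_hj sB c2
  have b := hd _ (fun i y => jet (fun q => ch 1 z₃ q.1 * us M j q) i y + c * hj y.1 i) (z₃ / 2)
    (L * K + 4) (by linarith) Icc_subset_Ici_self ((div_le_iff₀' η0).1 (by linarith))
    ⟨fun i => (b1.1 i).add (b2.1 i), (b1.2.add b2.2).congr fun _ _ _ => mul_add _ _ _⟩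
    fun i => (PsA.cont_jet (cd_mul (cd_ch 1 z₃) (cd_us g j)) i).add
      (continuous_const.mul ((cont_hj i).comp continuous_fst))
  have w0 : ∀ z, G.z₀ ≤ z → 0 ≤ z ^ (-15 / 8 : ℝ) := fun z hz =>
    Real.rpow_nonneg (G.hz.le.trans hz) _
  refine ⟨c1, ?_⟩
  rw [← Icc_union_Icc_eq_Icc (b := z₃ / 2) (by linarith) (by linarith)]
  refine (le_union
    ((a.wt (C := z₃ ^ 2) (by positivity) (fun z hz => w0 z hz.1) fun z hz => ?_).congr
      fun z hz θ => E_A g z0 (show z < z₃ by linarith [hz.2]))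
    ((b.wt (C := t / 2 / (C * (L * K + 4))) (by positivity)
      (fun z hz => w0 z (by linarith [hz.1])) fun z hz => gain (by positivity)
        (by linarith [hz.1])).congr fun z hz θ => E_B (show _ < z by linarith [hz.1]))).mono
          subset_rfl (fun _ _ => le_rfl) (le_of_eq (by field_simp; norm_num))
  have z1 : 1 ≤ z := by linarith [hz.1]
  have e := Real.rpow_le_rpow_of_exponent_le z1 (show (-(2 : ℕ) : ℝ) ≤ -15 / 8 by norm_num)
  rw [Real.rpow_neg (by linarith), Real.rpow_natCast] at e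
  calc (1 : ℝ) = z ^ 2 * (z ^ 2)⁻¹ := (mul_inv_cancel₀ (by positivity)).symm
    _ ≤ _ := by gcongr; linarith [hz.2]

/-- the residual of the shrinker which is cut off -/
theorem high (g : M.Geo) : ∃ A B : ℝ, 0 < B ∧ ∀ j (R Z Z' : ℝ), M.R < R → 4 * R + B ≤ Z →
    Z ≤ Z' → L2 (Icc R Z') (op2 (jet fun q => ch 2 (Z' / 4) q.1 * us M j q))
      (fun z => hv 0 z * gO 0 Z' z) (gW (wK (19 / 32) 0) 0 Z') (A / Z ^ 2) := by
  obtain ⟨K, K1, hK⟩ := sd g
  obtain ⟨η, C, η0, C0, hd⟩ := dec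
  obtain ⟨L, L1, hL⟩ := cutoff 2
  have q0 : 0 < L * K / η := by positivity
  refine ⟨64 * (C * (L * K)), 4 * (K + L * K / η), by positivity, fun j R Z Z' lo hZ w => ?_⟩
  have one := g.one.1
  have c₁ : Cyl 1 R Z' 0 := PsA.cyl0 (by linarith) (by linarith)
  obtain ⟨pK, -, pg, ph, -⟩ := pw_all c₁ le_rfl
  have pG := pw_gW c₁ one_pos (pK (19 / 32))
  have pO := ph.mul isCompact_Icc pg
  have s1 : Icc R (Z' / 4) ⊆ Icc R Z' := Icc_subset_Icc_right (by linarith)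
  have s2 : Icc (Z' / 4) Z' ⊆ Icc R Z' := Icc_subset_Icc_left (by linarith)
  have l0 : 0 < Z' / 4 := by linarith
  have b := hd (Icc (Z' / 4) Z') _ (Z' / 4) (L * K) (by linarith) Icc_subset_Ici_self
    ((div_le_iff₀' η0).1 (by linarith)) (hL (Z' / 4) (by linarith) _ _ _ _
      (Icc_subset_Icc l0.le (by linarith)) (cd_us g j)
      ((hK j).mono (fun z hz => show K ≤ z by linarith [hz.1]) le_rfl))
    (PsA.cont_jet (cd_mul (cd_ch _ _) (cd_us g j)))
  rw [← Icc_union_Icc_eq_Icc (b := Z' / 4) (by linarith) (by linarith)]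
  refine (l2_union (l2_zero (fun z hz => (pO.pos (s1 hz)).le) (fun z hz => (pG.pos (s1 hz)).le)
    fun z hz θ => ?_) (l2_of_le b (C := 64 / Z ^ 2) (by positivity)
      (fun z hz => (pO.pos (s2 hz)).le) (fun z hz => (pG.pos (s2 hz)).le) fun z hz =>
        whigh (by linarith [hz.1]) (by linarith) (by linarith [hz.1]))).mono subset_rfl
          (fun _ _ => le_rfl) (fun _ _ => le_rfl) (le_of_eq (by ring))
  have e : (fun q : ℝ × ℝ => ch 2 (Z' / 4) q.1 * us M j q) =ᶠ[𝓝 (z, θ)] us M j := by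
    filter_upwards [continuous_fst.tendsto (z, θ)
      (gt_mem_nhds (show z < Z' / 2 by linarith [hz.2]))] with q (b : q.1 < _)
    simp [ch, cut_zero (a := 2) (z := q.1 / (Z' / 4)) ((div_le_iff₀ l0).2 (by linarith))]
  simpa only [op2, jet_congr e] using op2_us g j (y := (z, θ)) (by linarith [hz.1])

theorem jet_us (g : M.Geo) (G : GD M k) {Z : ℝ} (z0 : 0 < z₃) (hZ : 4 * z₃ ≤ Z) (i : Fin 6) :
    rj 0 y.1 1 0 i + jet (G.bt z₃ j 0) i y + jet (usf M z₃ j Z) i y =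
      ![2, 0, 0, 0, 0, 0] i + jet (fun q => ch 2 (Z / 4) q.1 * us M j q) i y := by
  have e1 : G.bt z₃ j 0 = fun q => ch 1 z₃ q.1 * us M j q := funext fun q => by
    simp [bt, ch, us]
  have e2 : (fun q => ch 1 z₃ q.1 * us M j q + usf M z₃ j Z q) =
      fun q => ch 2 (Z / 4) q.1 * us M j q := funext fun q => by
    simp only [ch, usf, us, div_div_eq_mul_div, mul_comm q.1]
    rcases le_total q.1 (Z / 2) with e | e
    · rw [cut_zero (a := 2) ((div_le_iff₀ (by linarith)).2 (by linarith))]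
      push_cast; ring
    · rw [cut_one (a := 1) ((le_div_iff₀ (by linarith)).2 (by linarith))]
      push_cast; ring
  have d2 : ContDiff ℝ ∞ (usf M z₃ j Z) :=
    cd_mul (ζ := fun z => cut 1 (z / z₃) * (1 - cut 2 (4 * z / Z)))
      (((cd_cut 1).comp (contDiff_id.div_const _)).mul (contDiff_const.sub
        ((cd_cut 2).comp ((contDiff_const.mul contDiff_id).div_const _)))) (cd_us g j)
  rw [e1, ← e2, jet_add ((cd_mul (cd_ch _ _) (cd_us g j)).contDiffAt.of_le (by norm_cast))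
    (d2.contDiffAt.of_le (by norm_cast)), rj_eq]
  ring

theorem chn_abs (G : GD M k) (z : ℝ) : |1 - G.chn z| ≤ 1 := by
  have := cut_mem (G.ρ + 5) z
  rw [chn_eq, sub_sub_cancel, abs_of_nonneg this.1]
  exact this.2

end Fc

open Fc

/-- **FARC** -/
theorem farc : FARC := by
  intro M g
  obtain ⟨z₁, h⟩ := low g
  refine ⟨z₁, fun k G hz o => ?_⟩
  have lo := o.ld.lo
  have hi := o.ld.hi
  have one := g.one.1
  filter_upwards [ev_ad, ev_cs (ev₀_r (f := fun _ => 1) (by simp)),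
    ev_c (Q := fun q j c => ‖c‖ * (3 * q.z₃) ^ 2 ≤ 1 ∧ Le (Icc G.z₀ (3 * q.z₃)) (E G q.z₃ j c)
      (fun z => z ^ (-15 / 8 : ℝ)) (q.r ^ 2 / 18)) (ev₀_iff.2 (.of_forall fun _ =>
        eventually_mem_nhdsWithin.mono fun r (hr : 0 < r) =>
          (h k G hz o (r ^ 2 / 18) (by positivity)).mono fun _ h => .of_forall fun _ => h)),
    ev_cs (ev₀_z fun _ r => 128 + ((r ^ 2 / 18432) ^ 4)⁻¹ + G.ρ),
    ev_cs (ev₀_J fun _ r _ => 128 + ((r ^ 2 / 18432) ^ 4)⁻¹),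
    ev_Z fun q _ _ => 3 * q.z₃ + 1] with p a hr hA h3 hJ hZ j
  have r0 := hr.1
  obtain ⟨δ, eδ⟩ : ∃ δ, δ = p.r ^ 2 / 18432 := ⟨_, rfl⟩
  have δ0 : 0 < δ := by rw [eδ]; positivity
  rw [← eδ] at h3 hJ
  have i0 : 0 < (δ ^ 4)⁻¹ := by positivity
  have w := (a.hW j).1
  have hJ' : (p.J₀ : ℝ) ≤ p.J := by exact_mod_cast a.hJ
  have c₁ : Cyl 1 G.z₀ (p.W j) (p.c j) := cyl_of_dsc' (a.hc j) (by linarith) (by linarith)
    (by linarith) (one_le_pow₀ (by linarith))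
  have c₂ : Cyl (128 + (δ ^ 4)⁻¹) (3 * p.z₃) (p.W j) (p.c j) := cyl_of_dsc' (a.hc j) (by linarith)
    (by linarith) (by linarith) (by nlinarith)
  obtain ⟨pK, pw, pg, -⟩ := pw_all c₁ le_rfl
  have pG := pw_gW c₁ one_pos (pK (31 / 16))
  have mZ : p.W j ∈ Icc G.z₀ (p.W j) := right_mem_Icc.2 (by linarith)
  have s1 : Icc G.z₀ (3 * p.z₃) ⊆ Icc G.z₀ (p.W j) := Icc_subset_Icc_right (by linarith)
  have s2 : Icc (3 * p.z₃) (p.W j) ⊆ Icc G.z₀ (p.W j) := Icc_subset_Icc_left (by linarith)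
  unfold qN n3c
  refine yn_toW (φ := fun z => 1 - G.chn z) (F := Ec p.z₃ p.m (0, bs p.c p.v) j) mZ.1 pg pG
    (mul_pos (c₁.z0 mZ) (pw.pos mZ)) (mul_pos (c₁.z0 mZ) ((pK _).pos mZ))
    (chn_abs G) (L2.congr (F := E G p.z₃ j (p.c j)) ?_ fun z _ θ => by
      simp only [Ec_bs, E]
      exact congrArg (vJ 1 z) (funext fun i => add_zero _))
  rw [← Icc_union_Icc_eq_Icc (b := 3 * p.z₃) (by linarith) (by linarith)]
  refine (l2_union (l2_of_le (hA j).2 (C := 9) (by norm_num) (fun z hz => (pg.pos (s1 hz)).le)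
    (fun z hz => (pG.pos (s1 hz)).le) fun z hz => wlow (by linarith [hz.1]) (le_trans ?_ (hA j).1))
    ((far c₂ (by linarith) δ0 (by rw [mul_add, mul_inv_cancel₀ (by positivity)]; simp; positivity)
      fun z hz => (pG.pos (s2 hz)).le).congr fun z hz θ => E_C (by linarith)
        (show _ < z by linarith [hz.1]) (show _ < z by linarith [hz.1]))).mono subset_rfl
          (fun _ _ => le_rfl) (fun _ _ => le_rfl) (le_of_eq (by rw [eδ]; ring))
  have := G.hz.le.trans hz.1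
  gcongr
  exact hz.2

/-- **FARE** -/
theorem fare (usv : USV) : FARE := by
  intro M g
  obtain ⟨z₁, h⟩ := usv M g
  obtain ⟨A, B, B0, hA⟩ := high g
  refine ⟨z₁, fun k G hz o => ?_⟩
  have lo := o.ld.lo
  have one := g.one.1
  filter_upwards [h k G hz o, ev_ad, ev_cs (ev₀_K 1), ev_cs (ev₀_z fun _ _ => 1),
    ev_K₂ fun q _ => A * q.K, ev_Z fun q _ _ => 4 * q.z₃ + 4 * G.z₀ + B]
    with p hu a k1 h3 k2 hZ c0 j
  have w := (a.hW j).1
  have e0 : p.c j = 0 := congrFun c0 j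
  have c₁ : Cyl 1 G.z₀ (p.W j) 0 := PsA.cyl0 (by linarith) (by linarith)
  obtain ⟨pK, pw, pg, ph, -⟩ := pw_all c₁ le_rfl
  have mZ : p.W j ∈ Icc G.z₀ (p.W j) := right_mem_Icc.2 (by linarith)
  rw [e0]
  unfold qH n3c
  refine yn_toW (φ := fun z => 1 - G.chn z) (F := Ec p.z₃ p.m (G.US p.W p.z₃, bs p.c p.v) j)
    mZ.1 (ph.mul isCompact_Icc pg) (pw_gW c₁ one_pos (pK (19 / 32)))
    (mul_pos (ph.pos mZ) (mul_pos (c₁.z0 mZ) (pw.pos mZ)))
    (mul_pos (c₁.z0 mZ) ((pK _).pos mZ)) (chn_abs G)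
    (((hA j G.z₀ p.Z (p.W j) (by linarith) (by linarith) w).mono subset_rfl (fun _ _ => le_rfl)
      (fun _ _ => le_rfl) (div_le_div_of_nonneg_right ((le_div_iff₀ (by linarith)).2 k2)
        (sq_nonneg _))).congr fun z hz θ => ?_)
  rw [Ec_bs, e0]
  refine congrArg (vJ 1 z) (funext fun i => ?_)
  rw [(hu j).1 i z hz]
  exact jet_us g G (by linarith) (by linarith) i

end Vale.Agent.P218I
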