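import Vale.Agent.P218I.Bas
import Vale.Agent.P218I.Cd
import Vale.Agent.P218L.Coef
import Vale.Agent.P218L.Ps
import Vale.Agent.P218W.NLc

/-!
# P218, row I.FARC: the residual of a profile on the three zones of a cylindrical end
-/

open Set Filter Topology
open scoped ContDiff Real

noncomputable section

namespace Vale.Agent.P218I

open Vale.Agent.P218T Vale.Agent.P218L Vale.Agent.P218M
open Vale.Agent.P218N (rj vv vD)
open Vale.Agent.P218W (W Le L2 PW jet toW cl cI WI YE yn yn_le_iff le_z le_zero ret_cl cst_Icc VV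
  VV_an VV_ev p0 pn co co_z)

namespace Fc

section
variable {s t : Set ℝ} {F : ℝ × ℝ → ℂ} {v o n : ℝ → ℝ} {M N : ℝ}

theorem le_union (h : Le s F v M) (k : Le t F v N) : Le (s ∪ t) F v (M + N) := by
  obtain ⟨a, ha, e⟩ := h.ex
  obtain ⟨b, hb, e'⟩ := k.ex
  refine ⟨fun z hz => hz.elim (h.adm z) (k.adm z), fun z hz => hz.elim (h.w0 z) (k.w0 z), _,
    ha.add hb, fun j z hz => ?_⟩
  rcases hz with hz | hz
  · nlinarith [e j z hz, mul_nonneg (hb.a0 j) (h.w0 z hz)]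
  · nlinarith [e' j z hz, mul_nonneg (ha.a0 j) (k.w0 z hz)]

theorem l2_union (h : L2 s F o n M) (k : L2 t F o n N) : L2 (s ∪ t) F o n (M + N) :=
  ⟨le_union h.1 k.1, le_union h.2 k.2⟩

theorem l2_zero (o0 : ∀ z ∈ s, 0 ≤ o z) (n0 : ∀ z ∈ s, 0 ≤ n z)
    (e : ∀ z ∈ s, ∀ θ, F (z, θ) = 0) : L2 s F o n 0 :=
  L2.congr (F := fun _ => 0) ⟨(le_zero o0).p0, (le_zero n0).pn⟩ e

theorem l2_of_le {C : ℝ} (h : Le s F v M) (hC : 0 ≤ C) (o0 : ∀ z ∈ s, 0 ≤ o z)
    (n0 : ∀ z ∈ s, 0 ≤ n z) (e : ∀ z ∈ s, v z ≤ C * o z ∧ v z ≤ C * n z) : L2 s F o n (C * M) :=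
  ⟨(h.wt hC o0 fun z hz => (e z hz).1).p0, (h.wt hC n0 fun z hz => (e z hz).2).pn⟩

/-- the datum of the far zone -/
theorem yn_toW {R Z β₀ β₁ : ℝ} {φ : ℝ → ℝ} (h : R ≤ Z) (p₀ : PW (Icc R Z) o) (p : PW (Icc R Z) n)
    (b₀ : 0 < β₀) (b₁ : 0 < β₁) (hφ : ∀ z, |φ z| ≤ 1) (l : L2 (Icc R Z) F o n M) :
    yn o n β₀ β₁ ((toW (Icc R Z) (cl R Z) fun y => φ y.1 * F y, 0) : YE R Z) ≤ M := by
  have M0 := l.1.M0
  have k : ∀ {v : ℝ → ℝ}, PW (Icc R Z) v → ∀ z ∈ Icc R Z, ‖(φ z : ℂ)‖ * v z ≤ 1 * v z :=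
    fun q z hz => mul_le_mul_of_nonneg_right (by simpa using hφ z) (q.pos hz).le
  have l' := l.mulz (φ := fun z => φ z) zero_le_one l.1.w0 l.2.w0 (k p₀) (k p)
  rw [one_mul] at l'
  refine (yn_le_iff h p₀ p b₀ b₁).2 ⟨?_, fun i => ?_⟩
  · dsimp only
    unfold toW
    split_ifs with e
    · exact l'.congr e.choose_spec
    · exact (l2_zero l.1.w0 l.2.w0 fun _ _ _ => rfl).mono subset_rfl (fun _ _ => le_rfl)
        (fun _ _ => le_rfl) M0
  · fin_cases i <;> simp <;> positivity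

end

/-- the jet of a function of `z` -/
def jz (ζ : ℝ → ℝ) (z : ℝ) : Fin 6 → ℂ :=
  ![ζ z, 0, 0, (deriv ζ z : ℝ), 0, (deriv (deriv ζ) z : ℝ)]

theorem lj_jz {ζ : ℝ → ℝ} (h : ContDiff ℝ ∞ ζ) (y : ℝ × ℝ) :
    Frm.LJ (fun q => (ζ q.1 : ℂ)) y (jz ζ y.1) :=
  have h1 := contDiff_infty_iff_deriv.1 h
  Frm.lj_z (ζ := fun z => (ζ z : ℂ)) (ζ₁ := fun z => (deriv ζ z : ℝ))
    (.of_forall fun z => (h1.1 z).hasDerivAt.ofReal_comp)
    ((contDiff_infty_iff_deriv.1 h1.2).1 _).hasDerivAt.ofReal_comp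

theorem cont_jz {ζ : ℝ → ℝ} (h : ContDiff ℝ ∞ ζ) (i : Fin 6) : Continuous fun z => jz ζ z i := by
  have h1 := (contDiff_infty_iff_deriv.1 h).2
  have h2 := (contDiff_infty_iff_deriv.1 h1).2
  fin_cases i
  exacts [Complex.continuous_ofReal.comp h.continuous, continuous_const, continuous_const,
    Complex.continuous_ofReal.comp h1.continuous, continuous_const,
    Complex.continuous_ofReal.comp h2.continuous]

/-- a cut-off function at the scale `l` -/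
def ch (a l z : ℝ) : ℝ := 1 - cut a (z / l)

theorem cd_ch (a l : ℝ) : ContDiff ℝ ∞ (ch a l) :=
  contDiff_const.sub ((cd_cut a).comp (contDiff_id.div_const l))

theorem ch_bd (a : ℝ) : ∃ L : ℝ, 1 ≤ L ∧ ∀ l, 1 ≤ l → ∀ z ∈ Icc 0 (4 * l),
    (∀ i, ‖jz (ch a l) z i‖ ≤ L) ∧ ‖z * jz (ch a l) z 3‖ ≤ 4 * L := by
  have h1 := contDiff_infty_iff_deriv.1 (cd_cut a)
  have h2 := contDiff_infty_iff_deriv.1 h1.2
  obtain ⟨A, hA⟩ := isCompact_Icc.exists_bound_of_continuousOn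
    (h1.2.continuous.continuousOn (s := Icc 0 4))
  obtain ⟨B, hB⟩ := isCompact_Icc.exists_bound_of_continuousOn
    (h2.2.continuous.continuousOn (s := Icc 0 4))
  refine ⟨max 1 (max A B), le_max_left _ _, fun l hl z hz => ?_⟩
  have l0 : 0 < l := by linarith
  have d : ∀ {g : ℝ → ℝ}, Differentiable ℝ g → ∀ z,
      HasDerivAt (fun z => g (z / l)) (deriv g (z / l) / l) z := fun hg z => by
    have := (hg (z / l)).hasDerivAt.comp z ((hasDerivAt_id z).div_const l)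
    rw [mul_one_div] at this
    exact this
  have e1 : deriv (ch a l) = fun z => -(deriv (cut a) (z / l) / l) :=
    funext fun z => ((d h1.1 z).const_sub 1).deriv
  have e2 : deriv (deriv (ch a l)) z = -(deriv (deriv (cut a)) (z / l) / l / l) :=
    e1 ▸ ((d h2.1 z).div_const l).neg.deriv
  have m : z / l ∈ Icc (0 : ℝ) 4 := ⟨div_nonneg hz.1 l0.le, (div_le_iff₀ l0).2 hz.2⟩
  have a1 : |deriv (cut a) (z / l)| ≤ max 1 (max A B) := (hA _ m).trans (by simp)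
  have a2 : |deriv (deriv (cut a)) (z / l)| ≤ max 1 (max A B) := (hB _ m).trans (by simp)
  have L1 : 1 ≤ max 1 (max A B) := le_max_left _ _
  generalize max 1 (max A B) = L at *
  refine ⟨fun i => ?_, ?_⟩
  · have := cut_mem a (z / l)
    fin_cases i <;> simp only [jz, Fin.reduceFinMk, Matrix.cons_val, Complex.norm_real, norm_zero,
      Real.norm_eq_abs, e2] <;> try linarith
    · exact abs_le.2 ⟨by unfold ch; linarith, by unfold ch; linarith⟩
    · rw [e1, abs_neg, abs_div, abs_of_pos l0]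
      exact (div_le_self (abs_nonneg _) hl).trans a1
    · rw [abs_neg, abs_div, abs_div, abs_of_pos l0]
      exact ((div_le_self (by positivity) hl).trans (div_le_self (abs_nonneg _) hl)).trans a2
  · simp only [jz, Matrix.cons_val, e1, norm_mul, Complex.norm_real, Real.norm_eq_abs, abs_neg,
      abs_div, abs_of_pos l0, abs_of_nonneg hz.1]
    rw [← mul_div_assoc, mul_div_right_comm]
    exact mul_le_mul m.2 a1 (abs_nonneg _) (by norm_num)

/-- bounds of a jet -/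
def JB (s : Set ℝ) (J : Fin 6 → ℝ × ℝ → ℂ) (v : ℝ → ℝ) (K : ℝ) : Prop :=
  (∀ i, Le s (J i) v K) ∧ Le s (fun y => y.1 * J 3 y) v K

theorem JB.mono {s t : Set ℝ} {J : Fin 6 → ℝ × ℝ → ℂ} {v : ℝ → ℝ} {K K' : ℝ} (h : JB s J v K)
    (ht : t ⊆ s) (hK : K ≤ K') : JB t J v K' :=
  ⟨fun i => (h.1 i).mono ht (fun _ _ => le_rfl) hK, h.2.mono ht (fun _ _ => le_rfl) hK⟩

theorem cutoff (a : ℝ) : ∃ L : ℝ, 1 ≤ L ∧ ∀ l, 1 ≤ l → ∀ (s : Set ℝ) (u : ℝ × ℝ → ℂ) v K,
    s ⊆ Icc 0 (4 * l) → ContDiff ℝ ∞ u → JB s (jet u) v K →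
      JB s (jet fun q => ch a l q.1 * u q) v (L * K) := by
  obtain ⟨L, L1, hL⟩ := ch_bd a
  refine ⟨5 * L, by linarith, fun l hl s u v K hs hu h => ?_⟩
  have w0 := h.2.w0
  have K0 := h.2.M0
  have LK : 0 ≤ L * K := by positivity
  have m : ∀ i j, Le s (fun y => jz (ch a l) y.1 i * jet u j y) v (L * K) := fun i j =>
    (h.1 j).mulz (φ := fun z => jz (ch a l) z i) (by linarith) w0 fun z hz =>
      mul_le_mul_of_nonneg_right ((hL l hl z (hs hz)).1 i) (w0 z hz)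
  have e : ∀ i y, jet (fun q => ch a l q.1 * u q) i y =
      Frm.jm (jz (ch a l) y.1) (fun i => jet u i y) i := fun i y =>
    ((lj_jz (cd_ch a l) y).mul (Frm.lj (hu.contDiffAt.of_le (by norm_cast)))).jet i
  have up : ∀ {F G : ℝ × ℝ → ℂ} {N}, Le s F v N → N ≤ 5 * L * K → (∀ y, G y = F y) →
      Le s G v (5 * L * K) := fun k l e =>
    (k.mono subset_rfl (fun _ _ => le_rfl) l).congr fun _ _ _ => e _
  refine ⟨fun i => ?_, up (((h.1 0).mulz (φ := fun z => z * jz (ch a l) z 3) (C := 4 * L)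
    (by linarith) w0 fun z hz => mul_le_mul_of_nonneg_right (hL l hl z (hs hz)).2 (w0 z hz)).add
      (h.2.mulz (φ := fun z => jz (ch a l) z 0) (C := L) (by linarith) w0 fun z hz =>
        mul_le_mul_of_nonneg_right ((hL l hl z (hs hz)).1 0) (w0 z hz))) (by linarith) fun y => by
          rw [e]; simp only [Frm.jm, Matrix.cons_val]; ring⟩
  fin_cases i
  · exact up (m 0 0) (by linarith) fun y => by rw [e]; simp [Frm.jm]
  · exact up (m 0 1) (by linarith) fun y => by rw [e]; simp [Frm.jm, jz]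
  · exact up (m 0 2) (by linarith) fun y => by rw [e]; simp [Frm.jm, jz]
  · exact up ((m 3 0).add (m 0 3)) (by linarith) fun y => by rw [e]; simp [Frm.jm]
  · exact up ((m 3 1).add (m 0 4)) (by linarith) fun y => by rw [e]; simp [Frm.jm, jz]
  · exact up ((((m 5 0).add (m 3 3)).add (m 3 3)).add (m 0 5)) (by linarith) fun y => by
      rw [e]; simp [Frm.jm]; ring

/-- the operator at the jet `2 + J` -/
def op2 (J : Fin 6 → ℝ × ℝ → ℂ) (y : ℝ × ℝ) : ℂ := vJ 1 y.1 fun i => ![2, 0, 0, 0, 0, 0] i + J i y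

/-- the rate of decay -/
abbrev wd (z : ℝ) : ℝ := z ^ (-31 / 16 : ℝ)

theorem small {s : Set ℝ} {F : ℝ × ℝ → ℂ} {R K η : ℝ} (h : Le s F wd K) (R1 : 1 ≤ R)
    (hs : s ⊆ Ici R) (hK : K ≤ η * R) : Le s F (fun _ => 1) η := by
  have R0 : 0 < R := by linarith
  refine (h.wt (C := R⁻¹) (by positivity) (by simp) fun z hz => ?_).mono subset_rfl
    (fun _ _ => le_rfl) ((inv_mul_le_iff₀ R0).2 (by linarith))
  have := Real.rpow_le_rpow_of_exponent_le (R1.trans (hs hz)) (show (-31 / 16 : ℝ) ≤ -1 by norm_num)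
  rw [Real.rpow_neg_one] at this
  exact (this.trans (inv_anti₀ R0 (hs hz))).trans_eq (mul_one _).symm

/-- decaying jets have decaying residuals -/
theorem dec : ∃ η C : ℝ, 0 < η ∧ 0 < C ∧ ∀ (s : Set ℝ) (J : Fin 6 → ℝ × ℝ → ℂ) (R K : ℝ), 1 ≤ R →
    s ⊆ Ici R → K ≤ η * R → JB s J wd K → (∀ i, Continuous (J i)) → Le s (op2 J) wd (C * K) := by
  obtain ⟨η, C, η0, C0, h⟩ := coef
  refine ⟨η, 3 + 6 * (C * η), η0, by positivity, fun s J R K R1 hs hK hJ c => ?_⟩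
  obtain ⟨a, m, h1, h2⟩ := h s J _ η K le_rfl (fun i => small (hJ.1 i) R1 hs hK) hJ.1
    fun i => (c i).continuousOn
  refine (((((((hJ.1 5).sub (hJ.2.cmul (1 / 2))).add (hJ.1 0)).add ((hJ.1 2).cmul (1 / 2))).add
    (Le.sum Finset.univ hJ.2.w0 fun i _ => (h1 i).2.1.mul1 (hJ.1 i))).mono subset_rfl
      (fun _ _ => le_rfl) (le_of_eq ?_))).congr fun z hz θ => ?_
  · simp; ring
  · rw [op2, (h2 (z, θ) hz).2]; ring

/-- continuity at a solution -/
theorem near : ∃ η : ℝ, 0 < η ∧ ∀ (a b : ℝ) (X : Fin 6 → ℝ × ℝ → ℂ) (γ : Fin 6 → ℝ → ℂ), a ≤ b →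
    (∀ i, Continuous (X i)) → (∀ i, Continuous (γ i)) →
    (∀ i, Le (Icc a b) (X i) (fun _ => 1) η) → (∀ z ∈ Icc a b, ∀ θ, op2 X (z, θ) = 0) →
    ∀ ε, 0 < ε → ∀ᶠ c in 𝓝 (0 : ℂ),
      Le (Icc a b) (op2 fun i y => X i y + c * γ i y.1) (fun _ => 1) ε := by
  obtain ⟨C, C0, η, η0, h⟩ := Coef.sm_dD
  refine ⟨min η (C + 1)⁻¹, by positivity, fun a b X γ ab cX cγ hX he ε ε0 => ?_⟩
  have r := ret_cl ab
  have t1 : min η (C + 1)⁻¹ * (C + 1) ≤ 1 :=
    (mul_le_mul_of_nonneg_right (min_le_right _ _) (by positivity)).trans_eq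
      (inv_mul_cancel₀ (by positivity))
  have t0 : 0 < min η (C + 1)⁻¹ := by positivity
  have hD := (h _ X _ (min_le_left _ _) hX fun i => (cX i).continuousOn).1 _ _ hX
  generalize min η (C + 1)⁻¹ = t at *
  obtain ⟨x, ex⟩ : ∃ x : Fin 6 → WI a b, ∀ i, ∀ z ∈ Icc a b, ∀ θ,
      x i (z, θ) = ![2, 0, 0, 0, 0, 0] i + X i (z, θ) :=
    ⟨fun i => toW _ _ fun y => ![2, 0, 0, 0, 0, 0] i + X i y, fun i z hz θ => r.toW_apply
      (continuous_const.add (cX i)).continuousOn ((le_z (φ := fun _ => ![2, 0, 0, 0, 0, 0] i)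
        (norm_nonneg _) (by simp) fun _ _ => (mul_one _).ge).add (hX i)) hz θ⟩
  have u₁ : IsUnit (x 0) := r.isUnit_of_le (ρ := fun _ => 2) two_pos (by simp)
    (((hX 0).wt (C := 1 / 2) (by norm_num) (by simp) (by simp)).congr fun z hz θ => by
      simp [ex 0 z hz]) (by nlinarith)
  have u₂ : IsUnit (vD (x 0) (x 3) (x 1)) := r.isUnit_of_le (ρ := fun _ => 16) one_pos (by simp)
    ((hD.wt (C := 1 / 16) (by norm_num) (by simp) (by simp)).congr fun z hz θ => by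
      have := Coef.vD_eq fun i => X i (z, θ)
      simp only [vD] at this
      simp only [vD, W.add_apply, W.mul_apply, W.pow_apply, W.ofNat_apply, ex _ z hz]
      simp only [Matrix.cons_val, zero_add]
      linear_combination this) (by nlinarith)
  let V : ℂ → Fin 6 → WI a b := fun c => x + c • fun i => cI a b (γ i)
  have cV : Tendsto V (𝓝 0) (𝓝 x) :=
    (by fun_prop : Continuous V).tendsto' 0 x (by simp [V])
  have e0 : VV a b x = 0 := r.ext fun z hz θ => by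
    rw [VV_ev ab u₁ u₂ hz]
    simp only [ex _ z hz]
    exact he z hz θ
  have k1 := (((continuous_apply 0).tendsto x).comp cV).eventually (Units.isOpen.mem_nhds u₁)
  have k2 := ((Continuous.tendsto (f := fun V : Fin 6 → WI a b => vD (V 0) (V 3) (V 1))
    (by unfold vD; fun_prop) x).comp cV).eventually (Units.isOpen.mem_nhds u₂)
  have k3 := (((VV_an u₁ u₂).continuousAt.tendsto.comp cV).norm).eventually_le_const
    (show ‖VV a b x‖ < ε by simpa [e0] using ε0)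
  filter_upwards [k1, k2, k3] with c k1 k2 k3
  refine (((VV a b (V c)).le_on _).mono subset_rfl (fun _ _ => le_rfl) k3).congr fun z hz θ => ?_
  rw [VV_ev ab k1 k2 hz]
  simp only [V, Pi.add_apply, Pi.smul_apply, W.add_apply, W.smul_apply, ex _ z hz,
    cst_Icc ab (cγ _).continuousOn hz, op2, vJ, add_assoc]

/-- the residual of the profile `ρ` -/
theorem far {Y R Z δ : ℝ} {c : ℂ} {n : ℝ → ℝ} (h : Cyl Y R Z c) (hY : 128 ≤ Y) (δ0 : 0 < δ)
    (hδ : 1 ≤ δ ^ 4 * Y) (n0 : ∀ z ∈ Icc R Z, 0 ≤ n z) :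
    L2 (Icc R Z) (fun y => vJ 1 y.1 (rj c y.1 1 0)) (gO c Z) n (4 * (2304 * δ)) := by
  have Y0 : 0 < Y := by linarith
  have g0 := fun z hz => (h.wtc Y0 (z := z) hz).gO0.le
  refine ⟨(le_z (φ := fun z => vJ 1 z (rj c z 1 0)) (by positivity) g0 fun z hz => ?_).p0,
    ((le_zero n0).mono subset_rfl (fun _ _ => le_rfl) (by positivity)).congr fun z _ θ => by
      simp only [pn, co_z fun z => vJ 1 z (rj c z 1 0), if_true, sub_self]⟩
  have z0 := h.z0 hz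
  have x0 := h.re0 Y0 hz
  have xn := Complex.re_le_norm (rh c z)
  have tip := h.tip z hz
  have Z1 : 1 ≤ Z ^ 2 := one_le_pow₀ (by linarith [h.R0, h.RZ])
  have c0 := norm_nonneg c
  have c8 : ‖c‖ ≤ 8 := by nlinarith [h.cZ]
  have cz : ‖c‖ * z ^ 2 ≤ 8 := le_trans (by gcongr; exact hz.2) h.cZ
  have hp : ‖(2 * c * z) ^ 2‖ * z ^ 2 ≤ 256 := by
    have : ‖(2 * c * z) ^ 2‖ * z ^ 2 = 4 * (‖c‖ * z ^ 2) ^ 2 := by
      simp [abs_of_pos z0]; ring
    rw [this]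
    nlinarith [mul_nonneg c0 (sq_nonneg z)]
  have hp' : ‖(2 * c * z) ^ 2‖ ≤ 2 * (rh c z).re := by
    refine le_of_mul_le_mul_right ?_ (pow_pos z0 2)
    linarith
  have lo : 2 * (rh c z).re ≤ ‖4 * rh c z + (2 * c * z) ^ 2‖ := by
    have := norm_sub_le (4 * rh c z + (2 * c * z) ^ 2) ((2 * c * z) ^ 2)
    rw [add_sub_cancel_right, norm_mul, Complex.norm_ofNat] at this
    linarith
  have n1 : rh c z ≠ 0 := norm_pos_iff.1 (x0.trans_le xn)
  have n2 : 4 * rh c z + (2 * c * z) ^ 2 ≠ 0 := norm_pos_iff.1 (lt_of_lt_of_le (by linarith) lo)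
  have e : vJ 1 z (rj c z 1 0) =
      -((2 * c * z) ^ 2 * (2 * c + 2) / (4 * rh c z + (2 * c * z) ^ 2)) := by
    have e1 : 2 + c * (z ^ 2 - 2) = rh c z := rfl
    have e2 : vD (rh c z) (2 * c * z) 0 = rh c z * (4 * rh c z + (2 * c * z) ^ 2) := by
      unfold vD; ring
    simp only [vJ, vv, rj, Matrix.cons_val, mul_one, one_pow, mul_zero, add_zero, e1, e2]
    generalize 4 * rh c z + (2 * c * z) ^ 2 = D at n2
    rw [zero_pow two_ne_zero, zero_mul, add_zero, mul_assoc (rh c z), mul_div_mul_left _ _ n1]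
    linear_combination -e1
  have b : ‖2 * c + 2‖ ≤ 18 := (norm_add_le _ _).trans (by simp; linarith)
  have k : (z ^ 2 * (rh c z).re)⁻¹ ≤ δ * (wO c z * ((rh c z).re)⁻¹) := by
    rw [wO]
    generalize (rh c z).re = x at *
    obtain ⟨a, rfl⟩ : ∃ a, z = Real.exp a := ⟨_, (Real.exp_log z0).symm⟩
    obtain ⟨b, rfl⟩ : ∃ a, x = Real.exp a := ⟨_, (Real.exp_log x0).symm⟩
    obtain ⟨d, rfl⟩ : ∃ a, δ = Real.exp a := ⟨_, (Real.exp_log δ0).symm⟩
    obtain ⟨t, rfl⟩ : ∃ a, Y = Real.exp a := ⟨_, (Real.exp_log Y0).symm⟩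
    rw [← Real.exp_zero] at hδ
    simp only [← Real.exp_nat_mul, ← Real.exp_mul, ← Real.exp_add, ← Real.exp_neg,
      Real.exp_le_exp, Nat.cast_ofNat] at hδ tip ⊢
    linarith
  have k' : wO c z * ((rh c z).re)⁻¹ ≤ gO c Z z :=
    mul_le_mul_of_nonneg_left (le_add_of_nonneg_right (mul_pos (pow_pos z0 2) (ly_pos Z z)).le)
      (h.wtc Y0 hz).wO0.le
  rw [e, norm_neg, norm_div, norm_mul]
  calc _ ≤ 256 / z ^ 2 * 18 / (2 * (rh c z).re) := by
        gcongr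
        exact (le_div_iff₀ (pow_pos z0 2)).2 hp
    _ = 2304 * (z ^ 2 * (rh c z).re)⁻¹ := by field_simp; norm_num
    _ ≤ 2304 * (δ * gO c Z z) := by gcongr; exact k.trans (by gcongr)
    _ = _ := by ring

/-- the natural weights where the profile is close to the cylinder -/
theorem wlow {c : ℂ} {Z z : ℝ} (z1 : 1 ≤ z) (h : ‖c‖ * z ^ 2 ≤ 1) :
    z ^ (-15 / 8 : ℝ) ≤ 9 * gO c Z z ∧ z ^ (-15 / 8 : ℝ) ≤ 9 * gW (wK (31 / 16) c) c Z z := by
  have z0 : 0 < z := by linarith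
  have e : rh c z - 2 = c * ((z ^ 2 - 2 : ℝ) : ℂ) := by simp [rh]
  have h1 : ‖rh c z - 2‖ ≤ 1 := by
    rw [e, norm_mul, Complex.norm_real]
    exact le_trans (mul_le_mul_of_nonneg_left (abs_le.2 ⟨by nlinarith, by linarith⟩)
      (norm_nonneg c)) h
  have h2 := abs_le.1 ((Complex.abs_re_le_norm _).trans h1)
  simp only [Complex.sub_re, Complex.re_ofNat] at h2
  have h3 : ‖rh c z‖ ≤ 3 := by
    have := norm_add_le (rh c z - 2) 2
    rw [sub_add_cancel, Complex.norm_ofNat] at this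
    linarith
  have x1 : 1 ≤ (rh c z).re := by linarith
  have xn := Complex.re_le_norm (rh c z)
  have L0 := (mul_pos (pow_pos z0 2) (ly_pos Z z)).le
  have a0 := Real.rpow_pos_of_pos z0 (-15 / 8)
  constructor
  · have a := Real.rpow_le_rpow_of_exponent_le z1 (show (-15 / 8 : ℝ) ≤ -3 / 2 by norm_num)
    have b := Real.one_le_rpow x1 (show (0 : ℝ) ≤ 1 / 4 by norm_num)
    have d : 1 / 9 ≤ ((rh c z).re)⁻¹ := by
      rw [one_div]; exact inv_anti₀ (by linarith) (by linarith)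
    calc _ = 9 * (z ^ (-15 / 8 : ℝ) * 1 * (1 / 9 + 0)) := by ring
      _ ≤ _ := by unfold gO wO; gcongr
  · have b := Real.one_le_rpow (x1.trans xn) (show (0 : ℝ) ≤ 31 / 16 by norm_num)
    have d : 1 / 9 ≤ sg c z := by
      rw [sg_eq, le_div_iff₀ (pow_pos (by linarith) 2)]; nlinarith
    calc _ = 9 * (z ^ (-15 / 8 : ℝ) * 1 * (1 / 9 + 0)) := by ring
      _ ≤ _ := by
        unfold gW wK
        rw [show (2 - 2 * (31 / 16) : ℝ) = -15 / 8 by norm_num]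
        gcongr

/-- the heavy weights on the cylinder -/
theorem whigh {Z z A : ℝ} (z1 : 1 ≤ z) (A0 : 0 < A) (h : A ≤ 4 * z) :
    wd z ≤ 64 / A ^ 2 * (hv 0 z * gO 0 Z z) ∧ wd z ≤ 64 / A ^ 2 * gW (wK (19 / 32) 0) 0 Z z := by
  have z0 : 0 < z := by linarith
  have L0 := (mul_pos (pow_pos z0 2) (ly_pos Z z)).le
  have k : ∀ {a : ℝ}, 1 / 16 ≤ a → wd z ≤ 16 / A ^ 2 * z ^ a := fun {a} ha => by
    have e : wd z = (z ^ 2)⁻¹ * z ^ (1 / 16 : ℝ) := by
      rw [← Real.rpow_natCast, ← Real.rpow_neg z0.le, ← Real.rpow_add z0, wd]; norm_num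
    rw [e]
    refine mul_le_mul ?_ (Real.rpow_le_rpow_of_exponent_le z1 ha) (by positivity) (by positivity)
    rw [inv_eq_one_div, div_le_div_iff₀ (by positivity) (by positivity)]
    nlinarith
  have r2 : (rh 0 z).re = 2 := by simp [rh]
  have n2 : ‖rh 0 z‖ = 2 := by simp [rh]
  constructor
  · have b := Real.one_le_rpow one_le_two (show (0 : ℝ) ≤ 1 / 4 by norm_num)
    have e : z ^ (1 / 2 : ℝ) = z ^ 2 * z ^ (-3 / 2 : ℝ) := by
      rw [← Real.rpow_natCast, ← Real.rpow_add z0]; norm_num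
    refine (k (a := 1 / 2) (by norm_num)).trans ?_
    calc _ = 64 / A ^ 2 * (z ^ 2 / 2 * (z ^ (-3 / 2 : ℝ) * 1 * (2⁻¹ + 0))) := by rw [e]; ring
      _ ≤ _ := by unfold hv gO wO; rw [r2]; gcongr
  · have b := Real.one_le_rpow one_le_two (show (0 : ℝ) ≤ 19 / 32 by norm_num)
    refine (k (a := 2 - 2 * (19 / 32)) (by norm_num)).trans ?_
    calc _ = 64 / A ^ 2 * (z ^ (2 - 2 * (19 / 32) : ℝ) * 1 * (1 / 4 + 0)) := by ring
      _ ≤ _ := by unfold gW wK; rw [sg_eq, r2, n2]; gcongr <;> norm_num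

/-- the openings are small -/
theorem ev_c {ι : Type} [Fintype ι] {Q : Cs → ι → ℂ → Prop}
    (h : ∀ᶠ q in ev₀, ∀ j, ∀ᶠ c in 𝓝 (0 : ℂ), Q q j c) :
    ∀ᶠ p in ev ι, ∀ j, Q p.toCs j (p.c j) := by
  refine eventually_bind.2 (h.mono fun q hq => ev₁_iff.2 fun J => .of_forall fun K₂ => ?_)
  obtain ⟨δ, δ0, e⟩ := Metric.eventually_nhds_iff.1 (eventually_all.2 hq)
  filter_upwards [eventually_ge_atTop 3, eventually_gt_atTop (8 / δ)] with Z h1 h2 m W c v a j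
  have w := (a.hW j).1
  have k := (cyl_of_dsc' (Y := 0) (R := 2) (a.hc j) le_rfl (by linarith) (by positivity)
    (by norm_num)).cZ
  refine e (by
    rw [dist_zero_right]
    rw [div_lt_iff₀ δ0] at h2
    by_contra hc
    have : δ * W j ^ 2 ≤ ‖c j‖ * W j ^ 2 := by gcongr; exact not_lt.1 hc
    dsimp only at w k
    nlinarith [mul_le_mul_of_nonneg_left (show Z ≤ W j ^ 2 by nlinarith) δ0.le]) j

end Fc

end Vale.Agent.P218I
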