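import Vale.Agent.P218I.FardA
import Vale.Agent.P218I.Bt
import Vale.Agent.P218L.Coef

/-! Row FARD. -/

open Set Filter Topology
open scoped ContDiff Real

noncomputable section

namespace Vale.Agent.P218I

open Vale.Agent.P218T Vale.Agent.P218L Vale.Agent.P218M Vale.Agent.P218W
open Vale.Agent.P218T.Frm (jm)
open Vale.Agent.P218N (vD Ef te)

namespace Fd

variable {R Y Z N z z₃ : ℝ} {c : ℂ} {y : ℝ × ℝ}

theorem l2_adm {s F o n} (h : L2 s F o n N) : Adm s F := by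
  simpa only [p0_add_pn] using h.1.adm.add h.2.adm

theorem om_le {o₀ o₁ o₀' o₁' w w' : ℝ → ℝ} {a : ℝ} (z0 : 0 ≤ z) (h0 : o₀ z ≤ a * o₀' z)
    (h1 : o₁ z ≤ a * o₁' z) (n : ∀ i, nu w c Z i z ≤ a * nu w' c Z i z) (i : Fin 6) :
    P218W.om o₀ o₁ w c Z i z ≤ a * P218W.om o₀' o₁' w' c Z i z := by
  fin_cases i
  exacts [h0, n 1, n 2, (div_le_div_of_nonneg_right h1 z0).trans_eq (mul_div_assoc _ _ _), n 4, h1]

theorem xn_self {o₀ o₁ w : ℝ → ℝ} (h : Cyl 1 R Z c) (p : PW (Icc R Z) w) (p₀ : PW (Icc R Z) o₀)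
    (p₁ : PW (Icc R Z) o₁) (v : Fin 6 → WI R Z) : XN (Icc R Z) (P218W.om o₀ o₁ w c Z) (nu w c Z)
      (fun i => v i) (xn (Icc R Z) (P218W.om o₀ o₁ w c Z) (nu w c Z) v) :=
  ((ret_cl (by linarith [h.RZ])).xn_le_iff (pw_om h one_pos p p₀ p₁) (pw_nu h one_pos p)
    (apply_nonneg _ _)).1 le_rfl

theorem xw_h (h : Cyl 1 R Z c) (R1 : 1 ≤ R) (v : Fin 6 → WI R Z) :
    xw (wh c) c R Z v ≤ 6 * xw (wK (31 / 16) c) c R Z v := by
  obtain ⟨pK, -, pO, pH, pR, -⟩ := pw_all h le_rfl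
  have p := pw_cyl (cont_wh h) fun z hz => ((adw h R1).2 z hz).1
  have p1 := pO.add isCompact_Icc pR
  have po := pw_om h one_pos p pR p1
  have n : ∀ z ∈ Icc R Z, ∀ i, nu (wK (31 / 16) c) c Z i z ≤ 6 * nu (wh c) c Z i z :=
    fun z hz i => by
      have a := (wtk_key (h.z0 hz) (pR.pos hz) (Complex.re_le_norm _) (h.dsc z hz) (h.tip z hz)).1
      have b := (pw_nu h one_pos p i).pos hz
      rw [nu_eq (p.pos hz).le] at b ⊢
      rw [nu_eq ((pK _).pos hz).le, ← mul_assoc]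
      refine mul_le_mul_of_nonneg_right ?_ (pos_of_mul_pos_right b (p.pos hz).le).le
      rw [wh, ← mul_div_assoc, le_div_iff₀' (pH.pos hz)]
      exact a
  exact ((ret_cl (by linarith [h.RZ])).xn_le_iff po (pw_nu h one_pos p) (by positivity)).2 fun i =>
    l2_wt (xn_self h (pK _) pR p1 v i) (by norm_num) (fun z hz => ⟨((po i).pos hz).le,
      om_le (h.z0 hz).le (by linarith [pR.pos hz]) (by linarith [p1.pos hz]) (n z hz) i⟩)
        fun z hz => ⟨((pw_nu h one_pos p i).pos hz).le, n z hz i⟩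

theorem xn_pH (h : Cyl 1 R Z c) (R1 : 1 ≤ R) (v : XE R Z) :
    XN (Icc R Z) (fun i z => hv c z * omW (wh c) c Z i z) (fun i z => hv c z * nu (wh c) c Z i z)
      (fun i => v.1 i) (pH c R Z v) := fun i => by
  obtain ⟨pK, -, pO, pH, pR, -⟩ := pw_all h le_rfl
  have n : ∀ z ∈ Icc R Z, ∀ i, nu (wK (19 / 32) c) c Z i z ≤ hv c z * nu (wh c) c Z i z :=
    fun z hz i => by
      rw [nu_eq ((pK _).pos hz).le, nu_eq ((adw h R1).2 z hz).1.le, ← mul_assoc, hv_wh h hz]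
  rw [P218L.pH, MP.xe, Seminorm.comp_apply]
  exact (xn_self h (pK _) (pH.mul isCompact_Icc pR) (pH.mul isCompact_Icc (pO.add isCompact_Icc pR))
    v.1 i).mono subset_rfl (fun z hz => om_le (h.z0 hz).le le_rfl le_rfl (n z hz) i)
      (fun z hz => n z hz i) le_rfl

theorem hj_le (z1 : 1 ≤ z) (i : Fin 6) : ‖hj z i‖ ≤ 3 * ![z ^ 2, 0, 0, z, 0, 1] i := by
  have := one_le_pow₀ (n := 2) z1
  fin_cases i
  · exact (norm_sub_le _ _).trans (by simp; linarith)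
  all_goals simp [hj, abs_of_pos (one_pos.trans_le z1)]
  all_goals linarith

theorem p2_z (l : R ≤ Z) {φ : Fin 6 → ℝ → ℂ} (c : ∀ i, Continuous (φ i)) (h : ∀ z, φ 2 z = 0) :
    (fun i => cI R Z (φ i)) ∈ P2 R Z := (mem_P2 l).2 fun z hz => by
  rw [co_congr (G := fun p => φ 2 p.1) (cst_Icc l (c 2).continuousOn hz), co_z, h, ite_self]

theorem cont_hj (i : Fin 6) : Continuous fun z => hj z i := by
  fin_cases i <;> simp only [hj, Fin.reduceFinMk, Matrix.cons_val] <;> fun_prop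

/-- the nonlinear estimate in the heavy norm -/
theorem nl : ∃ r₀ C : ℝ, 0 < r₀ ∧ 0 < C ∧ ∀ Y R Z η c, Cyl Y R Z c → 1 ≤ Y → 1 ≤ R → 0 < η →
    η ≤ r₀ → 1 ≤ η ^ 8 * Y → L2 (Icc R Z) (fun p => fderiv ℂ (vJ 1 p.1)
      (fun i => ![2, 0, 0, 0, 0, 0] i + c * hj p.1 i) (hj p.1)) (fun z => hv c z * gO c Z z)
        (gW (wK (19 / 32) c) c Z) (C * η) ∧
    ∀ B ∈ P2 R Z, ∀ v ∈ P2 R Z, ∀ d ∈ P2 R Z, ∀ N A, xw (wh c) c R Z B ≤ η / 4 →
      xw (wK (31 / 16) c) c R Z v ≤ N → N ≤ η / 48 →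
      XN (Icc R Z) (fun i z => hv c z * omW (wh c) c Z i z) (fun i z => hv c z * nu (wh c) c Z i z)
        (fun i => d i) A → Un (rJ c R Z + B + v) ∧
      L2 (Icc R Z) (fun p => fderiv ℂ (vJ 1 p.1) (fun i => (rJ c R Z + B + v) i p) (fun i => d i p)
        - fderiv ℂ (vJ 1 p.1) (fun i => (rJ c R Z + B) i p) fun i => d i p)
        (fun z => hv c z * gO c Z z) (gW (wK (19 / 32) c) c Z) (C * N * A) := by
  obtain ⟨r₁, C, r1, C0, h₁⟩ := end_nl
  obtain ⟨r₂, _, r2, -, h₂⟩ := end_val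
  refine ⟨min r₁ r₂, 12 * C, by positivity, by positivity, fun Y R Z η c h Y1 R1 η0 ηr ηY => ?_⟩
  have h' : Cyl 1 R Z c := ⟨h.R0, h.RZ, h.cZ, fun z hz => Y1.trans (h.tip z hz), h.dsc⟩
  have sa : ∀ r, η ≤ r → Sa r Y R Z η c (wh c) := fun r e =>
    ⟨h, Y1, (adw h' R1).2, cont_wh h', η0, e, ηY⟩
  have s := sa _ ηr
  have db := (h₁ _ _ _ _ _ _ (sa _ (ηr.trans (min_le_left _ _)))).2 _ (pw_all h Y1).2.2.2.1
  have un : ∀ J ∈ P2 R Z, xw (wh c) c R Z J ≤ η → Un (rJ c R Z + J) := fun J a b =>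
    have := h₂ _ _ _ _ _ _ (sa _ (ηr.trans (min_le_right _ _))) J a b
    ⟨this.1, this.2.1⟩
  have w : ∀ z ∈ Icc R Z, hv c z * gW (wh c) c Z z ≤ gW (wK (19 / 32) c) c Z z := fun z hz => by
    rw [gW, gW, ← mul_assoc, hv_wh h' hz]
  refine ⟨?_, fun B b v hv d hd N A k1 k2 k3 k4 => ?_⟩
  · have e := fun i z hz θ => cst_Icc s.le (cont_hj i).continuousOn (z := z) hz θ
    have u := un 0 (zero_mem _) (by simpa using η0.le)
    refine (((db 0 (zero_mem _) _ (p2_z s.le cont_hj fun _ => rfl) _ fun i => (xn_z h Y1 R1 s.pw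
      (by norm_num) (fun z hz => hj_le (R1.trans hz.1)) i).congr (e i)).1 (by
        rw [map_zero]; positivity)).mono subset_rfl (fun _ _ => le_rfl) w (le_of_eq (by ring))).congr
          fun z hz θ => ?_
    rw [fd_RR u, W.sub_apply, u.fd s.le _ hz, LW_ev s.le (fun z => cyl_ne h s.Y0) _ hz]
    simp only [e _ z hz, add_zero, rJ_rj s.le hz]
    simp [hj]
    ring
  · have k := (xw_h h' R1 v).trans (mul_le_mul_of_nonneg_left k2 (by norm_num))
    have u := un B b (by linarith)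
    have u' := un _ (add_mem b hv) ((map_add_le_add _ _ _).trans (by linarith))
    have A0 := (k4 0).1.M0
    refine ⟨add_assoc _ B v ▸ u', (((db B b d hd A k4).2 v hv k1 (by linarith)).mono subset_rfl
      (fun _ _ => le_rfl) w ?_).congr fun z hz θ => ?_⟩
    · nlinarith [mul_le_mul_of_nonneg_left k (mul_nonneg C0.le A0),
        mul_nonneg (mul_nonneg C0.le A0) ((apply_nonneg _ _).trans k2)]
    · rw [fd_RR u, fd_RR u', sub_sub_sub_cancel_right, W.sub_apply, u.fd s.le _ hz,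
        u'.fd s.le _ hz, add_assoc]

variable {M : Mod} {k : ℕ} (G : GD M k) (j : Fin M.n₁)

/-- the part of `z ^ 2 - 2` in the near zone -/
def ps (z : ℝ) : ℂ := (1 - cut (G.ρ + 6) z : ℝ) * (z ^ 2 - 2)

/-- the derivative of the total profile in the opening -/
def dd (z₃ : ℝ) (y : ℝ × ℝ) (i : Fin 6) : ℂ :=
  hj y.1 i + jm (zj (chi z₃) y.1) (fun i => wj (omH wy) (G.yv j).1 i y) i

/-- its image -/
def E0 (z₃ Z : ℝ) (c : ℂ) (y : ℝ × ℝ) : ℂ :=
  fderiv ℂ (vJ 1 y.1) (fun i => G.Vj z₃ j Z c 0 i y) (dd G j z₃ y)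

theorem two : (2 : WithTop ℕ∞) ≤ ∞ := by norm_cast

theorem cd_h : ContDiff ℝ ∞ fun z : ℝ => (z : ℂ) ^ 2 - 2 :=
  (Complex.ofRealCLM.contDiff.pow 2).sub contDiff_const

theorem cd_ps : ContDiff ℝ ∞ (ps G) :=
  (Complex.ofRealCLM.contDiff.comp (contDiff_const.sub (cd_cut _))).mul cd_h

theorem cont_X (i : Fin 6) : Continuous fun z => hj z i - zj (ps G) z i :=
  (cont_hj i).sub (cont_zj (cd_ps G) i)

theorem cd_z {φ : ℝ → ℂ} (h : ContDiff ℝ ∞ φ) : ContDiffAt ℝ 2 (fun q : ℝ × ℝ => φ q.1) y :=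
  ((h.comp contDiff_fst).of_le two).contDiffAt

variable {G j}

theorem Vj_eq (i : Fin 6) : G.Vj z₃ j Z c 0 i y =
    ![2, 0, 0, 0, 0, 0] i + (c * hj y.1 i + jet (G.bt z₃ j c) i y) := by
  rw [Vj_zero]
  fin_cases i <;> simp [hj, rh] <;> ring

theorem Vj_add (g : M.Geo) (a : ℂ) (i : Fin 6) : G.Vj z₃ j Z (c + a) 0 i y =
    G.Vj z₃ j Z c 0 i y + a * (hj y.1 i - zj (ps G) y.1 i) := by
  rw [Vj_eq, Vj_eq, show G.bt z₃ j (c + a) = fun q => G.bt z₃ j c q + -a * ps G q.1 from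
    funext fun q => by simp only [GD.bt, ps]; ring,
    jet_lin ((cd_bt g G z₃ j c).of_le two).contDiffAt (cd_z (cd_ps G)), jet_z (cd_ps G)]
  ring

theorem u0j_eq (i : Fin 6) :
    G.u0j z₃ j i y + (hj y.1 i - zj (ps G) y.1 i) = dd G j z₃ y i := by
  rw [GD.u0j, show (fun p : ℝ × ℝ => ((cut 1 (p.1 / z₃) - cut (G.ρ + 6) p.1 : ℝ) : ℂ) *
      ((p.1 : ℂ) ^ 2 - 2)) = fun q => ps G q.1 + -1 * (chi z₃ q.1 * ((q.1 : ℂ) ^ 2 - 2)) from
    funext fun q => by simp only [chi, ps]; push_cast; ring,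
    jet_lin (cd_z (cd_ps G)) ((cd_z (cd_chi z₃)).mul (cd_z cd_h)),
    jet_mul (cd_z (cd_chi z₃)) (cd_z cd_h), jet_z (cd_ps G)]
  simp only [jet_h, show ∀ i, jet (fun p => ((1 - cut 1 (p.1 / z₃) : ℝ) : ℂ)) i y = _ from
    fun i => jet_z (cd_chi z₃) i y, jet_z (cd_chi z₃), dd, yj]
  fin_cases i <;> simp [jm] <;> ring

/-- below `z₃` -/
theorem zone1 (g : M.Geo) (o : G.toLD.Ok) (l : G.z₀ ≤ z₃) {ε : ℝ} (e0 : 0 < ε) :
    ∀ᶠ c in 𝓝 0, ∀ Z, Le (Ico G.z₀ z₃) (E0 G j z₃ Z c) (fun _ => 1) ε := by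
  have h0 : M.R < G.z₀ := by linarith [o.lo]
  have r := ret_cl l
  have s := fun i y => cd_jet (y := y) (g.cd_VS j).contDiffAt i
  have p := per_jet (g.per_VS j M.R)
  choose V hV using fun i => ex_W (p i) h0 l fun y _ => (s i y).of_le two
  have u : Un V := ⟨unit_W (p 0) h0 l (fun y hy => ⟨(s 0 y).of_le two, by
      simpa [jet, ← Mod.Geo.sq_r] using Complex.ofReal_ne_zero.2 (g.r_ne (h0.trans_le hy.1))⟩)
      (hV 0), unit_W (F := fun y => vD (jet (VS (M.f j)) 0 y) (jet (VS (M.f j)) 3 y)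
        (jet (VS (M.f j)) 1 y)) (fun z θ hz => by simp only [p _ z θ hz]) h0 l
      (fun y hy => ⟨ContDiffAt.of_le (by unfold vD; fun_prop) two, g.vD_ne (h0.trans_le hy.1)⟩)
      fun z hz θ => by simp [vD, hV _ z hz]⟩
  let X : Fin 6 → WI G.z₀ z₃ := fun i => cI _ _ fun z => hj z i - zj (ps G) z i
  let Y : Fin 6 → WI G.z₀ z₃ := fun i => cI _ _ (fun z => hj z i) +
    cI _ _ (fun z => omH wy i z) * W.res _ r.cont r.idem ((G.yv j).1 i)
  have hY : ∀ i, ∀ z ∈ Icc G.z₀ z₃, ∀ θ, Y i (z, θ) = yj (G.yv j) i (z, θ) := fun i z hz θ => by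
    rw [W.add_apply, W.mul_apply, cst_Icc l (cont_hj i).continuousOn hz, cst_Icc l
      (φ := fun z => omH wy i z) (Complex.continuous_ofReal.comp_continuousOn ((omH_cont G.hz
        (ContinuousOn.add (continuousOn_id.rpow_const fun z hz => .inl (G.hz.trans_le hz).ne')
          continuousOn_const)
          i).mono Icc_subset_Ici_self)) hz, W.res_apply, r.fix z hz]
    rfl
  have l0 : Tendsto (fun c : ℂ => V + c • X) (𝓝 0) (𝓝 V) := by
    simpa using (P218T.hd_line V X).continuousAt.tendsto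
  have f0 : fderiv ℂ (VV G.z₀ z₃) V Y = 0 := r.ext fun z hz θ => by
    rw [u.fd l _ hz]
    simp only [hV _ z hz, hY _ z hz]
    exact o.sol j (z, θ) hz.1
  have l1 := (((VV_an u.1 u.2).fderiv.continuousAt.clm_apply
    (continuousAt_const (y := Y))).tendsto.comp l0).norm.eventually_le_const (u := ε)
      (by rwa [f0, norm_zero])
  filter_upwards [l0.eventually u.ev, l1] with c a b Z
  refine (((W.le_on _ _).mono Ico_subset_Icc_self (fun _ _ => le_rfl) b)).congr fun z hz θ => ?_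
  have m := Ico_subset_Icc_self hz
  have p3 := G.hz.trans_le l
  rw [Function.comp_apply, a.fd l _ m, E0, ← zero_add c]
  congr 2 with i
  · rw [Vj_add g, Vj_eq, jet_congr (G := fun q => VS (M.f j) q - 2) (((continuous_fst.tendsto
      (z, θ)).eventually (gt_mem_nhds hz.2)).mono fun q hq => by
        simp [GD.bt, cut_zero ((div_le_one p3).2 hq.le)])]
    simp only [Pi.add_apply, Pi.smul_apply, W.add_apply, W.smul_apply, hV _ z m, X,
      cst_Icc l (cont_X G i).continuousOn m, zero_mul, zero_add, ← Sdec.jet_sub]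
  · rw [hY _ z m, dd, chi_lo p3 hz.2]
    fin_cases i <;> simp [jm, yj]

theorem wy_eq (z : ℝ) : wy z = z ^ (1 / 16 : ℝ) := by norm_num [wH]

/-- between `z₃` and `3 z₃` -/
theorem zone2 (eqs : EQS) (sdec : SDEC) (g : M.Geo) (G : GD M k) : ∃ K, 0 ≤ K ∧ ∀ᶠ z₃ in atTop,
    ∀ c, ‖c‖ * (3 * z₃) ^ 4 ≤ 1 → ∀ j Z, Le (Icc z₃ (3 * z₃)) (E0 G j z₃ Z c) wy K := by
  obtain ⟨R, K, R1, K0, h⟩ := sd_bt eqs sdec g
  obtain ⟨K', K0', h⟩ := h k G
  obtain ⟨η, C, η0, C0, co⟩ := coef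
  obtain ⟨A, A0, hA⟩ := chi_bd
  obtain ⟨B, hB⟩ := (finite_range fun j => ‖(G.yv j).1‖).bddAbove
  set D := 4 * A * |B|
  set K₂ := 4 * 3 + (K + K')
  refine ⟨3 * D + 6 * (C * K₂ * (4 * 3 + D)), by positivity, ?_⟩
  filter_upwards [eventually_ge_atTop R, ((tendsto_rpow_neg_atTop (y := 31 / 16)
    (by norm_num)).mul_const K₂).eventually_le_const (by simpa using η0)] with z₃ z1 z2 c hc j Z
  have s1 : ∀ z ∈ Icc z₃ (3 * z₃), 1 ≤ z := fun z hz => R1.trans (z1.trans hz.1)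
  have s0 := fun z hz => one_pos.trans_le (s1 z hz)
  have w0 : ∀ z ∈ Icc z₃ (3 * z₃), ∀ a : ℝ, 0 ≤ z ^ a := fun z hz => Real.rpow_nonneg (s0 z hz).le
  have y0 : ∀ z ∈ Icc z₃ (3 * z₃), 0 ≤ wy z := fun z hz => wy_eq z ▸ w0 z hz _
  have hz2 : ∀ z ∈ Icc z₃ (3 * z₃), ∀ i, ‖hj z i‖ ≤ 3 * z ^ 2 := fun z hz i =>
    (hj_le (s1 z hz) i).trans (by
      have := s1 z hz
      fin_cases i <;> simp only [Fin.reduceFinMk, Matrix.cons_val] <;> nlinarith)
  have c1 : ‖c‖ ≤ 1 := (le_mul_of_one_le_right (norm_nonneg c)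
    (one_le_pow₀ (by linarith))).trans hc
  have bJ : ∀ i, Le (Icc z₃ (3 * z₃)) (fun y => c * hj y.1 i + jet (G.bt z₃ j c) i y) od K₂ :=
    fun i => (le_z (φ := fun z => c * hj z i) (C := 3) (by norm_num) (fun z hz => w0 z hz _)
      fun z hz => by
      have e : 1 ≤ od z * z ^ 2 := by
        rw [← Real.rpow_ofNat, ← Real.rpow_add (s0 z hz)]
        exact Real.one_le_rpow (s1 z hz) (by norm_num)
      have a := pow_le_pow_left₀ (s0 z hz).le hz.2 4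
      have b := mul_le_mul_of_nonneg_left a (norm_nonneg c)
      have p := pow_pos (s0 z hz) 2
      rw [norm_mul]
      refine (mul_le_mul_of_nonneg_left (hz2 z hz i) (norm_nonneg c)).trans
        (le_of_mul_le_mul_right ?_ p)
      simp only [od] at e
      nlinarith [b.trans hc]).add ((h z₃ (R1.trans z1) j c i).mono (fun z hz => z1.trans hz.1)
      (fun z hz => by
        rw [Sdec.omH_eq]
        exact mul_le_of_le_one_right (w0 z hz _) (Sdec.om_le le_rfl i (s1 z hz))) (by nlinarith))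
  obtain ⟨a, _, ha, ea⟩ := co _ _ od _ K₂ z2 (fun i => (bJ i).wt (w0 z₃ ⟨le_rfl, by linarith⟩ _)
    (by simp) fun z hz => by simpa [od, neg_div] using (Real.rpow_le_rpow_of_nonpos
      (by linarith) hz.1 (by norm_num : -(31 / 16 : ℝ) ≤ 0))) bJ fun i => ((continuous_const.mul
        ((cont_hj i).comp continuous_fst)).add (Sdec.jet_cont (cd_bt g G z₃ j c) i)).continuousOn
  have bw : ∀ i {φ : ℝ → ℂ}, (∀ z ∈ Icc z₃ (3 * z₃), ‖φ z‖ ≤ wy z) →
      Le (Icc z₃ (3 * z₃)) (fun p => φ p.1 * (G.yv j).1 i p) wy |B| := fun i φ e =>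
    ((((G.yv j).1 i).le_on _).mulz zero_le_one y0 (by simpa using e)).mono subset_rfl
      (fun _ _ => le_rfl) (by
        linarith [norm_le_pi_norm (G.yv j).1 i, hB ⟨j, rfl⟩, le_abs_self B])
  obtain ⟨e, e3⟩ := le_jm (b := wj (omH wy) (G.yv j).1) A0 s1
    (fun z hz => hA z₃ z (R1.trans z1) (s0 z hz).le) (fun i => bw i (φ := fun z => omH wy i z)
      fun z hz => by
        rw [Complex.norm_real, Sdec.omH_eq, Real.norm_of_nonneg (mul_nonneg (y0 z hz)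
          (omH_pos one_pos (by simp) i (s1 z hz)).le)]
        exact mul_le_of_le_one_right (y0 z hz) (Sdec.om_le le_rfl i (s1 z hz)))
    ((bw 3 (φ := fun z => wy z) fun z hz => by simp [abs_of_nonneg (y0 z hz)]).congr
      fun z hz θ => by
        have : (z : ℂ) ≠ 0 := by exact_mod_cast (s0 z hz).ne'
        simp [wj, omH]
        field_simp)
  have bd : ∀ i, Le (Icc z₃ (3 * z₃)) (fun y => dd G j z₃ y i) (fun z => z ^ 2) (4 * 3 + D) :=
    fun i => (le_z (by norm_num) (fun z _ => sq_nonneg z) fun z hz => hz2 z hz i).add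
      ((e i).mono subset_rfl (fun z hz => by
        rw [wy_eq, ← Real.rpow_ofNat]
        exact Real.rpow_le_rpow_of_exponent_le (s1 z hz) (by norm_num)) le_rfl)
  have := Le.sum Finset.univ y0 fun i _ => ((ha i).2.2.1.mul (bd i)).mono subset_rfl
    (fun z hz => by
      rw [wy_eq, od, ← Real.rpow_ofNat, ← Real.rpow_add (s0 z hz)]
      norm_num) le_rfl
  refine ((((((e 5).sub (e3.cmul (1 / 2))).add (e 0)).add ((e 2).cmul (1 / 2))).add this).mono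
    subset_rfl (fun _ _ => le_rfl) (le_of_eq (by simp; ring))).congr fun z hz θ => ?_
  rw [E0, funext Vj_eq, (ea _ hz).1]
  simp only [dd, hj, Matrix.cons_val]
  ring

theorem ev_c {ι : Type} [Fintype ι] {Q : Cs → ℂ → Prop} (h : ∀ q, ∀ᶠ c in 𝓝 0, Q q c) :
    ∀ᶠ p in ev ι, ∀ j, Q p.toCs (p.c j) := by
  choose δ d0 h using fun q => Metric.eventually_nhds_iff.1 (h q)
  filter_upwards [ev_cyl (R := 2) (Y := 1) le_rfl (by norm_num), ev_W fun q => 8 / δ q] with p a b j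
  refine h _ ?_
  have := (div_le_iff₀ (d0 _)).1 (b j).1
  have := (a j).RZ
  rw [dist_zero_right]
  by_contra! e
  nlinarith [(a j).cZ, d0 p.toCs, mul_le_mul_of_nonneg_right e (sq_nonneg (p.W j))]

theorem ev_z {ι : Type} [Fintype ι] {Q : ℝ → ℝ → Prop} (h : ∀ r, ∀ᶠ z in atTop, Q r z) :
    ∀ᶠ p in ev ι, Q p.r p.z₃ := by
  choose f h using fun r => eventually_atTop.1 (h r)
  exact (ev_cs (ev₀_z fun _ r => f r)).mono fun p => h _ _

theorem Ef_zero (k z : ℂ) (V : Fin 6 → ℂ) : Ef 0 k z 1 0 V = vJ 1 z V := by simp [Ef, te, vJ]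

theorem qH_l2 (h : Cyl 1 R Z c) {x : WI R Z} (k : L2 (Icc R Z) x (fun z => hv c z * gO c Z z)
    (gW (wK (19 / 32) c) c Z) N) : qH c R Z (x, 0) ≤ N := by
  obtain ⟨pK, pw, pO, pH, -, -⟩ := pw_all h le_rfl
  have l : R ≤ Z := by linarith [h.RZ]
  have m := right_mem_Icc.2 l
  have b₀ := mul_pos (pH.pos m) (mul_pos (h.z0 m) (pw.pos m))
  have b₁ := mul_pos (h.z0 m) ((pK (19 / 32)).pos m)
  have N0 := k.1.M0
  rw [qH, yn_le_iff l (pH.mul isCompact_Icc pO) (pw_gW h one_pos (pK _)) b₀ b₁]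
  refine ⟨k, fun i => (norm_zero (E := ℂ)).trans_le (mul_nonneg N0 ?_)⟩
  fin_cases i
  exacts [b₀.le, b₁.le, b₁.le]

theorem bx_line {p : Pt (Fin M.n₁)} {U : G.XX p.W} (hU : G.Nn p U < p.r) (Z0 : 0 < p.Z)
    (d : G.XX p.W × Pm (Fin M.n₁)) : ∀ᶠ t : ℂ in 𝓝 0, (U, bs p.c p.v) + t • d ∈ G.Bx p := by
  have t1 : Continuous fun t : ℂ => G.Nn p U + ‖t‖ * G.Nn p d.1 := by fun_prop
  have t2 : Continuous fun t : ℂ => ‖t • d.2‖ := by fun_prop
  filter_upwards [(t1.tendsto 0).eventually_lt_const (by simpa using hU),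
    (t2.tendsto 0).eventually_lt_const (u := (p.Z ^ 100)⁻¹) (by simpa using pow_pos Z0 100)]
    with t a b
  exact ⟨(line_le le_rfl).trans_lt a, by simpa using b⟩

theorem ec_line (g : M.Geo) {p : Pt (Fin M.n₁)} (U : G.XX p.W) (c' : Fin M.n₁ → ℂ) (t : ℂ)
    (uv : ∀ i, (G.u0 p.W p.z₃ j).1 i y = G.u0j p.z₃ j i y) :
    GD.Ec p.z₃ p.m ((U, bs p.c p.v) + t • (G.U0 p.W p.z₃ c', c', 0)) j y = vJ 1 y.1
      ((fun i => G.Vj p.z₃ j (p.W j) (p.c j) 0 i y + (U.2.1.1 j).1 i y) +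
        t • c' j • dd G j p.z₃ y) := by
  rw [GD.Ec]
  simp only [bs, Prod.snd_add, Prod.smul_snd, smul_zero, add_zero, Pi.zero_apply, zt_zero, Ef_zero]
  congr 1 with i
  rw [Pi.add_apply, Pi.smul_apply, Pi.smul_apply, ← u0j_eq, ← uv]
  simp [GD.Vt, GD.U0, Vj_add g]
  ring

/-- the slow direction with the derivative of the reference surface -/
theorem dir (u0v : U0V) (g : M.Geo) : ∃ z₁, ∀ k (G : GD M k), z₁ ≤ G.z₀ → G.Ok → ∃ K, 0 ≤ K ∧
    ∀ᶠ p in ev (Fin M.n₁), ∀ j, ∃ d : Fin 6 → WI G.z₀ (p.W j), d ∈ P2 _ (p.W j) ∧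
      (∀ z ∈ Icc G.z₀ (p.W j), ∀ θ, (fun i => d i (z, θ)) = dd G j p.z₃ (z, θ)) ∧
      XN (Icc G.z₀ (p.W j)) (fun i z => hv (p.c j) z * omW (wh (p.c j)) (p.c j) (p.W j) i z)
        (fun i z => hv (p.c j) z * nu (wh (p.c j)) (p.c j) (p.W j) i z) (fun i => d i) K := by
  obtain ⟨z₁, h⟩ := u0v M g
  refine ⟨max z₁ 2, fun k G hz o => ?_⟩
  have uv := h k G (le_of_max_le_left hz) o
  have z2 := le_of_max_le_right hz
  have z0 : 1 ≤ G.z₀ := by linarith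
  obtain ⟨K, K1, uk⟩ := ev_fix (Q := fun C p => ∀ j, pH (p.c j) G.z₀ (p.W j) (G.u0 p.W p.z₃ j) ≤ C)
    (uv.mono fun p h j => (h j).2) fun _ _ _ _ _ _ _ _ _ _ _ _ _ => id
  obtain ⟨A, A0, hA⟩ := bd_zj (cd_ps G) 0 (b := G.ρ + 7) fun z hz => (zj_congr (ψ := fun _ => 0)
    ((lt_mem_nhds hz).mono fun x hx => by
      simp [ps, cut_one (a := G.ρ + 6) (z := x) (by linarith)])).trans (by simp [zj])
  refine ⟨K + 4 * (3 + A), by positivity, ?_⟩
  filter_upwards [uv, uk, ev_cyl (R := G.z₀) (Y := 1) z2 (by nlinarith)] with p uv uk cy j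
  have cy := cy j
  have l : G.z₀ < p.W j := by linarith [cy.RZ]
  have eX := fun i z hz θ => cst_Icc l.le (cont_X G i).continuousOn (z := z) hz θ
  refine ⟨_, add_mem ((XE.mj l (G.u0 p.W p.z₃ j)).p2 l.le) (p2_z l.le (cont_X G) fun _ =>
    sub_self _), fun z hz θ => funext fun i => ?_, fun i => (((xn_pH cy z0 _ i).mono subset_rfl
      (fun _ _ => le_rfl) (fun _ _ => le_rfl) (uk j)).add (xn_z cy le_rfl z0
        (pw_cyl (cont_wh cy) fun z hz => ((adw cy z0).2 z hz).1)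
          (φ := fun i z => hj z i - zj (ps G) z i) (by positivity) (fun z hz i => ?_) i)
        (W.adm _ _) (adm_z _ fun z => hj z i - zj (ps G) z i)).congr fun z hz θ => ?_⟩
  · rw [Pi.add_apply, W.add_apply, eX i z hz, (uv j).1 i z hz, u0j_eq (y := (z, θ))]
  · have a := hA z (by linarith [hz.1]) i
    have b := hj_le (z0.trans hz.1) i
    have d := z0.trans hz.1
    have d2 := one_le_pow₀ (n := 2) d
    fin_cases i
    exacts [(norm_sub_le_of_le b a).trans (by simp; nlinarith), by simp [hj, zj],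
      by simp [hj, zj], (norm_sub_le_of_le b a).trans (by simp; nlinarith),
      by simp [hj, zj], (norm_sub_le_of_le b a).trans (by simp)]
  · simp only [Pi.add_apply, W.add_apply, eX i z hz]

/-- the image of the slow direction at the reference surface -/
theorem zones (eqs : EQS) (sdec : SDEC) (g : M.Geo) (G : GD M k) (o : G.Ok) (z2 : 2 ≤ G.z₀) :
    ∃ K, ∀ᶠ p in ev (Fin M.n₁), ∀ j, L2 (Icc G.z₀ (p.W j)) (E0 G j p.z₃ (p.W j) (p.c j))
      (fun z => hv (p.c j) z * gO (p.c j) (p.W j) z) (gW (wK (19 / 32) (p.c j)) (p.c j) (p.W j))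
        (K * p.r) := by
  obtain ⟨r₀, C, r0, C0, h⟩ := nl
  obtain ⟨K₂, K0, z2'⟩ := zone2 eqs sdec g G
  refine ⟨9 + 9 * K₂ + C, ?_⟩
  filter_upwards [ev_ad, ev_cyl (R := G.z₀) (Y := 1) z2 (by nlinarith),
    ev_cs (ev₀_r (f := fun _ => min 1 r₀) (.of_forall fun _ => by positivity)),
    ev_cs (ev₀_z fun _ r => G.z₀ + |G.ρ| + 7 + (r ^ 8)⁻¹), ev_cs (ev₀_J fun _ r _ => (r ^ 8)⁻¹),
    ev_W fun q => 3 * q.z₃ + 1, ev_z (Q := fun _ _ => _) fun _ => z2',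
    ev_z (Q := fun r z₃ => 0 < r → ∀ z, z₃ ≤ z → z ^ (-(7 / 16) : ℝ) ≤ r) fun r =>
      eventually_imp_distrib_left.2 fun e => eventually_forall_ge_atTop.2
        ((tendsto_rpow_neg_atTop (by norm_num)).eventually_le_const e),
    ev_c (Q := fun q c => ‖c‖ * (3 * q.z₃) ^ 4 ≤ 1 / 3) fun q =>
      ((continuous_norm.mul continuous_const).tendsto 0).eventually_le_const (by simp),
    ev_c (Q := fun q c => G.z₀ ≤ q.z₃ → 0 < q.r → ∀ j Z,
      Le (Ico G.z₀ q.z₃) (E0 G j q.z₃ Z c) (fun _ => 1) q.r) fun q =>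
        eventually_imp_distrib_left.2 fun a => eventually_imp_distrib_left.2 fun b =>
          eventually_all.2 fun j => zone1 g o.ld a b] with p ad cy hr hz hJ hW z2 z7 c4 z1 j
  obtain ⟨r1, r2⟩ := le_min_iff.1 hr.2
  have r0' := hr.1
  have z0 : 1 ≤ G.z₀ := by linarith
  have i8 : 1 ≤ (p.r ^ 8)⁻¹ := (one_le_inv₀ (by positivity)).2 (pow_le_one₀ r0'.le r1)
  have ρ0 := abs_nonneg G.ρ
  obtain ⟨pK, -, pO, pH, -, -⟩ := pw_all (cy j) le_rfl
  have pG := pw_gW (cy j) one_pos (pK (19 / 32))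
  have pO' := pH.mul isCompact_Icc pO
  have lo : ∀ z, 1 ≤ z → z ≤ 3 * p.z₃ → _ := fun z a b => wt_lo (c := p.c j) a (le_trans
    (mul_le_mul_of_nonneg_left ((pow_le_pow_right₀ a (by norm_num)).trans
      (pow_le_pow_left₀ (by linarith) b 4)) (norm_nonneg _)) (c4 j)) (p.W j)
  have cv : ∀ {s N}, s ⊆ Icc G.z₀ (3 * p.z₃) → Le s (E0 G j p.z₃ (p.W j) (p.c j)) (√·) N →
      L2 s (E0 G j p.z₃ (p.W j) (p.c j)) (fun z => hv (p.c j) z * gO (p.c j) (p.W j) z)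
        (gW (wK (19 / 32) (p.c j)) (p.c j) (p.W j)) (9 * N) := fun {s N} a b =>
    have m : s ⊆ Icc G.z₀ (p.W j) := a.trans (Icc_subset_Icc_right (by linarith [(hW j).1]))
    l2_wt b.l2 (by norm_num) (fun z hz => ⟨(pO'.pos (m hz)).le,
      (lo z (z0.trans (a hz).1) (a hz).2).1⟩) fun z hz => ⟨(pG.pos (m hz)).le,
        (lo z (z0.trans (a hz).1) (a hz).2).2.1⟩
  have s₂ := cv (Ico_subset_Icc_self.trans (Icc_subset_Icc_right (by linarith)))
    ((z1 j (by linarith) r0' j (p.W j)).mono subset_rfl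
      (fun z hz => Real.one_le_sqrt.2 (z0.trans hz.1)) le_rfl)
  have s₃ := cv (Icc_subset_Icc_left (by linarith)) ((z2 _ ((c4 j).trans (by norm_num)) j
    (p.W j)).wt r0'.le (fun z _ => Real.sqrt_nonneg z) fun z hz => by
      have := z7 r0' z hz.1
      rw [wy_eq, Real.sqrt_eq_rpow, show (1 / 16 : ℝ) = -(7 / 16) + 1 / 2 by norm_num,
        Real.rpow_add (by linarith [hz.1])]
      gcongr
      exact Real.rpow_nonneg (by linarith [hz.1]) _)
  have s₄ := (h _ (3 * p.z₃) (p.W j) p.r (p.c j) (cyl_of_dsc' (ad.hc j) (by linarith) (hW j).1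
    (by linarith [(Nat.cast_le (α := ℝ)).2 ad.hJ, Nat.cast_nonneg (α := ℝ) p.J]) (by nlinarith))
      i8 (by linarith) r0' r2 (mul_inv_cancel₀ (by positivity)).ge).1.congr
    (G := E0 G j p.z₃ (p.W j) (p.c j)) fun z hz θ => by
      have : 2 * p.z₃ < z := by linarith [hz.1]
      simp only [E0, Vj_eq, bt_zero G j _ (by linarith [le_abs_self G.ρ]) (by linarith) this,
        add_zero]
      congr 1 with i
      rw [dd, chi_hi (by linarith) this]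
      fin_cases i <;> simp [jm]
  refine (l2_union (l2_union s₂ s₃) s₄).mono (fun z hz => ?_) (fun _ _ => le_rfl)
    (fun _ _ => le_rfl) (le_of_eq (by ring))
  rcases lt_or_ge z p.z₃ with a | a
  · exact .inl (.inl ⟨hz.1, a⟩)
  · exact (le_total z (3 * p.z₃)).elim (fun b => .inl (.inr ⟨a, b⟩)) fun b => .inr ⟨b, hz.2⟩

end Fd

open Fd GD in
/-- **FARD** -/
theorem fard (eqs : EQS) (sdec : SDEC) (fara : FARA) (u0v : U0V) : FARD := fun M g => by
  obtain ⟨r₀, C, r0, C0, h⟩ := nl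
  obtain ⟨z₁, h₁⟩ := bt eqs sdec M g (r₀ / 4) (by positivity)
  obtain ⟨z₂, h₂⟩ := Row.and fara u0v M g
  obtain ⟨z₃, h₃⟩ := dir u0v g
  set Y := max 1 (r₀ ^ 8)⁻¹
  have Y1 : 1 ≤ Y := le_max_left _ _
  refine ⟨max (max z₁ z₂) (max z₃ (Y + 1)), fun k G hz o => ?_⟩
  obtain ⟨⟨a1, a2⟩, a3, a4⟩ : (z₁ ≤ G.z₀ ∧ z₂ ≤ G.z₀) ∧ z₃ ≤ G.z₀ ∧ Y + 1 ≤ G.z₀ := by
    simpa using hz
  obtain ⟨fa, uv⟩ := h₂ k G a2 o
  obtain ⟨A, A0, hA⟩ := h₃ k G a3 o
  obtain ⟨K, hK⟩ := zones eqs sdec g G o (by linarith)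
  filter_upwards [h₁ k G a1, fa, uv, hA, hK, ev_cyl (R := G.z₀) (Y := Y) (by linarith)
    (by nlinarith), ev_cs (ev₀_K (C * A + K)), ev_Z fun _ _ _ => 1,
    ev_cs (ev₀_r (f := fun _ => r₀ / 48) (.of_forall fun _ => by positivity))]
    with p bt fa uv hA s₅ cy hK hZ hr j U hU c'
  obtain ⟨B, b2, hB, -, b3⟩ := bt j
  obtain ⟨d, d2, ed, hd⟩ := hA j
  have cy1 : Cyl 1 G.z₀ (p.W j) (p.c j) :=
    ⟨(cy j).R0, (cy j).RZ, (cy j).cZ, fun z hz => Y1.trans ((cy j).tip z hz), (cy j).dsc⟩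
  have l : G.z₀ < p.W j := by linarith [cy1.RZ]
  obtain ⟨pK, -, pO, pH, -, -⟩ := pw_all cy1 le_rfl
  have pG := pw_gW cy1 one_pos (pK (19 / 32))
  have pO' := pH.mul isCompact_Icc pO
  obtain ⟨un, s₁⟩ := (h Y _ _ r₀ _ (cy j) Y1 (by linarith) r0 le_rfl (by
    rw [← inv_le_iff_one_le_mul₀' (by positivity)]; exact le_max_right _ _)).2 B b2 _
      ((XE.mj l (U.2.1.1 j)).p2 l.le) d d2 p.r A b3
    (((le_prs _).1 j).trans ((P218H.le_tri _ U).2.1.trans hU.le)) hr.2 hd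
  have bx := bx_line hU (by linarith) (G.U0 p.W p.z₃ c', c', 0)
  have φ : ∀ {o : ℝ → ℝ}, PW (Icc G.z₀ (p.W j)) o → ∀ z ∈ Icc G.z₀ (p.W j),
      ‖((1 - G.chn z : ℝ) : ℂ) * c' j‖ * o z ≤ ‖c'‖ * o z := fun po z hz => by
    rw [norm_mul, Complex.norm_real, chn_eq, sub_sub_cancel, Real.norm_of_nonneg (cut_mem _ _).1]
    exact mul_le_mul_of_nonneg_right ((mul_le_of_le_one_left (norm_nonneg _) (cut_mem _ _).2).trans
      (norm_le_pi_norm c' j)) (po.pos hz).le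
  refine qH_l2 cy1 ((((s₁.add (s₅ j) (l2_adm s₁) (l2_adm (s₅ j))).mulz (norm_nonneg c')
    (fun z hz => (pO'.pos hz).le) (fun z hz => (pG.pos hz).le) (φ pO') (φ pG)).mono subset_rfl
      (fun _ _ => le_rfl) (fun _ _ => le_rfl) ?_).congr fun z hz θ => ?_)
  · nlinarith [mul_le_mul_of_nonneg_right hK (mul_nonneg hr.1.le (norm_nonneg c'))]
  have e : ∀ i, (rJ (p.c j) G.z₀ (p.W j) + B + (U.2.1.1 j).1) i (z, θ) =
      G.Vj p.z₃ j (p.W j) (p.c j) 0 i (z, θ) + (U.2.1.1 j).1 i (z, θ) := fun i => by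
    rw [Pi.add_apply, W.add_apply, (hB i z hz θ).2]
  rw [fd_ev (fa j _ (by simpa using bx.self_of_nhds)).1 ((hd_fd (un.d z (z, θ))
    (c' j • dd G j p.z₃ (z, θ))).const_mul ((1 - G.chn z : ℝ) : ℂ)) (bx.mono fun t ht => by
      rw [(fa j _ ht).2.2 z hz, ec_line g U c' t fun i => (uv j).1 i z hz θ, funext e])]
  simp only [ed z hz, (hB _ z hz θ).2, E0, map_smul, smul_eq_mul]
  ring

end Vale.Agent.P218I
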