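import Vale.Agent.P218I.Bas
import Vale.Agent.P218W.NLc
import Vale.Agent.P218L.Exa
import Vale.Agent.P218L.Lq

/-! Tools for the far zone of a cylindrical end. -/

open Set Filter Topology
open scoped ContDiff Real

noncomputable section

namespace Vale.Agent.P218I.Fd

open Vale.Agent.P218T Vale.Agent.P218L Vale.Agent.P218M Vale.Agent.P218W
open Vale.Agent.P218T.Frm (jm lj lj_z)
open Vale.Agent.P218N (vD rj)

variable {s t : Set ℝ} {F G : ℝ × ℝ → ℂ} {o n w : ℝ → ℝ} {K N R R₀ Y Z A z : ℝ} {c : ℂ}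
  {y : ℝ × ℝ}

theorem le_union (h : Le s F o K) (k : Le t F o N) : Le (s ∪ t) F o (K + N) := by
  obtain ⟨a, ha, h1⟩ := h.ex
  obtain ⟨b, hb, k1⟩ := k.ex
  refine ⟨fun z hz => hz.elim (h.adm z) (k.adm z), fun z hz => hz.elim (h.w0 z) (k.w0 z), _,
    ha.add hb, fun j z hz => hz.elim (fun e => (h1 j z e).trans ?_) fun e => (k1 j z e).trans ?_⟩
  · nlinarith [mul_nonneg (hb.a0 j) (h.w0 z e)]
  · nlinarith [mul_nonneg (ha.a0 j) (k.w0 z e)]

theorem l2_union (h : L2 s F o n K) (k : L2 t F o n N) : L2 (s ∪ t) F o n (K + N) :=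
  ⟨le_union h.1 k.1, le_union h.2 k.2⟩

theorem l2_wt {o' n' : ℝ → ℝ} (h : L2 s F o n K) (A0 : 0 ≤ A)
    (ho : ∀ z ∈ s, 0 ≤ o' z ∧ o z ≤ A * o' z) (hn : ∀ z ∈ s, 0 ≤ n' z ∧ n z ≤ A * n' z) :
    L2 s F o' n' (A * K) :=
  ⟨h.1.wt A0 (fun z hz => (ho z hz).1) fun z hz => (ho z hz).2,
    h.2.wt A0 (fun z hz => (hn z hz).1) fun z hz => (hn z hz).2⟩

theorem l2_z {φ : ℝ → ℂ} (A0 : 0 ≤ A) (ho : ∀ z ∈ s, 0 ≤ o z ∧ ‖φ z‖ ≤ A * o z)
    (hn : ∀ z ∈ s, 0 ≤ n z) : L2 s (fun p => φ p.1) o n (4 * A) :=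
  ⟨(le_z A0 (fun z hz => (ho z hz).1) fun z hz => (ho z hz).2).congr fun z _ θ => by
    simp [p0, co_z], ((le_zero hn).mono subset_rfl (fun _ _ => le_rfl) (by positivity)).congr
      fun z _ θ => by simp [pn, co_z]⟩

/-- the jet of a function of `z` -/
def zj (φ : ℝ → ℂ) (z : ℝ) : Fin 6 → ℂ := ![φ z, 0, 0, deriv φ z, 0, deriv (deriv φ) z]

theorem jet_z {φ : ℝ → ℂ} (h : ContDiff ℝ ∞ φ) (i : Fin 6) (y : ℝ × ℝ) :
    jet (fun p => φ p.1) i y = zj φ y.1 i :=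
  (lj_z (.of_forall fun z => (h.differentiable (by simp) z).hasDerivAt)
    (((h.iterate_deriv 1).differentiable (by simp)) y.1).hasDerivAt).jet i

theorem zj_congr {φ ψ : ℝ → ℂ} (e : φ =ᶠ[𝓝 z] ψ) : zj φ z = zj ψ z := by
  simp only [zj, e.eq_of_nhds, e.deriv_eq, e.deriv.deriv_eq]

theorem zj_const (a : ℂ) (z : ℝ) : zj (fun _ => a) z = ![a, 0, 0, 0, 0, 0] := by simp [zj]

theorem cont_zj {φ : ℝ → ℂ} (h : ContDiff ℝ ∞ φ) (i : Fin 6) : Continuous fun z => zj φ z i := by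
  fin_cases i
  exacts [h.continuous, continuous_const, continuous_const, (h.iterate_deriv 1).continuous,
    continuous_const, (h.iterate_deriv 2).continuous]

theorem jet_h (i : Fin 6) (y : ℝ × ℝ) : jet (fun p => (p.1 : ℂ) ^ 2 - 2) i y = hj y.1 i := by
  have d : ∀ z : ℝ, HasDerivAt (fun z : ℝ => (z : ℂ)) 1 z := fun z => (hasDerivAt_id _).ofReal_comp
  exact (lj_z (y := y) (ζ := fun z => (z : ℂ) ^ 2 - 2) (ζ₁ := fun z => 2 * z) (ζ₂ := 2)
    (.of_forall fun z => by simpa using (d z).fun_pow 2) (by simpa using (d _).const_mul 2)).jet i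

theorem jet_lin (hF : ContDiffAt ℝ 2 F y) (hG : ContDiffAt ℝ 2 G y) (a : ℂ) (i : Fin 6) :
    jet (fun q => F q + a * G q) i y = jet F i y + a * jet G i y := by
  rw [jet_add hF (contDiffAt_const.mul hG), jet_mul contDiffAt_const hG]
  simp only [jet_z (φ := fun _ => a) contDiff_const, zj_const]
  fin_cases i <;> simp [jm]

/-- the slow cut-off function -/
def chi (z₃ z : ℝ) : ℂ := (1 - cut 1 (z / z₃) : ℝ)

theorem cd_chi (z₃ : ℝ) : ContDiff ℝ ∞ (chi z₃) := Complex.ofRealCLM.contDiff.comp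
  (contDiff_const.sub ((cd_cut 1).comp (contDiff_id.div_const z₃)))

theorem chi_lo {z₃ : ℝ} (h0 : 0 < z₃) (h : z < z₃) : zj (chi z₃) z = ![1, 0, 0, 0, 0, 0] := by
  rw [← zj_const _ z]
  refine zj_congr ((gt_mem_nhds h).mono fun x hx => ?_)
  simp [chi, cut_zero ((div_le_one h0).2 hx.le)]

theorem chi_hi {z₃ : ℝ} (h0 : 0 < z₃) (h : 2 * z₃ < z) : zj (chi z₃) z = 0 := by
  refine (zj_congr (ψ := fun _ => 0) ((lt_mem_nhds h).mono fun x hx => ?_)).trans (by simp [zj])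
  simp [chi, cut_one (a := 1) ((le_div_iff₀ h0).2 (by linarith : (1 + 1) * z₃ ≤ x))]

theorem bd_zj {φ : ℝ → ℂ} (h : ContDiff ℝ ∞ φ) (a : ℝ) {b : ℝ} (e : ∀ z, b < z → zj φ z = 0) :
    ∃ A, 0 ≤ A ∧ ∀ z, a ≤ z → ∀ i, ‖zj φ z i‖ ≤ A := by
  obtain ⟨A, hA⟩ := (isCompact_Icc (a := a) (b := b)).exists_bound_of_continuousOn
    (continuous_pi (cont_zj h)).continuousOn
  exact ⟨|A|, abs_nonneg _, fun z hz i => (le_or_gt z b).elim (fun k => ((norm_le_pi_norm _ i).trans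
    (hA z ⟨hz, k⟩)).trans (le_abs_self A)) fun k => by simp [e z k]⟩

theorem chi_bd : ∃ A, 0 ≤ A ∧ ∀ z₃ z : ℝ, 1 ≤ z₃ → 0 ≤ z → ‖chi z₃ z‖ ≤ A ∧
    ‖z * deriv (chi z₃) z‖ ≤ A ∧ ‖deriv (deriv (chi z₃)) z‖ ≤ A := by
  obtain ⟨A, A0, h⟩ := bd_zj (cd_chi 1) 0 fun z hz => chi_hi one_pos hz
  refine ⟨2 * A, by positivity, fun z₃ z h1 hz => ?_⟩
  have p := one_pos.trans_le h1
  have e : chi z₃ = fun z => chi 1 (z₃⁻¹ * z) := funext fun z => by simp [chi, inv_mul_eq_div]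
  have e1 : deriv (chi z₃) = fun z => z₃⁻¹ • deriv (chi 1) (z₃⁻¹ * z) :=
    funext fun z => by rw [e, deriv_comp_mul_left]
  have e2 : deriv (deriv (chi z₃)) z = z₃⁻¹ • z₃⁻¹ • deriv (deriv (chi 1)) (z₃⁻¹ * z) := by
    rw [e1, deriv_fun_const_smul_field, deriv_comp_mul_left]
  have k := h (z₃⁻¹ * z) (by positivity)
  have i1 := inv_le_one_of_one_le₀ h1
  refine ⟨e ▸ (k 0).trans (by linarith), (le_or_gt z (2 * z₃)).elim (fun l => ?_) fun l => ?_, ?_⟩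
  · have : z * z₃⁻¹ ≤ 2 := by rwa [mul_inv_le_iff₀ p]
    rw [e1, norm_mul, norm_smul, ← mul_assoc, Complex.norm_real, Real.norm_of_nonneg hz,
      Real.norm_of_nonneg (by positivity)]
    exact mul_le_mul this (k 3) (norm_nonneg _) zero_le_two
  · rw [show deriv (chi z₃) z = 0 from congrFun (chi_hi p l) 3]
    simpa using A0
  · rw [e2, norm_smul, norm_smul, Real.norm_of_nonneg (by positivity)]
    exact (mul_le_of_le_one_left (by positivity) i1).trans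
      ((mul_le_of_le_one_left (norm_nonneg _) i1).trans ((k 5).trans (by linarith)))

/-- slow cut-offs preserve weighted bounds -/
theorem le_jm {φ : ℝ → ℂ} {b : Fin 6 → ℝ × ℝ → ℂ} (A0 : 0 ≤ A) (s1 : ∀ z ∈ s, 1 ≤ z)
    (h : ∀ z ∈ s, ‖φ z‖ ≤ A ∧ ‖z * deriv φ z‖ ≤ A ∧ ‖deriv (deriv φ) z‖ ≤ A)
    (hb : ∀ i, Le s (b i) o K) (h3 : Le s (fun p => p.1 * b 3 p) o K) :
    (∀ i, Le s (fun p => jm (zj φ p.1) (fun i => b i p) i) o (4 * A * K)) ∧
      Le s (fun p => p.1 * jm (zj φ p.1) (fun i => b i p) 3) o (4 * A * K) := by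
  have m : ∀ {ψ : ℝ → ℂ} {F}, (∀ z ∈ s, ‖ψ z‖ ≤ A) → Le s F o K →
      Le s (fun p => ψ p.1 * F p) o (A * K) := fun e k =>
    k.mulz A0 k.w0 fun z hz => mul_le_mul_of_nonneg_right (e z hz) (k.w0 z hz)
  have m0 := fun {F} => m (F := F) fun z hz => (h z hz).1
  have m1 := fun {F} => m (F := F) (ψ := deriv φ) fun z hz => le_trans (by
    rw [norm_mul, Complex.norm_real, Real.norm_of_nonneg (zero_le_one.trans (s1 z hz))]
    exact le_mul_of_one_le_left (norm_nonneg _) (s1 z hz)) (h z hz).2.1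
  have AK := mul_nonneg A0 h3.M0
  have f : ∀ {F G N}, Le s F o N → N ≤ 4 * A * K → (∀ p, G p = F p) → Le s G o (4 * A * K) :=
    fun k l e => (k.mono subset_rfl (fun _ _ => le_rfl) l).congr fun _ _ _ => e _
  refine ⟨fun i => ?_, f ((m (fun z hz => (h z hz).2.1) (hb 0)).add (m0 h3)) (by linarith)
    fun p => by simp [jm, zj]; ring⟩
  fin_cases i
  · exact f (m0 (hb 0)) (by linarith) fun p => by simp [jm, zj]
  · exact f (m0 (hb 1)) (by linarith) fun p => by simp [jm, zj]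
  · exact f (m0 (hb 2)) (by linarith) fun p => by simp [jm, zj]
  · exact f ((m1 (hb 0)).add (m0 (hb 3))) (by linarith) fun p => by simp [jm, zj]
  · exact f ((m1 (hb 1)).add (m0 (hb 4))) (by linarith) fun p => by simp [jm, zj]
  · exact f ((((m (fun z hz => (h z hz).2.2) (hb 0)).add (m1 (hb 3))).add (m1 (hb 3))).add
      (m0 (hb 5))) (by linarith) fun p => by simp [jm, zj]; ring

/-- smooth periodic functions are elements of the algebra -/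
theorem ex_W (p : Per R₀ F) (h0 : R₀ < R) (l : R ≤ Z)
    (h : ∀ y : ℝ × ℝ, y.1 ∈ Icc R Z → ContDiffAt ℝ 2 F y) :
    ∃ x : WI R Z, ∀ z ∈ Icc R Z, ∀ θ, x (z, θ) = F (z, θ) := by
  obtain ⟨K, K1, k⟩ := j2_strip p h0 h
  obtain ⟨a, b⟩ := le_of_j2 (zero_le_one.trans K1) p (fun z hz => h0.trans_le hz.1) k
  exact ⟨_, fun z hz => (ret_cl l).toW_apply b a hz⟩

theorem unit_W (p : Per R₀ F) (h0 : R₀ < R) (l : R ≤ Z)
    (h : ∀ y : ℝ × ℝ, y.1 ∈ Icc R Z → ContDiffAt ℝ 2 F y ∧ F y ≠ 0) {x : WI R Z}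
    (e : ∀ z ∈ Icc R Z, ∀ θ, x (z, θ) = F (z, θ)) : IsUnit x := by
  obtain ⟨u, hu⟩ := ex_W (p.comp Inv.inv) h0 l fun y hy => (h y hy).1.inv (h y hy).2
  exact .of_mul_eq_one u ((ret_cl l).ext fun z hz θ => by
    rw [W.mul_apply, e z hz, hu z hz]; exact mul_inv_cancel₀ (h _ hz).2)

theorem cd_jet (h : ContDiffAt ℝ ∞ F y) (i : Fin 6) : ContDiffAt ℝ ∞ (jet F i) y := by
  have h1 := h.fderiv_right (m := ∞) le_rfl
  have h2 := h1.fderiv_right (m := ∞) le_rfl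
  fin_cases i
  exacts [h, h1.clm_apply contDiffAt_const,
    (h2.clm_apply contDiffAt_const).clm_apply contDiffAt_const, h1.clm_apply contDiffAt_const,
    (h2.clm_apply contDiffAt_const).clm_apply contDiffAt_const,
    (h2.clm_apply contDiffAt_const).clm_apply contDiffAt_const]

/-- values of a derivative -/
theorem fd_ev {X : Type} [NormedAddCommGroup X] [NormedSpace ℂ X] {r : ℝ → ℝ} {Φ : X → W r}
    {x d : X} (h : DifferentiableAt ℂ Φ x) {f : ℂ → ℂ} {a : ℂ} (k : HasDerivAt f a 0)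
    (e : ∀ᶠ t : ℂ in 𝓝 0, Φ (x + t • d) y = f t) : fderiv ℂ Φ x d y = a :=
  ((W.ev y).toContinuousLinearMap.hasFDerivAt.comp_hasDerivAt _ (h.hasFDerivAt.comp_hasDerivAt_of_eq
    _ (P218T.hd_line x d) (by simp))).unique (k.congr_of_eventuallyEq e)

/-- the denominators are units -/
def Un (V : Fin 6 → WI R Z) : Prop := IsUnit (V 0) ∧ IsUnit (vD (V 0) (V 3) (V 1))

theorem Un.ev {V : Fin 6 → WI R Z} (h : Un V) : ∀ᶠ V' in 𝓝 V, Un V' :=
  ((continuous_apply 0).continuousAt.eventually (Units.isOpen.mem_nhds h.1)).and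
    ((show ContinuousAt (fun V : Fin 6 → WI R Z => vD (V 0) (V 3) (V 1)) V by
      unfold vD; fun_prop).eventually (Units.isOpen.mem_nhds h.2))

theorem Un.d {V : Fin 6 → WI R Z} (h : Un V) (a : ℂ) (y : ℝ × ℝ) :
    DifferentiableAt ℂ (vJ 1 a) fun i => V i y :=
  d_vJ (W.ne_zero_of_isUnit h.1 y) (by simpa [vD] using W.ne_zero_of_isUnit h.2 y)

theorem Un.fd {V : Fin 6 → WI R Z} (h : Un V) (l : R ≤ Z) (d : Fin 6 → WI R Z) (hz : z ∈ Icc R Z)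
    (θ : ℝ) : fderiv ℂ (VV R Z) V d (z, θ) =
      fderiv ℂ (vJ 1 z) (fun i => V i (z, θ)) fun i => d i (z, θ) := by
  refine fd_ev (VV_an h.1 h.2).differentiableAt (hd_fd (h.d _ _) _) ?_
  have : ∀ᶠ t : ℂ in 𝓝 0, Un (V + t • d) :=
    (P218T.hd_line V d).continuousAt.eventually (by simpa using h.ev)
  exact this.mono fun t k => VV_ev l k.1 k.2 hz θ

theorem fd_RR {J : Fin 6 → WI R Z} (h : Un (rJ c R Z + J)) (d : Fin 6 → WI R Z) :
    fderiv ℂ (RR c R Z) J d = fderiv ℂ (VV R Z) (rJ c R Z + J) d - LW c R Z d := by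
  have := (((VV_an h.1 h.2).differentiableAt.hasFDerivAt.comp J
    ((hasFDerivAt_id J).const_add _)).sub (LW c R Z).hasFDerivAt).fderiv
  exact congrArg (· d) this

theorem rJ_rj (l : R ≤ Z) (hz : z ∈ Icc R Z) (θ : ℝ) (i : Fin 6) :
    rJ c R Z i (z, θ) = ![2, 0, 0, 0, 0, 0] i + c * hj z i := by
  rw [rJ_ev l hz]
  fin_cases i <;> simp [hj, rh] <;> ring

theorem nu_eq (h : 0 ≤ w z) (i : Fin 6) : nu w c Z i z = w z * nu (fun _ => 1) c Z i z := by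
  simpa using nu_mul (w := fun _ => 1) h i

/-- the heavy size of functions of `z` -/
theorem xn_z (h : Cyl Y R Z c) (Y1 : 1 ≤ Y) (R1 : 1 ≤ R) (p : PW (Icc R Z) w)
    {φ : Fin 6 → ℝ → ℂ} (A0 : 0 ≤ A)
    (b : ∀ z ∈ Icc R Z, ∀ i, ‖φ i z‖ ≤ A * ![z ^ 2, 0, 0, z, 0, 1] i) :
    XN (Icc R Z) (fun i z => hv c z * omW w c Z i z) (fun i z => hv c z * nu w c Z i z)
      (fun i p => φ i p.1) (4 * A) := fun i => by
  have Y0 := one_pos.trans_le Y1
  obtain ⟨-, -, pO, pH, pR, -⟩ := pw_all h Y1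
  have po := pw_om h Y0 p pR (pO.add isCompact_Icc pR) i
  refine l2_z A0 (fun z hz => ⟨(mul_pos (pH.pos hz) (po.pos hz)).le, (b z hz i).trans ?_⟩)
    fun z hz => (mul_pos (pH.pos hz) ((pw_nu h Y0 p i).pos hz)).le
  have k := (mul_pos (pH.pos hz) (po.pos hz)).le
  have z1 := R1.trans hz.1
  have e : hv c z * (rh c z).re = z ^ 2 := div_mul_cancel₀ _ (pR.pos hz).ne'
  have e' : z ^ 2 ≤ hv c z * (gO c Z z + (rh c z).re) := by
    nlinarith [mul_pos (pH.pos hz) (pO.pos hz)]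
  refine mul_le_mul_of_nonneg_left ?_ A0
  fin_cases i
  exacts [e.ge, k, k, by
    simp only [omW, P218W.om, Fin.reduceFinMk, Matrix.cons_val, ← mul_div_assoc]
    rw [le_div_iff₀ (by linarith)]
    linarith, k, (one_le_pow₀ z1).trans e']

/-- the heavy data weights near the cylinder -/
theorem wt_lo (z1 : 1 ≤ z) (h : ‖c‖ * z ^ 2 ≤ 1 / 3) (Z : ℝ) :
    √z ≤ 9 * (hv c z * gO c Z z) ∧ √z ≤ 9 * gW (wK (19 / 32) c) c Z z ∧ 1 ≤ ‖rh c z‖ := by
  have z0 := one_pos.trans_le z1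
  have b : ‖c * ((z : ℂ) ^ 2 - 2)‖ ≤ 1 := by
    rw [norm_mul]
    have : ‖(z : ℂ) ^ 2 - 2‖ ≤ z ^ 2 + 2 := (norm_sub_le _ _).trans (by simp)
    nlinarith [norm_nonneg c, one_le_pow₀ (n := 2) z1]
  have x1 : 1 ≤ (rh c z).re := by
    have := (abs_le.1 ((Complex.abs_re_le_norm _).trans b)).1
    rw [rh, Complex.add_re, Complex.re_ofNat]
    linarith
  have n1 := x1.trans (Complex.re_le_norm _)
  have n3 : ‖rh c z‖ ≤ 3 := (norm_add_le _ _).trans (by rw [Complex.norm_ofNat]; linarith)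
  have x3 := (Complex.re_le_norm _).trans n3
  have l := (mul_pos (pow_pos z0 2) (ly_pos Z z)).le
  rw [Real.sqrt_eq_rpow]
  refine ⟨?_, ?_, n1⟩
  · have e : z ^ (1 / 2 : ℝ) = z ^ 2 * z ^ (-3 / 2 : ℝ) := by
      rw [← Real.rpow_ofNat, ← Real.rpow_add z0]; norm_num
    have k := Real.one_le_rpow x1 (by norm_num : (0 : ℝ) ≤ 1 / 4)
    have i : 3⁻¹ ≤ (rh c z).re⁻¹ := inv_anti₀ (by linarith) x3
    rw [e, hv, gO, wO, div_eq_mul_inv (z ^ 2)]
    calc _ = 9 * (z ^ 2 * 3⁻¹ * (z ^ (-3 / 2 : ℝ) * 1 * (3⁻¹ + 0))) := by ring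
      _ ≤ _ := by gcongr
  · have k := Real.one_le_rpow n1 (by norm_num : (0 : ℝ) ≤ 19 / 32)
    have e := Real.rpow_le_rpow_of_exponent_le z1 (by norm_num : (1 / 2 : ℝ) ≤ 2 - 2 * (19 / 32))
    have i : 9⁻¹ ≤ sg c z := by
      rw [sg, Complex.inv_re, Complex.normSq_eq_norm_sq, le_div_iff₀ (by positivity)]
      nlinarith
    rw [gW, wK]
    calc _ = 9 * (z ^ (1 / 2 : ℝ) * 1 * (9⁻¹ + 0)) := by ring
      _ ≤ _ := by gcongr

end Vale.Agent.P218I.Fd
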