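import Vale.Agent.P218I.Spec
import Vale.Agent.P218C.Conw
import Vale.Agent.P218W.Fc

/-!
# P218, row I.FARK: the far zone of a conical end
-/

open Set Filter Topology
open scoped ContDiff Real

noncomputable section

namespace Vale.Agent.P218I

open Vale.Agent.P218T Vale.Agent.P218L
open Vale.Agent.P218N (kD kH kE)
open Vale.Agent.P218W (W Le jet toW cst XK ret_max)

namespace Fk

/-- the operator on normalised jets with values in an algebra -/
def kA {A : Type} [CommRing A] (l κ κ' : A) (J : Fin 7 → A) : A :=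
  kE l κ κ' (J 0) (J 1) (J 2) (J 3) (J 4) (J 5) (J 6)

theorem kA_cd {A : Type} [NormedCommRing A] [NormedAlgebra ℂ A] [CompleteSpace A] {l κ κ' : A}
    {J : Fin 7 → A} (h : IsUnit (kD l κ (J 0) (J 1) (J 3))) : ContDiffAt ℂ 2 (kA l κ κ') J := by
  have j := ((analyticOnNhd_inverse (𝕜 := ℂ) _ h).contDiffAt (n := 2)).comp J
    (f := fun J : Fin 7 → A => kD l κ (J 0) (J 1) (J 3)) (by unfold kD; fun_prop)
  unfold kA kE kH
  simp only [Function.comp_def] at j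
  fun_prop

theorem kD_ev {r : ℝ → ℝ} (l κ a b c : W r) (p : ℝ × ℝ) :
    kD l κ a b c p = kD (l p) (κ p) (a p) (b p) (c p) := rfl

theorem kA_ev {r : ℝ → ℝ} {l κ κ' : W r} {J : Fin 7 → W r}
    (h : IsUnit (kD l κ (J 0) (J 1) (J 3))) (p : ℝ × ℝ) :
    kA l κ κ' J p = kA (l p) (κ p) (κ' p) fun i => J i p := by
  simp only [kA, kE, W.sub_apply, W.mul_apply, W.inverse_apply h, Ring.inverse_eq_inv, kD_ev]
  rfl

theorem cont_jet {F : ℝ × ℝ → ℂ} {y : ℝ × ℝ} (h : ContDiffAt ℝ ∞ F y) (i : Fin 6) :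
    ContinuousAt (jet F i) y := by
  have h1 : ContDiffAt ℝ ∞ (fderiv ℝ F) y := h.fderiv_right le_rfl
  have h2 := (h1.fderiv_right (m := ∞) le_rfl).continuousAt
  fin_cases i
  exacts [h.continuousAt, h1.continuousAt.clm_apply continuousAt_const,
    (h2.clm_apply continuousAt_const).clm_apply continuousAt_const,
    h1.continuousAt.clm_apply continuousAt_const,
    (h2.clm_apply continuousAt_const).clm_apply continuousAt_const,
    (h2.clm_apply continuousAt_const).clm_apply continuousAt_const]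

theorem cont_jk {F : ℝ × ℝ → ℂ} {y : ℝ × ℝ} (h : ContDiffAt ℝ ∞ F y) (hy : 0 < y.1) (i : Fin 7) :
    ContinuousAt (fun y : ℝ × ℝ => jk y.1 (fun i => jet F i y) i) y := by
  have c := cont_jet h
  have z : ContinuousAt (fun y : ℝ × ℝ => (y.1 : ℂ)) y := by fun_prop
  have n : (y.1 : ℂ) ≠ 0 := by exact_mod_cast hy.ne'
  fin_cases i
  exacts [(c 0).div z n, (c 1).div z n, (c 2).div z n, c 3, c 4, z.mul (c 5),
    z.mul ((z.mul (c 3)).sub (c 0))]

open Cw in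
/-- the background in the algebra -/
theorem base (cw : CONW) (cj : CONJ) {γ n : ℝ → E3} {g : ℝ × ℝ → ℝ} (hl : IsLink γ n)
    (h : Decays g) {R₁ : ℝ}
    (he : ∀ y : ℝ × ℝ, R₁ < y.1 → kJ γ n y.2 (jk y.1 fun i => jet (uS g) i y) = 0) :
    ∀ᶠ R in atTop, ∃ (κ κ' : W (max R)) (B : Fin 7 → W (max R)),
      IsUnit (kD (algebraMap ℂ _ (spd γ : ℂ)) κ (B 0) (B 1) (B 3)) ∧ ∀ z, R ≤ z → ∀ θ,
        κ (z, θ) = kap γ n θ ∧ κ' (z, θ) = (deriv (kap γ n) θ : ℝ) ∧
        ∀ i, B i (z, θ) = jk z (fun i => jet (uS g) i (z, θ)) i := by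
  obtain ⟨l0, -, sk, pk, -⟩ := cj γ n hl
  obtain ⟨c1, c2, c3⟩ := cw γ n g hl h
  have sk' := (contDiff_infty_iff_deriv.1 sk).2
  have sG : ∀ k : Fin 6, Sm fun y => jk y.1 (fun i => jet (uS g) i y) k.castSucc := fun k η e =>
    let ⟨R, _, hR⟩ := c2 η e
    (eventually_ge_atTop R).mono fun _ l => (hR k).mono (Ici_subset_Ici.2 l) (fun _ _ => le_rfl)
      le_rfl
  have bG : ∀ k : Fin 7, (fun y : ℝ × ℝ => jk y.1 (fun i => jet (uS g) i y) k) ∈ Bd := fun k => by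
    refine Fin.lastCases ?_ (fun k => (sG k).bd) k
    obtain ⟨R, -, K, hR, -⟩ := c3 R₁ he
    exact ⟨K, (eventually_ge_atTop R).mono fun _ l => hR.mono (Ici_subset_Ici.2 l)
      (fun _ _ => le_rfl) le_rfl⟩
  obtain ⟨J, hJ⟩ : ∃ J : Fin 7 → Bd, ∀ k, (J k).1 = fun y => jk y.1 (fun i => jet (uS g) i y) k :=
    ⟨fun k => ⟨_, bG k⟩, fun _ => rfl⟩
  have q : ∀ k : Fin 6, Ideal.Quotient.mk SmI (J k.castSucc) = 0 := fun k =>
    Ideal.Quotient.eq_zero_iff_mem.2 (show Sm _ from hJ _ ▸ sG k)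
  have q0 : Ideal.Quotient.mk SmI (J 0) = 0 := q 0
  have q1 : Ideal.Quotient.mk SmI (J 1) = 0 := q 1
  have q3 : Ideal.Quotient.mk SmI (J 3) = 0 := q 3
  have s1 : kD (algebraMap ℂ Bd (spd γ : ℂ)) ⟨_, bd_per sk pk⟩ (J 0) (J 1) (J 3) -
      algebraMap ℂ Bd (spd γ : ℂ) ^ 2 ∈ SmI := Ideal.Quotient.eq.1 (by simp [kD, q0, q1, q3])
  have p2 : 0 < ‖(spd γ : ℂ) ^ 2‖ := norm_pos_iff.2 (pow_ne_zero 2 (by exact_mod_cast l0.ne'))
  choose K hK using bG
  obtain ⟨_, k1⟩ := bd_per sk pk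
  obtain ⟨_, k2⟩ := bd_per sk' (per_deriv pk)
  filter_upwards [eventually_gt_atTop 0, eventually_all.2 hK, k1, k2, s1 _ (half_pos p2)]
    with R R0 hB h1 h2 h3
  have r := ret_max R
  have a1 := fun z (hz : R ≤ z) θ => r.toW_apply (Continuous.continuousOn
    (Complex.continuous_ofReal.comp (sk.continuous.comp continuous_snd))) h1 hz θ
  have a2 := fun z (hz : R ≤ z) θ => r.toW_apply (Continuous.continuousOn
    (Complex.continuous_ofReal.comp (sk'.continuous.comp continuous_snd))) h2 hz θ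
  have a3 := fun i z (hz : R ≤ z) θ => r.toW_apply (fun y hy => (cont_jk (c1 y (R0.trans_le hy.1))
    (R0.trans_le hy.1) i).continuousWithinAt) (hB i) hz θ
  refine ⟨_, _, fun i => toW (Ici R) (max R) fun y => jk y.1 (fun i => jet (uS g) i y) i,
    r.isUnit_of_le (ρ := fun _ => (spd γ : ℂ) ^ 2) p2 (fun _ _ => le_rfl)
      ((h3.wt (C := ‖(spd γ : ℂ) ^ 2‖⁻¹) (by positivity) (fun _ _ => p2.le) fun _ _ => ?_).congr
        fun z hz θ => ?_) (le_of_eq ?_), fun z hz θ => ⟨a1 z hz θ, a2 z hz θ, fun i => a3 i z hz θ⟩⟩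
  · rw [inv_mul_cancel₀ p2.ne']
  · rw [kD_ev, a1 z hz, a3 0 z hz, a3 1 z hz, a3 3 z hz, ← congrFun (hJ 0) (z, θ),
      ← congrFun (hJ 1) (z, θ), ← congrFun (hJ 3) (z, θ)]
    rfl
  · field_simp

/-- a `C²` map near zero -/
theorem loc {X Y : Type} [NormedAddCommGroup X] [NormedSpace ℂ X] [NormedAddCommGroup Y]
    [NormedSpace ℂ Y] {F : X → Y} {T : X →L[ℂ] Y} (h : ContDiffAt ℂ 2 F 0)
    (e : fderiv ℂ F 0 = T) : ∀ᶠ C in atTop, ∀ᶠ J in 𝓝 (0 : X), DifferentiableAt ℂ F J ∧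
      ‖F J - T J‖ ≤ C ∧ ∀ J', ‖fderiv ℂ F J J' - T J'‖ ≤ C * ‖J‖ * ‖J'‖ := by
  obtain ⟨K, t, ht, hK⟩ := (h.fderiv_right (m := 1) le_rfl).exists_lipschitzOnWith
  have c : ContinuousAt (fun J => ‖F J - T J‖) 0 := (h.continuousAt.sub T.continuous.continuousAt).norm
  filter_upwards [eventually_ge_atTop (K : ℝ), eventually_gt_atTop ‖F 0 - T 0‖] with C h1 h2
  filter_upwards [h.eventually (by simp), c.eventually (eventually_le_nhds h2), ht] with J k1 k2 k3
  refine ⟨k1.differentiableAt two_ne_zero, k2, fun J' => ?_⟩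
  have := hK.dist_le_mul J k3 0 (mem_of_mem_nhds ht)
  rw [dist_zero_right, dist_eq_norm, e] at this
  exact ((fderiv ℂ F J - T).le_opNorm J').trans (by gcongr; exact this.trans (by gcongr))

end Fk

open Fk GD in
/-- **FARK** -/
theorem fark (cw : CONW) (cj : CONJ) (eqs : EQS) : FARK := by
  intro M g
  obtain ⟨z₁, hz₁⟩ := eventually_atTop.1 (eventually_all.2 fun l =>
    base cw cj (g.ended.link l) (g.ended.cone l) ((eqs M g).2 l))
  refine ⟨z₁, fun k G hz o => ?_⟩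
  have r := ret_max G.z₀
  have fk : ∀ z, G.z₀ ≤ z → ∀ θ, G.fk (z, θ) = (1 - G.chn z : ℝ) := fun z hz θ =>
    r.cst_apply (φ := fun z => ((1 - G.chn z : ℝ) : ℂ)) (C := 1) (Continuous.continuousOn (by
      unfold LD.chn; fun_prop)) (fun z _ => by
        rw [Complex.norm_real, LD.chn, sub_sub_cancel,
          Real.norm_of_nonneg (Real.smoothTransition.nonneg _)]
        exact Real.smoothTransition.le_one _) hz θ
  have key : ∀ l, n3k l (0 : XK G.z₀) = 0 ∧ ∀ᶠ C in atTop, ∀ᶠ J in 𝓝 (0 : XK G.z₀),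
      DifferentiableAt ℂ (n3k l) J ∧ ‖n3k l J - G.fk * G.TS l J‖ ≤ C ∧
      (∀ z, G.z₀ ≤ z → ∀ θ, n3k l J (z, θ) = (1 - G.chn z : ℝ) * Ek l J (z, θ)) ∧
      ∀ J', ‖fderiv ℂ (n3k l) J J' - G.fk * G.TS l J'‖ ≤ C * ‖J‖ * ‖J'‖ := fun l => by
    refine ⟨r.toW_eq fun z hz θ => ?_, ?_⟩
    · have := (eqs M g).2 l (z, θ) (by linarith [o.ld.lo, mem_Ici.1 hz])
      simp only [Ek, W.zero_apply, Submodule.coe_zero, Pi.zero_apply, ← Pi.zero_def, add_zero,
        this, zero_div, mul_zero]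
    obtain ⟨κ, κ', B, u, hB⟩ := hz₁ _ hz l
    let F : XK G.z₀ → W (max G.z₀) := fun J =>
      (2 * spd (M.γ l) : ℂ)⁻¹ • kA (algebraMap ℂ _ (spd (M.γ l) : ℂ)) κ κ' (B + J.1)
    have a : ContDiff ℂ 2 fun J : XK G.z₀ => B + J.1 :=
      contDiff_const.add (XK G.z₀).subtypeL.contDiff
    have hF : ContDiffAt ℂ 2 F 0 :=
      (ContDiffAt.comp (g := kA _ κ κ') 0 (kA_cd (by simpa using u)) a.contDiffAt).const_smul _
    have hu : ∀ᶠ J : XK G.z₀ in 𝓝 0, IsUnit (kD (algebraMap ℂ _ (spd (M.γ l) : ℂ)) κ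
        ((B + J.1) 0) ((B + J.1) 1) ((B + J.1) 3)) := by
      have c : Continuous fun J : XK G.z₀ => kD (algebraMap ℂ _ (spd (M.γ l) : ℂ)) κ
          ((B + J.1) 0) ((B + J.1) 1) ((B + J.1) 3) := by
        have := a.continuous
        unfold kD
        fun_prop
      exact c.continuousAt.eventually (Units.isOpen.mem_nhds (by simpa using u))
    have hv : ∀ᶠ J : XK G.z₀ in 𝓝 0, ∀ z, G.z₀ ≤ z → ∀ θ, F J (z, θ) = Ek l J (z, θ) :=
      hu.mono fun J u z hz θ => by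
        simp only [F, W.smul_apply, kA_ev u, Pi.add_apply, W.add_apply, hB z hz θ,
          W.algebraMap_apply, Ek, div_eq_inv_mul]
        rfl
    have hn : n3k l =ᶠ[𝓝 0] fun J => G.fk * F J := hv.mono fun J v =>
      r.toW_eq fun z hz θ => by rw [W.mul_apply, fk z hz, v z hz]
    have hD : fderiv ℂ F 0 = G.TS l := ContinuousLinearMap.ext fun J' => r.ext fun z hz θ => by
      let E : XK G.z₀ →L[ℂ] Fin 7 → ℂ := .pi fun i => (W.ev (z, θ)).toContinuousLinearMap ∘L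
        .proj i ∘L (XK G.z₀).subtypeL
      have u' : IsUnit (kD (spd (M.γ l) : ℂ) (kap (M.γ l) (M.n l) θ)
          (jk z (fun i => jet (uS (M.g l)) i (z, θ)) 0) (jk z (fun i => jet (uS (M.g l)) i (z, θ)) 1)
          (jk z (fun i => jet (uS (M.g l)) i (z, θ)) 3)) := by
        have := u.map (W.ev (z, θ))
        rwa [W.ev_apply, kD_ev, (hB z hz θ).1, (hB z hz θ).2.2, (hB z hz θ).2.2, (hB z hz θ).2.2]
          at this
      have d1 : HasFDerivAt (kJ (M.γ l) (M.n l) θ) (fderiv ℂ (kJ (M.γ l) (M.n l) θ)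
          (jk z fun i => jet (uS (M.g l)) i (z, θ)))
          (jk z (fun i => jet (uS (M.g l)) i (z, θ)) + E 0) := by
        rw [map_zero, add_zero]
        exact ((kA_cd u').differentiableAt two_ne_zero).hasFDerivAt
      have d2 := ((d1.comp 0 (E.hasFDerivAt.const_add _)).mul_const
        (2 * spd (M.γ l) : ℂ)⁻¹).congr_of_eventuallyEq (f₁ := fun J => F J (z, θ))
          (hv.mono fun J v => v z hz θ)
      have d3 := (W.ev (z, θ)).toContinuousLinearMap.hasFDerivAt.comp 0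
        (hF.differentiableAt two_ne_zero).hasFDerivAt
      have e := congrArg (fun L : XK G.z₀ →L[ℂ] ℂ => L J') (d3.unique d2)
      rw [o.cone l J' (z, θ) hz, DK, div_eq_inv_mul]
      exact e
    have hG : ContDiffAt ℂ 2 (n3k l) (0 : XK G.z₀) :=
      (contDiffAt_const.mul hF).congr_of_eventuallyEq hn
    have hE : fderiv ℂ (n3k l) (0 : XK G.z₀) = .mul ℂ _ G.fk ∘L G.TS l := by
      rw [hn.fderiv_eq, ← hD]
      exact ((ContinuousLinearMap.mul ℂ _ G.fk).hasFDerivAt.comp 0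
        (hF.differentiableAt two_ne_zero).hasFDerivAt).fderiv
    filter_upwards [loc hG hE] with C hC
    filter_upwards [hC, hn, hv] with J h1 h2 h3
    exact ⟨h1.1, h1.2.1, fun z hz θ => by rw [h2, W.mul_apply, fk z hz, h3 z hz], h1.2.2⟩
  obtain ⟨C, hC⟩ := (eventually_all.2 fun l => (key l).2).exists
  obtain ⟨r₀, r0, hr⟩ := Metric.eventually_nhds_iff.1 (eventually_all.2 hC)
  exact ⟨r₀, C, r0, fun l => ⟨(key l).1, fun J hJ => hr (by rwa [dist_zero_right]) l⟩⟩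

end Vale.Agent.P218I
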