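import Vale.Agent.P218I.Bas
import Vale.Agent.P218N.Spec3
import Vale.Agent.P218N.Elp
import Vale.Agent.P218N.Bv

/-!
# P218, INST: the first variation at a solution
-/

open MeasureTheory Set Filter Topology
open scoped ContDiff Real

noncomputable section

namespace Vale.Agent.P218I

open Vale.Agent.P218T Vale.Agent.P218L GD
open Vale.Agent.P218N (jt FVA sig dt kk pd nu rh0 Tf Df Gf av elp bv lk km fl)
open Vale.Agent.P218T.HJ (Tb)

namespace Fv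

section
variable {X Y : Type} [NormedAddCommGroup X] [NormedSpace ℂ X] [NormedAddCommGroup Y]
  [NormedSpace ℂ Y] {F : X → Y} {y : X}

theorem line (h : DifferentiableAt ℂ F y) (y' : X) :
    HasDerivAt (fun s : ℂ => F (y + s • y')) (fderiv ℂ F y y') 0 := by
  have : HasFDerivAt F (fderiv ℂ F y) (y + (0 : ℂ) • y') := by simpa using h.hasFDerivAt
  have := this.comp_hasDerivAt 0 (((hasDerivAt_id (0 : ℂ)).smul_const y').const_add y)
  rwa [one_smul] at this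

theorem aff (a b : Y) : HasDerivAt (fun s : ℂ => a + s • b) b 0 := by
  simpa using ((hasDerivAt_id (0 : ℂ)).smul_const b).const_add a

end

variable {M : Mod} {k : ℕ} {G : GD M k} {Z : Fin M.n₁ → ℝ} {z₃ : ℝ} {m : Fin M.n₁ → ℝ}
  (y y' : G.XX Z × Pm (Fin M.n₁))

theorem par_hd : HasDerivAt (fun s : ℂ => par m (y + s • y')) (pad y') 0 := by
  have : (fun s : ℂ => par m (y + s • y')) = fun s => par m y + s • pad y' := funext fun s =>
    Prod.ext rfl (Prod.ext rfl (Prod.ext rfl (Prod.ext rfl (by simp [par, pad]))))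
  rw [this]
  exact aff _ _

/-- the divergence term -/
def dv (z₃ : ℝ) (m : Fin M.n₁ → ℝ) (y y' : G.XX Z × Pm (Fin M.n₁)) (x : E3) : ℂ :=
  dt (vs z₃ m y x) (kk (pd (Xs z₃ m y) x) (pd (Ys z₃ m y y') x) (nu M.w x))
    - dt (Ys z₃ m y y' x) (kk (pd (vs z₃ m y) x) (pd (Xs z₃ m y) x) (nu M.w x))

variable {y}

theorem pt {x : E3} (h0 : DifferentiableAt ℂ (fun y => Ii z₃ m y x) y)
    (h1 : ContDiffAt ℝ 2 (ft z₃ y) x) (h2 : ContDiffAt ℝ 2 (fd y y') x)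
    (h3 : ∀ i, Differentiable ℂ (fun y : G.XX Z × Pm (Fin M.n₁) => jt (ft z₃ y) x none i) ∧
      ∀ y y', fderiv ℂ (fun y : G.XX Z × Pm (Fin M.n₁) => jt (ft z₃ y) x none i) y y' =
        jt (fd y y') x none i)
    (h4 : (G.ad Z).Gd x (jt (ft z₃ y) x) (par m y))
    (h5 : (G.ad Z).fn x (jt (ft z₃ y) x) (par m y) ≠ 0 ∧
      (∀ l, (G.ad Z).rot l x = 0 ∧ (G.ad Z).sh l x = 0) ∨ Far m y x)
    (h6 : (G.ad Z).E x (jt (ft z₃ y) x) (par m y) = 0) :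
    (ContDiffAt ℝ 2 (Xs z₃ m y) x ∧ ContDiffAt ℝ 1 (Ys z₃ m y y') x ∧
      ContDiffAt ℝ 1 (vs z₃ m y) x) ∧
    dv z₃ m y y' x = fderiv ℂ (fun y => Ii z₃ m y x) y y'
      - fd y y' x * rh0 x * (G.ad Z).lag x (par m y) - ∑ l, y'.2.2.2.1 l * Io z₃ m y l x := by
  have e := elp _ _ (G.ad Z) x (ft z₃ y) (fd y y') (par m y) (pad y')
    (fun s => jt (ft z₃ (y + s • y')) x) (fun s => par m (y + s • y')) 0 h4 h1
    (h2.of_le (by norm_num)) rfl (fun i => by rw [zero_smul, add_zero])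
    (by rw [zero_smul, add_zero]) (fun i => by rw [← (h3 i).2]; exact line ((h3 i).1 y) y')
    (par_hd y y') h6 h5
  refine ⟨e.1, ?_⟩
  rw [(line h0 y').unique e.2]
  exact ((add_sub_cancel_right _ _).symm.trans (congrArg (· - _)
    (add_sub_cancel_right _ _).symm)).trans (sub_right_comm _ _ _)

theorem bd {J₀ J : ℕ} {j : Fin M.n₁}
    (h0 : DifferentiableAt ℂ (fun y : G.XX Z × Pm (Fin M.n₁) =>
      Tf J₀ J y.2.2.2.2 (Zb y j) (Vb y j)) y)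
    (h1 : Zb y j ≠ 0) (h2 : 0 < (Vb y j).re)
    (h3 : 1 + y.2.2.2.1 j * lk (km (m j)) (Zb y j ^ 2 + Vb y j) ≠ 0) (h4 : Continuous (pb y j))
    (h5 : ∀ θ, ‖pb y j θ‖ ^ 2 ≤ 2 * ‖Vb y j‖ ∧ Vt z₃ y j (Z j, θ) 0 = Vb y j ∧
      Vt z₃ y j (Z j, θ) 1 = 0 ∧ Vt z₃ y j (Z j, θ) 3 = pb y j θ) (h6 : Bj J₀ J m y j = 0) :
    fderiv ℂ (fun y : G.XX Z × Pm (Fin M.n₁) => Tf J₀ J y.2.2.2.2 (Zb y j) (Vb y j)) y y' =
      Df J₀ J y.2.2.2.2 (y.2.2.2.1 j) (km (m j)) (Zb y j) (Vb y j) (pb y j) * y'.2.2.1 j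
        + 2 * π * (Tb J (Zb y j) (Vb y j) - Tb J₀ (Zb y j) (Vb y j)) * y'.2.2.2.2
        - ∫ θ in (0 : ℝ)..2 * π, Gf (FQ (M.Q j) θ) (av (ro y.1 j) (ro y'.1 j))
          (Oc m y j (Zb y j) (Vb y j)) (Zb y j) 1 (y'.2.2.1 j) (y'.2.1 j * (Zb y j ^ 2 - 2)
            + 2 * y.2.1 j * Zb y j * y'.2.2.1 j) (Vt z₃ y j (Z j, θ)) := by
  have z : y + (0 : ℂ) • y' = y := by rw [zero_smul, add_zero]
  have a : HasDerivAt (fun s : ℂ => Zb (y + s • y') j) (y'.2.2.1 j) 0 :=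
    (aff (y.2.2.1 j) (y'.2.2.1 j)).const_add (Z j : ℂ)
  have b : HasDerivAt (fun s : ℂ => Vb (y + s • y') j)
      (y'.2.1 j * (Zb y j ^ 2 - 2) + 2 * y.2.1 j * Zb y j * y'.2.2.1 j) 0 := by
    refine (((aff (y.2.1 j) (y'.2.1 j)).mul ((a.pow 2).sub_const 2)).const_add 2).congr_deriv ?_
    simp only [z, Pi.pow_apply, zero_smul, add_zero]
    norm_num
    ring
  have e := bv (M.Q j) (av (ro y.1 j) (ro y'.1 j)) J₀ J (y.2.2.2.1 j) (km (m j)) _ _ _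
    (fun s => (y + s • y').2.2.2.2) (fun s => Zb (y + s • y') j) (fun s => Vb (y + s • y') j) 0
    (pb y j) (fun θ => Vt z₃ y j (Z j, θ)) (aff y.2.2.2.2 y'.2.2.2.2) a b
  simp only [z] at e
  exact (line h0 y').unique (e h1 h2 h3 h4 h5 h6)

end Fv

open Fv

theorem fv (fva : FVA) (jth : JTH) (gds : GDS) (hi : HI) (hb : HB) (flc : FLC) (flk : FLK)
    (lag : LAG) (snd : SOUND) : Fld Obj.FV := by
  refine (((jth.and gds).and (hi.and hb)).and ((flc.and flk).and (lag.and snd))).mono ?_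
  rintro M k G o ⟨⟨⟨jth, gds⟩, hi, hb⟩, ⟨flc, flk⟩, lag, snd⟩
  filter_upwards [gds, hi, hb, flc, flk, lag, snd, ev_W fun _ => G.ρ + 12,
    ev_cs (ev₀_z fun _ _ => G.ρ + 9), ev_ad] with p gds hi hb flc flk lag snd hW h2 ad y hy a hF y'
  have h3 := fun j => (hW j).1
  have hm : ∀ j, p.Z / 25 ≤ p.m j := fun j => by linarith [(ad.hW j).1, (ad.hm j).1]
  replace jth := jth p.W p.z₃ h3 h2
  obtain ⟨s1, s2, -⟩ := (snd y hy).2 a hF
  obtain ⟨i1, i2, -, -, i3, -, i4⟩ := hi y hy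
  obtain ⟨ms, fva⟩ := fva M o.ld.geo p.W fun j => by linarith [h3 j, o.ld.lo, o.ld.hi]
  change MeasurableSet (SW p.W) at ms
  have e := fun x (hx : x ∈ SW p.W) => pt y' (i1 x hx) ((jth x hx).1 y y').1
    ((jth x hx).1 y y').2.1 (jth x hx).2 (gds y hy _ hm x hx).1 (gds y hy _ hm x hx).2.1 (s1 x hx)
  have i5 : ∀ l, IntegrableOn (fun x => y'.2.2.2.1 l * Io p.z₃ p.m y l x) (SW p.W) (sig M.w) :=
    fun l => (i4 _ hm l).const_mul _
  have i6 := integrable_finsetSum Finset.univ fun l _ => i5 l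
  have i7 : IntegrableOn (fun x => fderiv ℂ (fun y => Ii p.z₃ p.m y x) y y' -
      fd y y' x * rh0 x * (G.ad p.W).lag x (par p.m y)) (SW p.W) (sig M.w) :=
    (i3 y').1.sub (lag y y').1
  choose F f1 f2 f3 using fun j => (flc y hy j).2.2.2.2.2 y'
  have a1 : ∫ x in SW p.W, dv p.z₃ p.m y y' x ∂sig M.w = ∑ j, ∫ θ in (0 : ℝ)..2 * π, F j (p.W j, θ) :=
    fva _ _ _ F (fun x hx => (e x hx).1)
      ((i7.sub i6).congr_fun (fun x hx => (e x hx).2.symm) ms) (fun j => ⟨f1 j, f2 j⟩)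
      (flk y hy y')
  rw [setIntegral_congr_fun ms fun x hx => (e x hx).2, integral_sub i7 i6,
    integral_sub (i3 y').1 (lag y y').1, (lag y y').2, ← (i3 y').2,
    integral_finsetSum _ fun l _ => i5 l] at a1
  have a2 := fun j => bd y' (hb y hy j).1 (flc y hy j).1 (flc y hy j).2.1 (flc y hy j).2.2.1
    (flc y hy j).2.2.2.1 (flc y hy j).2.2.2.2.1 (s2 j).1
  have a3 : fderiv ℂ (ff p.z₃ p.J₀ p.J p.m) y y' = fderiv ℂ (fun y => ∫ x in SW p.W,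
      Ii p.z₃ p.m y x ∂sig M.w) y y' + ∑ j, fderiv ℂ (fun y : G.XX p.W × Pm (Fin M.n₁) =>
        Tf p.J₀ p.J y.2.2.2.2 (Zb y j) (Vb y j)) y y' := by
    have := (i2.hasFDerivAt.add (HasFDerivAt.fun_sum (u := Finset.univ) fun j _ =>
      (hb y hy j).1.hasFDerivAt)).fderiv
    refine (congrArg (fun A => A y') this).trans ?_
    simp only [_root_.add_apply, _root_.sum_apply]
  simp only [integral_const_mul, f3] at a1
  change fderiv ℂ (ff p.z₃ p.J₀ p.J p.m) y y' = ∑ i, -y.1.2.2.2 i * G.AA p.W y'.1 i +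
    ∑ j, G.ka j * y.1.2.2.1 (j, 0) * G.XI p.W y'.1 j + ∑ j, Df p.J₀ p.J y.2.2.2.2 (y.2.2.2.1 j)
      (km (p.m j)) (Zb y j) (Vb y j) (pb y j) * y'.2.2.1 j + ∑ j, oo p.z₃ j p.m y * y'.2.2.2.1 j +
    (∑ j, 2 * π * (Tb p.J (Zb y j) (Vb y j) - Tb p.J₀ (Zb y j) (Vb y j))) * y'.2.2.2.2
  simp only [a3, a2, Finset.sum_add_distrib, Finset.sum_sub_distrib, Finset.sum_mul, oo,
    mul_comm _ (y'.2.2.2.1 _)]
  linear_combination a1

end Vale.Agent.P218I
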