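import Vale.Agent.P218I.Rows
import Vale.Agent.P218I.FarbH
import Vale.Agent.P218B.Lfd
import Vale.Agent.P218B.Cyd
import Vale.Agent.P218B.Eqr
import Vale.Agent.P218B.Fj
import Vale.Agent.P218B.Nj
import Vale.Agent.P218B.Nrj
import Vale.Agent.P218B.Okd
import Vale.Agent.P218B.Psl
import Vale.Agent.P218C.Ex

/-!
# P218: INST
-/

namespace Vale.Agent.P218I.R

open Vale.Agent.P218T Vale.Agent.P218L Vale.Agent.P218B

theorem lfd : LFDR := lfdr eqr nrj (kq1 P218N.lin0) kj rlf (okd rlf) (nj evj) (cyn fj sq')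
  (cyh fj sq') (psl nd' slow' kap'' xiv'') adn snd' zon' usv' uzl' gds' hi' hb'

theorem inst : INST := inst_of geo lex' ind (all (farbH cy bt' fara')) lfd

end Vale.Agent.P218I.R
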