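import Vale.Agent.P218W.Cyl

/-! Change of the height on a cylindrical end. -/

set_option linter.all false

open Set Filter Topology

noncomputable section

namespace Vale.Agent.P218I.Rp

open Vale.Agent.P218W Vale.Agent.P218M

variable {ζ ζ₁ ζ₂ φ : ℝ → ℝ} {R Z Z' M : ℝ}

/-- a change of the height with its inverse -/
structure Rep (ζ ζ₁ ζ₂ φ : ℝ → ℝ) : Prop where
  d1 : ∀ z, HasDerivAt ζ (ζ₁ z) z
  d2 : ∀ z, HasDerivAt ζ₁ (ζ₂ z) z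
  c2 : Continuous ζ₂
  pos : ∀ z, 0 < ζ₁ z
  li : ∀ z, φ (ζ z) = z
  ri : ∀ z, ζ (φ z) = z

namespace Rep

theorem c0 (h : Rep ζ ζ₁ ζ₂ φ) : Continuous ζ :=
  continuous_iff_continuousAt.2 fun z => (h.d1 z).continuousAt

theorem c1 (h : Rep ζ ζ₁ ζ₂ φ) : Continuous ζ₁ :=
  continuous_iff_continuousAt.2 fun z => (h.d2 z).continuousAt

theorem mono (h : Rep ζ ζ₁ ζ₂ φ) : StrictMono ζ :=
  strictMono_of_deriv_pos fun z => (h.d1 z).deriv ▸ h.pos z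

theorem cont (h : Rep ζ ζ₁ ζ₂ φ) : Continuous φ := by
  have e : φ = (h.mono.orderIsoOfSurjective ζ fun z => ⟨_, h.ri z⟩).symm := funext fun z => by
    rw [eq_comm, OrderIso.symm_apply_eq]
    exact (h.ri z).symm
  rw [e]
  exact OrderIso.continuous _

theorem symm (h : Rep ζ ζ₁ ζ₂ φ) :
    Rep φ (fun z => (ζ₁ (φ z))⁻¹) (fun z => -ζ₂ (φ z) / ζ₁ (φ z) ^ 3) ζ := by
  have d : ∀ z, HasDerivAt φ (ζ₁ (φ z))⁻¹ z := fun z =>
    (h.d1 (φ z)).of_local_left_inverse h.cont.continuousAt (h.pos _).ne' (.of_forall h.ri)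
  refine ⟨d, fun z => ?_, (h.c2.comp h.cont).neg.div ((h.c1.comp h.cont).pow 3)
    fun z => pow_ne_zero _ (h.pos _).ne', fun z => inv_pos.2 (h.pos _), h.ri, h.li⟩
  refine (((h.d2 (φ z)).comp z (d z)).inv (h.pos _).ne').congr_deriv ?_
  have := (h.pos (φ z)).ne'
  simp only [Function.comp_apply]
  field_simp

theorem maps (h : Rep ζ ζ₁ ζ₂ φ) (hR : ζ R = R) (hZ : ζ Z = Z') {z : ℝ} (hz : z ∈ Icc R Z) :
    ζ z ∈ Icc R Z' := ⟨hR ▸ h.mono.monotone hz.1, hZ ▸ h.mono.monotone hz.2⟩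

theorem inv_eq (h : Rep ζ ζ₁ ζ₂ φ) (hZ : ζ Z = Z') : φ Z' = Z := hZ ▸ h.li Z

end Rep

theorem rep_ex (d1 : ∀ z, HasDerivAt ζ (ζ₁ z) z) (d2 : ∀ z, HasDerivAt ζ₁ (ζ₂ z) z)
    (c2 : Continuous ζ₂) (pos : ∀ z, 0 < ζ₁ z) (b : ∀ z, |ζ z - z| ≤ 1) : ∃ φ, Rep ζ ζ₁ ζ₂ φ := by
  have c0 : Continuous ζ := continuous_iff_continuousAt.2 fun z => (d1 z).continuousAt
  have s : Function.Surjective ζ := fun y => by
    have h1 := abs_le.1 (b (y - 1))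
    have h2 := abs_le.1 (b (y + 1))
    obtain ⟨z, -, hz⟩ := intermediate_value_Icc (a := y - 1) (b := y + 1) (by linarith)
      c0.continuousOn (show y ∈ _ from ⟨by linarith, by linarith⟩)
    exact ⟨z, hz⟩
  have m : StrictMono ζ := strictMono_of_deriv_pos fun z => (d1 z).deriv ▸ pos z
  exact ⟨Function.surjInv s, d1, d2, c2, pos,
    Function.leftInverse_surjInv ⟨m.injective, s⟩, Function.rightInverse_surjInv s⟩

/-- the jet of `u (ζ z, θ)` -/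
def pj (ζ ζ₁ ζ₂ : ℝ → ℝ) (u : Fin 6 → ℝ × ℝ → ℂ) : Fin 6 → ℝ × ℝ → ℂ :=
  ![fun p => u 0 (ζ p.1, p.2), fun p => u 1 (ζ p.1, p.2), fun p => u 2 (ζ p.1, p.2),
    fun p => ζ₁ p.1 * u 3 (ζ p.1, p.2), fun p => ζ₁ p.1 * u 4 (ζ p.1, p.2),
    fun p => ζ₂ p.1 * u 3 (ζ p.1, p.2) + ζ₁ p.1 * (ζ₁ p.1 * u 5 (ζ p.1, p.2))]

theorem der_comp {U U' : Set ℝ} {F A B : ℝ × ℝ → ℂ} (h : Der U F A B)
    (d : ∀ z, HasDerivAt ζ (ζ₁ z) z) (m : ∀ z ∈ U', ζ z ∈ U) : Der U' (fun p => F (ζ p.1, p.2))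
      (fun p => ζ₁ p.1 * A (ζ p.1, p.2)) fun p => B (ζ p.1, p.2) := fun p hp =>
  (HasFDerivAt.comp (f := fun p : ℝ × ℝ => (ζ p.1, p.2)) p (h (ζ p.1, p.2) (m _ hp))
    (((d p.1).hasFDerivAt.comp p hasFDerivAt_fst).prodMk hasFDerivAt_snd)).congr_fderiv
    (DD_ext fun v => by simp; ring)

theorem jet_pj (h : Rep ζ ζ₁ ζ₂ φ) (hR : ζ R = R) (hZ : ζ Z = Z') {u : Fin 6 → ℝ × ℝ → ℂ}
    (k : Jet (Icc R Z') u) : Jet (Icc R Z) (pj ζ ζ₁ ζ₂ u) := by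
  have m : ∀ z ∈ interior (Icc R Z), ζ z ∈ interior (Icc R Z') := fun z hz => by
    rw [interior_Icc] at hz ⊢
    exact ⟨hR ▸ h.mono hz.1, hZ ▸ h.mono hz.2⟩
  refine ⟨der_comp k.d0 h.d1 m, der_comp k.d1 h.d1 m, ?_⟩
  refine ((der_z (φ := fun z => (ζ₁ z : ℂ)) fun z _ => (h.d2 z).ofReal_comp).mul
    (der_comp k.d3 h.d1 m)).congr isOpen_interior (fun _ _ _ => rfl) (fun _ _ _ => rfl)
    fun z _ θ => ?_
  simp [pj]

theorem cl_cl (R Z z : ℝ) : cl R Z (cl R Z z) = cl R Z z := by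
  simp only [cl, max_def, min_def]
  split_ifs <;> linarith

/-- composition with the change of the height -/
def rs (c : Continuous ζ) (R Z Z' : ℝ) : WI R Z' →L[ℂ] WI R Z :=
  (W.res (fun z => ζ (cl R Z z)) (c.comp (by unfold cl; fun_prop))
    fun z => by rw [cl_cl]).toContinuousLinearMap

theorem rs_apply (c : Continuous ζ) (x : WI R Z') {z : ℝ} (hz : z ∈ Icc R Z) (θ : ℝ) :
    rs c R Z Z' x (z, θ) = x (ζ z, θ) := by
  show x (ζ (cl R Z z), θ) = _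
  rw [(ret_cl (hz.1.trans hz.2)).fix z hz]

theorem pb_ex (h : Rep ζ ζ₁ ζ₂ φ) (hR : ζ R = R) (hZ : ζ Z = Z') (RZ : R ≤ Z) :
    ∃ T : XE R Z' →L[ℂ] XE R Z, ∀ J i, ∀ z ∈ Icc R Z, ∀ θ,
      (T J).1 i (z, θ) = pj ζ ζ₁ ζ₂ (fun i => J.1 i) i (z, θ) := by
  let a : Fin 6 → (Fin 6 → WI R Z') →L[ℂ] WI R Z := fun i => rs h.c0 R Z Z' ∘L .proj i
  let m₁ : WI R Z →L[ℂ] WI R Z := .mul ℂ _ (cI R Z fun z => ζ₁ z)
  let m₂ : WI R Z →L[ℂ] WI R Z := .mul ℂ _ (cI R Z fun z => ζ₂ z)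
  let L : (Fin 6 → WI R Z') →L[ℂ] Fin 6 → WI R Z :=
    .pi ![a 0, a 1, a 2, m₁ ∘L a 3, m₁ ∘L a 4, m₂ ∘L a 3 + m₁ ∘L m₁ ∘L a 5]
  have e : ∀ J i, ∀ z ∈ Icc R Z, ∀ θ, L J i (z, θ) = pj ζ ζ₁ ζ₂ (fun i => J i) i (z, θ) := by
    intro J i z hz θ
    have e1 := cst_Icc RZ (φ := fun z => (ζ₁ z : ℂ))
      (Complex.continuous_ofReal.comp h.c1).continuousOn hz θ
    have e2 := cst_Icc RZ (φ := fun z => (ζ₂ z : ℂ))
      (Complex.continuous_ofReal.comp h.c2).continuousOn hz θ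
    fin_cases i <;> simp [L, a, m₁, m₂, pj, rs_apply h.c0 _ hz, e1, e2]
  refine ⟨(L ∘L (XE R Z').subtypeL).codRestrict _ fun J => ⟨(jet_pj h hR hZ J.2.1).congr (e J.1),
    fun θ => (e J.1 0 Z (right_mem_Icc.2 RZ) θ).trans (by simp [pj, hZ, J.2.2.1]),
    fun k hk => ?_⟩, fun J => e J.1⟩
  refine (co_congr (G := J.1 0) (fun θ => (e J.1 0 R (left_mem_Icc.2 RZ) θ).trans ?_) k).trans
    (J.2.2.2 k hk)
  simp [pj, hR]

/-- the function determines the jet -/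
theorem xe_ext (RZ : R < Z) {J J' : XE R Z}
    (h : ∀ z ∈ Icc R Z, ∀ θ, J.1 0 (z, θ) = J'.1 0 (z, θ)) : J = J' := by
  have key : ∀ {i j l : Fin 6}, Der (interior (Icc R Z)) (J.1 i) (J.1 j) (J.1 l) →
      Der (interior (Icc R Z)) (J'.1 i) (J'.1 j) (J'.1 l) → J.1 i = J'.1 i →
      J.1 j = J'.1 j ∧ J.1 l = J'.1 l := fun {i j l} d d' e => by
    have cl : Icc R Z ⊆ closure (interior (Icc R Z)) := by rw [interior_Icc, closure_Ioo RZ.ne]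
    rw [e] at d
    refine ⟨(ret_cl RZ.le).ext fun z hz θ => ?_, (ret_cl RZ.le).ext fun z hz θ => ?_⟩
    · exact EqOn.of_subset_closure (f := fun z => J.1 j (z, θ)) (g := fun z => J'.1 j (z, θ))
        (fun z hz => (d.dz hz θ).unique (d'.dz hz θ)) (by fun_prop) (by fun_prop)
        interior_subset cl hz
    · exact EqOn.of_subset_closure (f := fun z => J.1 l (z, θ)) (g := fun z => J'.1 l (z, θ))
        (fun z hz => (d.dt hz θ).unique (d'.dt hz θ)) (by fun_prop) (by fun_prop)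
        interior_subset cl hz
  have h0 := (ret_cl RZ.le).ext h
  obtain ⟨h3, h1⟩ := key J.2.1.d0 J'.2.1.d0 h0
  obtain ⟨h4, h2⟩ := key J.2.1.d1 J'.2.1.d1 h1
  obtain ⟨h5, -⟩ := key J.2.1.d3 J'.2.1.d3 h3
  refine Subtype.ext (funext fun i => ?_)
  fin_cases i
  exacts [h0, h1, h2, h3, h4, h5]

/-- the choice of an element of `W` commutes with the change of the height -/
theorem toW_rs (h : Rep ζ ζ₁ ζ₂ φ) (hR : ζ R = R) (hZ : ζ Z = Z') (RZ : R ≤ Z)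
    {F F' : ℝ × ℝ → ℂ} (e : ∀ z ∈ Icc R Z, ∀ θ, F' (ζ z, θ) = F (z, θ)) :
    toW (Icc R Z') (cl R Z') F' = rs h.cont R Z' Z (toW (Icc R Z) (cl R Z) F) := by
  have RZ' : R ≤ Z' := (h.maps hR hZ (left_mem_Icc.2 RZ)).2.trans' hR.ge
  have m := fun z (hz : z ∈ Icc R Z') => h.symm.maps (h.inv_eq hR) (h.inv_eq hZ) hz
  by_cases k : ∃ x : WI R Z, ∀ z ∈ Icc R Z, ∀ θ, x (z, θ) = F (z, θ)
  · obtain ⟨x, hx⟩ := k
    rw [(ret_cl RZ).toW_eq hx]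
    refine (ret_cl RZ').toW_eq fun z hz θ => ?_
    rw [rs_apply _ _ hz, hx _ (m z hz), ← e _ (m z hz), h.ri]
  · have k' : ¬∃ x : WI R Z', ∀ z ∈ Icc R Z', ∀ θ, x (z, θ) = F' (z, θ) := fun ⟨x, hx⟩ =>
      k ⟨rs h.c0 R Z Z' x, fun z hz θ => by rw [rs_apply _ _ hz, hx _ (h.maps hR hZ hz), e z hz]⟩
    rw [toW, toW, dif_neg k, dif_neg k', map_zero]

theorem l2_comp {s t : Set ℝ} {F : ℝ × ℝ → ℂ} {o n : ℝ → ℝ} (h : L2 s F o n M)
    (m : ∀ z ∈ t, ζ z ∈ s) :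
    L2 t (fun p => F (ζ p.1, p.2)) (fun z => o (ζ z)) (fun z => n (ζ z)) M :=
  ⟨h.1.comp m, h.2.comp m⟩

/-- comparison of two families of weights -/
def Cmp (ζ ζ₁ ζ₂ : ℝ → ℝ) (ω ω' : Fin 6 → ℝ → ℝ) (z : ℝ) : Prop :=
  |ζ₁ z| ≤ 9 / 8 ∧ (∀ i, 0 ≤ ω i (ζ z) ∧ ω i (ζ z) ≤ 9 / 8 * ω' i z) ∧
    |ζ₂ z| * ω 3 (ζ z) ≤ 1 / 2 * ω' 5 z

theorem xn_pj {s t : Set ℝ} {o n o' n' : Fin 6 → ℝ → ℝ} {u : Fin 6 → ℝ × ℝ → ℂ}
    (h : XN s o n u M) (a : ∀ i, Adm s (u i)) (m : ∀ z ∈ t, ζ z ∈ s)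
    (ho : ∀ z ∈ t, Cmp ζ ζ₁ ζ₂ o o' z) (hn : ∀ z ∈ t, Cmp ζ ζ₁ ζ₂ n n' z) :
    XN t o' n' (pj ζ ζ₁ ζ₂ u) (2 * M) := by
  have M0 := (h 0).1.M0
  have o0 : ∀ i, ∀ z ∈ t, 0 ≤ o' i z := fun i z hz => by linarith [(ho z hz).2.1 i]
  have n0 : ∀ i, ∀ z ∈ t, 0 ≤ n' i z := fun i z hz => by linarith [(hn z hz).2.1 i]
  have a' : ∀ i, Adm t fun p => u i (ζ p.1, p.2) := fun i z hz => a i _ (m z hz)
  have h0 : ∀ i, L2 t (fun p => u i (ζ p.1, p.2)) (o' i) (n' i) (9 / 8 * M) := fun i => by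
    simpa using (l2_comp (h i) m).mulz (φ := fun _ => 1) (C := 9 / 8) (by norm_num) (o0 i) (n0 i)
      (fun z hz => by simpa using ((ho z hz).2.1 i).2) fun z hz => by simpa using ((hn z hz).2.1 i).2
  have h1 : ∀ {i F N}, L2 t F (o' i) (n' i) N →
      L2 t (fun p => ζ₁ p.1 * F p) (o' i) (n' i) (9 / 8 * N) := fun {i F N} k =>
    k.mulz (φ := fun z => ζ₁ z) (by norm_num) (o0 i) (n0 i)
      (fun z hz => mul_le_mul_of_nonneg_right (by simpa using (ho z hz).1) (o0 i z hz))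
      fun z hz => mul_le_mul_of_nonneg_right (by simpa using (hn z hz).1) (n0 i z hz)
  have up : ∀ {i F N}, L2 t F (o' i) (n' i) N → N ≤ 2 * M → L2 t F (o' i) (n' i) (2 * M) :=
    fun k l => k.mono subset_rfl (fun _ _ => le_rfl) (fun _ _ => le_rfl) l
  intro i
  fin_cases i
  exacts [up (h0 0) (by linarith), up (h0 1) (by linarith), up (h0 2) (by linarith),
    up (h1 (h0 3)) (by linarith), up (h1 (h0 4)) (by linarith),
    up (((l2_comp (h 3) m).mulz (φ := fun z => ζ₂ z) (C := 1 / 2) (by norm_num) (o0 5) (n0 5)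
      (fun z hz => by simpa using (ho z hz).2.2) fun z hz => by simpa using (hn z hz).2.2).add
      (h1 (h1 (h0 5))) ((adm_z t fun z => ζ₂ z).mul (a' 3))
      ((adm_z t fun z => ζ₁ z).mul ((adm_z t fun z => ζ₁ z).mul (a' 5)))) (by linarith)]

section cont

variable {T : Type} [TopologicalSpace T] {x : T} {c : T → ℂ} {a z : T → ℝ} {w o₀ o₁ : T → ℝ → ℝ}

theorem ca_rh (hc : ContinuousAt c x) (hz : ContinuousAt z x) :
    ContinuousAt (fun t => rh (c t) (z t)) x := by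
  unfold rh
  fun_prop

theorem ca_ly (ha : ContinuousAt a x) (hz : ContinuousAt z x) :
    ContinuousAt (fun t => z t ^ 2 * ly (a t) (z t)) x := by
  unfold ly
  fun_prop

/-- the weights depend continuously on the opening, the cut and the height -/
theorem ca_wt (hc : ContinuousAt c x) (ha : ContinuousAt a x) (hz : ContinuousAt z x)
    (h : Cyl 1 R Z (c x)) (m : z x ∈ Icc R Z) (κ : ℝ) (i : Fin 6) :
    ContinuousAt (fun t => om (fun z => (rh (c t) z).re) (fun z => gO (c t) (a t) z + (rh (c t) z).re)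
      (wK κ (c t)) (c t) (a t) i (z t)) x ∧
    ContinuousAt (fun t => nu (wK κ (c t)) (c t) (a t) i (z t)) x := by
  obtain ⟨_, _, k⟩ := wtc
  have k := (k 1 R Z _ one_pos h).1 _ m
  have z0 := (h.z0 m).ne'
  have r0 := cyl_ne h one_pos m
  have c1 := ca_rh hc hz
  have c2 := Complex.continuous_re.continuousAt.comp c1
  have c3 : ContinuousAt (fun t => sg (c t) (z t)) x :=
    Complex.continuous_re.continuousAt.comp (c1.inv₀ r0)
  have c4 : ContinuousAt (fun t => ta (c t) (z t)) x := c1.norm.div c2 k.re0.ne'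
  have c5 : ContinuousAt (fun t => wK κ (c t) (z t)) x :=
    (hz.rpow_const (.inl z0)).mul (c1.norm.rpow_const (.inl (norm_ne_zero_iff.2 r0)))
  have c6 : ContinuousAt (fun t => gW (wK κ (c t)) (c t) (a t) (z t)) x :=
    c5.mul (c3.add (ca_ly ha hz))
  have c7 : ContinuousAt (fun t => gO (c t) (a t) (z t) + (rh (c t) (z t)).re) x :=
    (((hz.rpow_const (.inl z0)).mul (c2.rpow_const (.inl k.re0.ne'))).mul
      ((c2.inv₀ k.re0.ne').add (ca_ly ha hz))).add c2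
  have s0 : sg (c x) (z x) ≠ 0 := (show 0 < sg (c x) (z x) by linarith [k.sg6]).ne'
  have hn : ∀ i, ContinuousAt (fun t => nu (wK κ (c t)) (c t) (a t) i (z t)) x := fun i => by
    fin_cases i
    exacts [c5, ((c5.mul c6).div c3 s0).sqrt, c6.div c3 s0, (c6.mul c4).div hz z0,
      (c6.mul c4).mul c1.norm.sqrt, c6.mul c4]
  refine ⟨?_, hn i⟩
  fin_cases i
  exacts [c2, hn 1, hn 2, c7.div hz z0, hn 4, c7]

end cont

end Vale.Agent.P218I.Rp
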