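import Vale.Agent.P218I.Spec
import Vale.Agent.P218I.RpW
import Vale.Agent.P218I.Cd

/-! Change of the cuts: the unknowns and their norms. -/

set_option linter.all false

open Set Filter Topology

noncomputable section

namespace Vale.Agent.P218I.Rp

open Vale.Agent.P218W Vale.Agent.P218M Vale.Agent.P218T Vale.Agent.P218L
open Vale.Agent.P218H (tri tri_le_iff le_tri)

variable {ζ ζ₁ ζ₂ φ : ℝ → ℝ} {R Z Z' a z l : ℝ} {c : ℂ}

section

open scoped ContDiff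

theorem cd_cut (a : ℝ) : ContDiff ℝ ∞ (cut a) :=
  Real.smoothTransition.contDiff.comp (contDiff_id.sub contDiff_const)

theorem cut_zero (h : z ≤ a) : cut a z = 0 := Real.smoothTransition.zero_of_nonpos (by linarith)

theorem cut_one (h : a + 1 ≤ z) : cut a z = 1 := Real.smoothTransition.one_of_one_le (by linarith)

theorem cut_lo (h : z < a) : deriv (cut a) z = 0 ∧ deriv (deriv (cut a)) z = 0 := by
  have e : cut a =ᶠ[𝓝 z] fun _ => 0 := (gt_mem_nhds h).mono fun _ k => cut_zero k.le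
  exact ⟨by simpa using e.deriv_eq, by simpa using e.deriv.deriv_eq⟩

theorem cut_hi (h : a + 1 < z) : deriv (cut a) z = 0 := by
  have e : cut a =ᶠ[𝓝 z] fun _ => 1 := (lt_mem_nhds h).mono fun _ k => cut_one k.le
  simpa using e.deriv_eq

theorem cd_cut1 (a : ℝ) : ContDiff ℝ ∞ (deriv (cut a)) := (contDiff_infty_iff_deriv.1 (cd_cut a)).2

theorem cd_cut2 (a : ℝ) : ContDiff ℝ ∞ (deriv (deriv (cut a))) :=
  (contDiff_infty_iff_deriv.1 (cd_cut1 a)).2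

end

/-- the change of the height -/
def zf (Z l z : ℝ) : ℝ := z + l * cut (Z - 2) z

/-- its derivative -/
def zf₁ (Z l z : ℝ) : ℝ := 1 + l * deriv (cut (Z - 2)) z

/-- its second derivative -/
def zf₂ (Z l z : ℝ) : ℝ := l * deriv (deriv (cut (Z - 2))) z

theorem zf_lo (h : z < Z - 2) : zf Z l z = z ∧ zf₁ Z l z = 1 ∧ zf₂ Z l z = 0 := by
  simp [zf, zf₁, zf₂, cut_zero h.le, cut_lo h]

theorem zf_hi : zf Z (Z' - Z) Z = Z' := by simp [zf, cut_one (show Z - 2 + 1 ≤ Z by linarith)]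

theorem zf_hi₁ : zf₁ Z l Z = 1 := by simp [zf₁, cut_hi (show Z - 2 + 1 < Z by linarith)]

theorem rep_ev (Z : ℝ) : ∀ᶠ l in 𝓝 (0 : ℝ), ∃ φ, Rep (zf Z l) (zf₁ Z l) (zf₂ Z l) φ := by
  obtain ⟨B, hB⟩ := (cd_cut1 (Z - 2)).continuous.bounded_above_of_compact_support
    (.intro (isCompact_Icc (a := Z - 2) (b := Z - 2 + 1)) fun z hz => by
      rcases lt_or_ge z (Z - 2) with k | k
      exacts [(cut_lo k).1, cut_hi (not_le.1 fun j => hz ⟨k, j⟩)])
  have c : ContinuousAt (fun l : ℝ => |l| * (B + 1)) 0 := by fun_prop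
  filter_upwards [c.eventually_lt continuousAt_const (show _ < (1 : ℝ) by simp)] with l hl
  have B0 := (norm_nonneg _).trans (hB 0)
  have l0 := abs_nonneg l
  refine rep_ex (fun z => (hasDerivAt_id z).add
      (((cd_cut _).differentiable (by simp) z).hasDerivAt.const_mul l))
    (fun z => (((cd_cut1 _).differentiable (by simp) z).hasDerivAt.const_mul l).const_add 1)
    (continuous_const.mul (cd_cut2 _).continuous) (fun z => ?_) fun z => ?_
  · have := abs_le.1 ((abs_mul l _).trans_le (mul_le_mul_of_nonneg_left (hB z) l0))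
    unfold zf₁
    linarith
  · rw [zf, add_sub_cancel_left, abs_mul, cut, abs_of_nonneg (Real.smoothTransition.nonneg _)]
    nlinarith [Real.smoothTransition.le_one (z - (Z - 2))]

theorem toE_spec (h : Rep ζ ζ₁ ζ₂ φ) (hR : ζ R = R) (hZ : ζ Z = Z') (RZ : R < Z) (J : XE R Z) :
    (∀ i, ∀ z ∈ Icc R Z, ∀ θ,
      J.1 i (z, θ) = pj ζ ζ₁ ζ₂ (fun i => (toE R Z Z' ζ (J.1 0)).1 i) i (z, θ)) ∧
    ∀ i, ∀ z ∈ Icc R Z', ∀ θ, (toE R Z Z' ζ (J.1 0)).1 i (z, θ) = pj φ (fun z => (ζ₁ (φ z))⁻¹)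
      (fun z => -ζ₂ (φ z) / ζ₁ (φ z) ^ 3) (fun i => J.1 i) i (z, θ) := by
  have RZ' : R < Z' := hR ▸ hZ ▸ h.mono RZ
  obtain ⟨T, hT⟩ := pb_ex h hR hZ RZ.le
  obtain ⟨T', hT'⟩ := pb_ex h.symm (h.inv_eq hR) (h.inv_eq hZ) RZ'.le
  have k : ∃ J' : XE R Z', ∀ z ∈ Icc R Z, ∀ θ, J'.1 0 (ζ z, θ) = J.1 0 (z, θ) :=
    ⟨T' J, fun z hz θ => (hT' J 0 _ (h.maps hR hZ hz) θ).trans (by simp [pj, h.li])⟩
  have e := k.choose_spec
  rw [toE, dif_pos k]
  generalize k.choose = J' at e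
  have e1 : T J' = J := xe_ext RZ fun z hz θ => (hT J' 0 z hz θ).trans (e z hz θ)
  have e2 : T' J = J' := xe_ext RZ' fun z hz θ => (hT' J 0 z hz θ).trans (by
    simpa [pj, h.ri] using (e _ (h.symm.maps (h.inv_eq hR) (h.inv_eq hZ) hz) θ).symm)
  exact ⟨e1 ▸ hT J', e2 ▸ hT' J⟩

theorem pN_iff (h : Cyl 1 R Z c) {J : XE R Z} {M : ℝ} (M0 : 0 ≤ M) : pN c R Z J ≤ M ↔
    XN (Icc R Z) (om (fun z => (rh c z).re) (fun z => gO c Z z + (rh c z).re) (wK (31 / 16) c) c Z)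
      (nu (wK (31 / 16) c) c Z) (fun i => J.1 i) M := by
  obtain ⟨pK, -, pg, -, px, -⟩ := pw_all h le_rfl
  exact (ret_cl (by linarith [h.RZ])).xn_le_iff (pw_om h one_pos (pK _) px (pg.add isCompact_Icc px))
    (pw_nu h one_pos (pK _)) M0

/-- the size of the function -/
theorem pN_re : ∃ C : ℝ, 0 < C ∧ ∀ R Z c, Cyl 1 R Z c → ∀ J : XE R Z, ∀ z ∈ Icc R Z, ∀ θ,
    0 < (rh c z).re ∧ ‖J.1 0 (z, θ)‖ ≤ C * pN c R Z J * (rh c z).re := by
  obtain ⟨C, C0, k⟩ := wtc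
  obtain ⟨D, D0, l⟩ := wtk
  refine ⟨1 + D * C, by positivity, fun R Z c h J z hz θ => ?_⟩
  have k := (k 1 R Z c one_pos h).1
  have := (((pN_iff h (apply_nonneg _ J)).1 le_rfl 0).le (ω := fun z => (1 + D * C) * (rh c z).re)
    (fun z hz => le_mul_of_one_le_left (k z hz).re0.le (by nlinarith [mul_pos D0 C0]))
    fun z hz => ?_).apply hz θ
  · exact ⟨(k z hz).re0, by linarith⟩
  have a := ((l 1 R Z c le_rfl h).2.2 z hz).2.2.2.1 (31 / 16) (by norm_num)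
  have b := (k z hz).wOr
  have d := le_mul_of_one_le_right (k z hz).wN0.le (k z hz).ta1
  rw [Real.one_rpow] at b
  have e := mul_le_mul_of_nonneg_left ((d.trans (k z hz).wNO).trans
    (mul_le_mul_of_nonneg_left b C0.le)) D0.le
  show wK _ c z ≤ _
  linarith [(k z hz).re0]

theorem cmp_ev {ω : ℂ → ℝ → Fin 6 → ℝ → ℝ} (p : ∀ i, ∀ z ∈ Icc R Z, 0 < ω c Z i z)
    (hc : ∀ {T : Type} [TopologicalSpace T] {x : T} {c' : T → ℂ} {a z : T → ℝ}, ContinuousAt c' x →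
      ContinuousAt a x → ContinuousAt z x → c' x = c → z x ∈ Icc R Z → ∀ i,
      ContinuousAt (fun t => ω (c' t) (a t) i (z t)) x) :
    ∀ᶠ t : ℝ × ℂ in 𝓝 (Z, c), ∀ z ∈ Icc R Z, |(zf₁ Z (t.1 - Z) z)⁻¹| ≤ 9 / 8 ∧
      (∀ i, ω c Z i z ≤ 9 / 8 * ω t.2 t.1 i (zf Z (t.1 - Z) z)) ∧
      |-zf₂ Z (t.1 - Z) z / zf₁ Z (t.1 - Z) z ^ 3| * ω c Z 3 z
        ≤ 1 / 2 * ω t.2 t.1 5 (zf Z (t.1 - Z) z) := by
  refine isCompact_Icc.eventually_forall_of_forall_eventually fun z hz => ?_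
  have k0 := (cd_cut (Z - 2)).continuous
  have k1 := (cd_cut1 (Z - 2)).continuous
  have k2 := (cd_cut2 (Z - 2)).continuous
  have c0 : ContinuousAt (fun q : (ℝ × ℂ) × ℝ => zf Z (q.1.1 - Z) q.2) ((Z, c), z) := by
    unfold zf
    fun_prop
  have c1 : ContinuousAt (fun q : (ℝ × ℂ) × ℝ => zf₁ Z (q.1.1 - Z) q.2) ((Z, c), z) := by
    unfold zf₁
    fun_prop
  have c2 : ContinuousAt (fun q : (ℝ × ℂ) × ℝ => zf₂ Z (q.1.1 - Z) q.2) ((Z, c), z) := by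
    unfold zf₂
    fun_prop
  have a := fun i => hc (x := ((Z, c), z)) (c' := fun _ => c) (a := fun _ => Z) continuousAt_const
    continuousAt_const continuousAt_snd rfl hz i
  have b := fun i => hc (x := ((Z, c), z)) continuousAt_fst.snd continuousAt_fst.fst c0 rfl
    (by simpa [zf] using hz) i
  filter_upwards [(c1.inv₀ (by simp [zf₁])).abs.eventually_lt (g := fun _ => 9 / 8)
      continuousAt_const (by simp [zf₁]; norm_num),
    eventually_all.2 fun i => (a i).eventually_lt (continuousAt_const.mul (b i))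
      (g := fun q => 9 / 8 * ω q.1.2 q.1.1 i (zf Z (q.1.1 - Z) q.2))
      (by simp only [zf, sub_self, zero_mul, add_zero]; linarith [p i z hz]),
    (((c2.neg.div (c1.pow 3) (by simp [zf₁])).abs.mul (a 3)).eventually_lt
      (continuousAt_const.mul (b 5)) (g := fun q => 1 / 2 * ω q.1.2 q.1.1 5 (zf Z (q.1.1 - Z) q.2))
      (by simpa [zf, zf₂] using p 5 z hz))] with q h1 h2 h3
  exact ⟨h1.le, fun i => (h2 i).le, h3.le⟩

/-- the change of the cut on one end -/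
structure Rl (R Z Z' : ℝ) (J : XE R Z) (J' : XE R Z') : Prop where
  rep : ∃ φ, Rep (zf Z (Z' - Z)) (zf₁ Z (Z' - Z)) (zf₂ Z (Z' - Z)) φ
  lt : R < Z - 2
  fw : ∀ i, ∀ z ∈ Icc R Z, ∀ θ, J.1 i (z, θ) =
    pj (zf Z (Z' - Z)) (zf₁ Z (Z' - Z)) (zf₂ Z (Z' - Z)) (fun i => J'.1 i) i (z, θ)

theorem Rl.lo {J : XE R Z} {J' : XE R Z'} (h : Rl R Z Z' J J') (i : Fin 6) (hz : z < Z - 2)
    (θ : ℝ) : J'.1 i (z, θ) = J.1 i (z, θ) := by
  have key : ∀ z ∈ Ico R (Z - 2), J'.1 i (z, θ) = J.1 i (z, θ) := fun z hz => by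
    rw [h.fw i z ⟨hz.1, by linarith [hz.2]⟩]
    fin_cases i <;> simp [pj, zf_lo hz.2]
  rcases le_total R z with k | k
  · exact key z ⟨k, hz⟩
  · have e : ∀ Z, cl R Z z = cl R Z R := fun Z => by
      rw [cl, cl, max_eq_left ((min_le_right _ _).trans k), max_eq_left (min_le_right _ _)]
    rw [← (J'.1 i).fix, ← (J.1 i).fix, e, e, W.fix, W.fix, key R ⟨le_rfl, h.lt⟩]

theorem nrm_ev (h : Cyl 1 R Z c) (lt : R < Z - 2) : ∀ᶠ t : ℝ × ℂ in 𝓝 (Z, c), Cyl 1 R t.1 t.2 →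
    ∀ J : XE R Z, Rl R Z t.1 J (toE R Z t.1 (zf Z (t.1 - Z)) (J.1 0)) ∧
      pN t.2 R t.1 (toE R Z t.1 (zf Z (t.1 - Z)) (J.1 0)) ≤ 2 * pN c R Z J := by
  obtain ⟨pK, -, pg, -, px, -⟩ := pw_all h le_rfl
  have po := pw_om h one_pos (pK (31 / 16)) px (pg.add isCompact_Icc px)
  have pn := pw_nu h one_pos (pK (31 / 16))
  have c0 : ContinuousAt (fun t : ℝ × ℂ => t.1 - Z) (Z, c) := by fun_prop
  filter_upwards [c0.eventually (by simpa using rep_ev Z),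
    cmp_ev (c := c) (ω := fun c Z => om (fun z => (rh c z).re)
      (fun z => gO c Z z + (rh c z).re) (wK (31 / 16) c) c Z) (fun i z hz => (po i).pos hz)
      fun a b d e m i => (ca_wt a b d (e ▸ h) m _ i).1,
    cmp_ev (c := c) (ω := fun c Z => nu (wK (31 / 16) c) c Z) (fun i z hz => (pn i).pos hz)
      fun a b d e m i => (ca_wt a b d (e ▸ h) m _ i).2] with t ⟨φ, r⟩ h1 h2 k J
  have hR := (zf_lo (l := t.1 - Z) lt).1
  obtain ⟨s1, s2⟩ := toE_spec r hR zf_hi (by linarith) J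
  have m := fun z (hz : z ∈ Icc R t.1) => r.symm.maps (r.inv_eq hR) (r.inv_eq zf_hi) hz
  refine ⟨⟨⟨φ, r⟩, lt, s1⟩, (pN_iff k (by positivity)).2 fun i => (xn_pj
    ((pN_iff h (apply_nonneg _ J)).1 le_rfl) (fun i => (J.1 i).adm _) m (fun z hz => ?_)
    (fun z hz => ?_) i).congr (s2 i)⟩
  · simpa only [Cmp, r.ri] using (h1 _ (m z hz)).imp_right (And.imp_left fun a i =>
      And.intro ((po i).pos (m z hz)).le (a i))
  · simpa only [Cmp, r.ri] using (h2 _ (m z hz)).imp_right (And.imp_left fun a i =>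
      And.intro ((pn i).pos (m z hz)).le (a i))

theorem prs_iff {ι : Type} [Fintype ι] {A : ι → Type} {B : Type} [∀ j, NormedAddCommGroup (A j)]
    [∀ j, NormedSpace ℂ (A j)] [NormedAddCommGroup B] [NormedSpace ℂ B]
    {p : ∀ j, Seminorm ℂ (A j)} {x : (∀ j, A j) × B} {a : ℝ} :
    prs p x ≤ a ↔ (∀ j, p j (x.1 j) ≤ a) ∧ ‖x.2‖ ≤ a :=
  ⟨fun h => ⟨fun j => le_trans (Seminorm.le_finset_sup_apply (p := fun j => (p j).comp
    (LinearMap.proj j ∘ₗ LinearMap.fst ℂ _ _)) (x := x) (Finset.mem_univ j))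
    ((le_max_left _ _).trans h), (le_max_right _ _).trans h⟩,
    fun h => max_le (Seminorm.finset_sup_apply_le ((norm_nonneg _).trans h.2) fun j _ => h.1 j) h.2⟩

variable {M : Mod} {k : ℕ} (G : GD M k)

open GD in
theorem nrm_all {J : ℕ} {W : Fin M.n₁ → ℝ} {c : Fin M.n₁ → ℂ} (h : Dsc J W c) (J1 : 1 ≤ J)
    (h2 : 2 ≤ G.z₀) (lt : ∀ j, G.z₀ < W j - 2) :
    ∀ᶠ t : (Fin M.n₁ → ℝ) × (Fin M.n₁ → ℂ) in 𝓝 (W, c), (∀ j, Cyl 1 G.z₀ (t.1 j) (t.2 j)) ∧
      ∀ U : G.XX W, (∀ j, Rl G.z₀ (W j) (t.1 j) (U.2.1.1 j) ((rp t.1 U).2.1.1 j)) ∧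
        tri (G.pn t.1 t.2) (rp t.1 U) ≤ 2 * tri (G.pn W c) U := by
  have J1 : (1 : ℝ) ≤ J := by exact_mod_cast J1
  have cy := fun {Z c} (h : c ∈ P218Q.dsc (7 / 5 * P218Q.nu J) Z) (l : G.z₀ + 1 ≤ Z) =>
    cyl_of_dsc' (Y := 1) h h2 l (by linarith) (by nlinarith)
  have c0 : ∀ j, ContinuousAt (fun t : (Fin M.n₁ → ℝ) × (Fin M.n₁ → ℂ) => (t.1 j, t.2 j)) (W, c) :=
    fun j => by fun_prop
  have e : ∀ j, ∀ᶠ t : ℝ × ℂ in 𝓝 (W j, c j), Cyl 1 G.z₀ t.1 t.2 := fun j => by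
    have l := lt j
    filter_upwards [ContinuousAt.eventually_lt (f := fun t : ℝ × ℂ => ‖P218Q.vb t.1 t.2 - 3‖)
      (g := fun t : ℝ × ℂ => 3 - 4 * (7 / 5 * P218Q.nu J) / t.1 ^ 2) (by unfold P218Q.vb; fun_prop)
      (continuousAt_const.sub (continuousAt_const.div (by fun_prop)
        (pow_ne_zero _ (by linarith : 0 < W j).ne'))) (h j),
      continuousAt_fst.eventually (le_mem_nhds (show G.z₀ + 1 < W j by linarith))] with t a b
    exact cy a b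
  filter_upwards [eventually_all.2 fun j => (c0 j).eventually
    ((e j).and (nrm_ev (e j).self_of_nhds (lt j)))] with t h
  refine ⟨fun j => (h j).1, fun U => ⟨fun j => ((h j).2 (h j).1 _).1, ?_⟩⟩
  obtain ⟨h1, h2, h3⟩ := le_tri (G.pn W c) U
  have h0 : 0 ≤ tri (G.pn W c) U := (norm_nonneg _).trans h1
  obtain ⟨h4, h5⟩ := prs_iff.1 h2
  exact tri_le_iff.2 ⟨h1.trans (by linarith), prs_iff.2 ⟨fun j =>
    ((h j).2 (h j).1 _).2.trans (by linarith [h4 j]), h5.trans (by linarith)⟩,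
    h3.trans (by linarith)⟩

/-- **the norms depend continuously on the openings** -/
theorem _root_.Vale.Agent.P218I.nc : Fld Obj.NC := by
  refine fun M g => ⟨2, fun k G hz o => ?_⟩
  filter_upwards [ev_ad, ev_cs (ev₀_J fun _ _ _ => 1), ev_Z fun _ _ _ => G.z₀ + 3] with p a h1 h2
  have lt : ∀ j, G.z₀ < p.W j - 2 := fun j => by linarith [(a.hW j).1]
  filter_upwards [(continuousAt_const.prodMk continuousAt_id).eventually
    (nrm_all G a.hc (le_trans (by exact_mod_cast h1) a.hJ) hz lt)] with c h U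
  have e : GD.rp p.W U = U := Prod.ext rfl (Prod.ext (Prod.ext (funext fun j =>
    xe_ext (by linarith [lt j]) fun z hz θ => by
      simpa [pj, zf] using (((h.2 U).1 j).fw 0 z hz θ).symm) rfl) rfl)
  have := (h.2 U).2
  rwa [e] at this

end Vale.Agent.P218I.Rp
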