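import Vale.Agent.P218C.Eq
import Mathlib.MeasureTheory.Function.Jacobian

/-! Change of the cuts: integrals over the truncated surface. -/

set_option linter.all false

open Set Filter Topology MeasureTheory
open scoped Real

noncomputable section

namespace Vale.Agent.P218I.Rp

open Vale.Agent.P218T
open Vale.Agent.P218N (V3 sig gg g2 pd nu dt cr)

variable {M : Mod} (g : M.Geo) {e : M.I} {f f' : E3 → ℂ} {ζ ζ₁ : ℝ → ℝ}
include g

/-- the chart formula, without assumptions on the function -/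
theorem int_En {t : Set ℝ} (hm : MeasurableSet t) (ht : t ⊆ Ioi M.R) (f : E3 → ℂ) :
    (IntegrableOn f (M.En e t) (sig M.w) ↔
      IntegrableOn (fun y => M.JS e y • f (M.P e y)) (t ×ˢ Ico 0 (2 * π))) ∧
    ∫ x in M.En e t, f x ∂sig M.w = ∫ y in t ×ˢ Ico 0 (2 * π), M.JS e y • f (M.P e y) := by
  have s := hm.prod (measurableSet_Ico (a := 0) (b := 2 * π))
  have E := ((g.contP (e := e) ht).mono (prod_mono Subset.rfl (subset_univ _))).measurableEmbedding
    s (g.injOn ht)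
  rw [IntegrableOn, IntegrableOn, g.map_En hm ht, ← integrable_congr (g.smul_congr hm ht),
    ← integral_congr_ae (g.smul_congr hm ht),
    ← integrable_withDensity_iff_integrable_smul₀ (g.aem_JS hm ht),
    ← integral_withDensity_eq_integral_smul₀ (g.aem_JS hm ht)]
  have a := (g.aem_P (e := e) hm ht).mono_ac
    (withDensity_absolutelyContinuous _ fun y => (M.JS e y).toNNReal)
  have r := restrict_withDensity (μ := volume.restrict (t ×ˢ Ico 0 (2 * π))) s
    fun y => (M.JS e y).toNNReal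
  rw [Measure.restrict_restrict s, inter_self] at r
  generalize Measure.withDensity _ _ = μ at a r
  have k : μ.map (M.P e) = (μ.comap Subtype.val).map ((t ×ˢ Ico 0 (2 * π)).domRestrict (M.P e)) := by
    have := map_comap_subtype_coe s μ
    rw [r] at this
    conv_lhs => rw [← this]
    exact AEMeasurable.map_map_of_aemeasurable (by rwa [this]) measurable_subtype_coe.aemeasurable
  rw [k, E.integrable_map_iff, E.integral_map]
  refine ⟨(integrableOn_iff_comap_subtypeVal (f := fun y => f (M.P e y)) s).symm.trans ?_,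
    (integral_subtype_comap s fun y => f (M.P e y)).trans ?_⟩
  · rw [IntegrableOn, r]
  · rw [r]

/-- the change of the height on an end -/
theorem int_chg {a b b' : ℝ} (ha : M.R < a) (d : ∀ z, HasDerivAt ζ (ζ₁ z) z) (m : StrictMono ζ)
    (p : ∀ z, 0 < ζ₁ z) (h1 : ζ a = a) (h2 : ζ b = b') (ab : a ≤ b)
    (h : ∀ z ∈ Ico a b, ∀ θ, M.JS e (z, θ) • f (M.P e (z, θ)) =
      ζ₁ z • M.JS e (ζ z, θ) • f' (M.P e (ζ z, θ))) :
    (IntegrableOn f' (M.En e (Ico a b')) (sig M.w) ↔ IntegrableOn f (M.En e (Ico a b)) (sig M.w)) ∧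
    ∫ x in M.En e (Ico a b'), f' x ∂sig M.w = ∫ x in M.En e (Ico a b), f x ∂sig M.w := by
  have sub : ∀ b, Ico a b ⊆ Ioi M.R := fun b z k => ha.trans_le k.1
  have s := (measurableSet_Ico (a := a) (b := b)).prod (measurableSet_Ico (a := 0) (b := 2 * π))
  have c : Continuous ζ := continuous_iff_continuousAt.2 fun z => (d z).continuousAt
  have im : Ico a b' ×ˢ Ico 0 (2 * π) = Prod.map ζ id '' (Ico a b ×ˢ Ico 0 (2 * π)) := by
    rw [prodMap_image_prod, image_id, c.image_Ico_of_strictMono m, h1, h2]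
  have D : ∀ y ∈ Ico a b ×ˢ Ico 0 (2 * π), HasFDerivWithinAt (Prod.map ζ (id : ℝ → ℝ))
      ((ContinuousLinearMap.toSpanSingleton ℝ (ζ₁ y.1)).prodMap (.id ℝ ℝ))
      (Ico a b ×ˢ Ico 0 (2 * π)) y := fun y _ =>
    ((d y.1).hasFDerivAt.prodMap y (hasFDerivAt_id y.2)).hasFDerivWithinAt
  have i : InjOn (Prod.map ζ (id : ℝ → ℝ)) (Ico a b ×ˢ Ico 0 (2 * π)) :=
    (m.injective.prodMap Function.injective_id).injOn
  have k : EqOn (fun y : ℝ × ℝ => |((ContinuousLinearMap.toSpanSingleton ℝ (ζ₁ y.1)).prodMap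
      (.id ℝ ℝ)).det| • M.JS e (Prod.map ζ id y) • f' (M.P e (Prod.map ζ id y)))
      (fun y => M.JS e y • f (M.P e y)) (Ico a b ×ˢ Ico 0 (2 * π)) := fun y hy => by
    have : ((ContinuousLinearMap.toSpanSingleton ℝ (ζ₁ y.1)).prodMap (.id ℝ ℝ)).det = ζ₁ y.1 :=
      (LinearMap.det_prodMap _ _).trans (by
        simpa using ContinuousLinearMap.det_toSpanSingleton (ζ₁ y.1))
    simp only [this, abs_of_pos (p _)]
    exact (h y.1 hy.1 y.2).symm
  rw [(int_En g measurableSet_Ico (sub _) f).1, (int_En g measurableSet_Ico (sub _) f).2,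
    (int_En g measurableSet_Ico (sub _) f').1, (int_En g measurableSet_Ico (sub _) f').2, im,
    integrableOn_image_iff_integrableOn_abs_det_fderiv_smul _ s D i,
    integral_image_eq_integral_abs_det_fderiv_smul _ s D i]
  exact ⟨integrableOn_congr_fun k s, setIntegral_congr_fun s k⟩

/-- the pieces of the truncated surface -/
theorem int_SW {a Z Z' : Fin M.n₁ → ℝ} (ha : ∀ j, M.R < a j ∧ a j ≤ Z j ∧ a j ≤ Z' j)
    (h0 : EqOn f' f (M.S \ ⋃ j, M.En (.inl j) (Ici (a j))))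
    (h1 : ∀ j, (IntegrableOn f' (M.En (.inl j) (Ico (a j) (Z' j))) (sig M.w) ↔
      IntegrableOn f (M.En (.inl j) (Ico (a j) (Z j))) (sig M.w)) ∧
      ∫ x in M.En (.inl j) (Ico (a j) (Z' j)), f' x ∂sig M.w =
        ∫ x in M.En (.inl j) (Ico (a j) (Z j)), f x ∂sig M.w) :
    ∫ x in M.S \ ⋃ j, M.En (.inl j) (Ici (Z' j)), f' x ∂sig M.w =
      ∫ x in M.S \ ⋃ j, M.En (.inl j) (Ici (Z j)), f x ∂sig M.w := by
  have sa : ∀ j, Ici (a j) ⊆ Ioi M.R := fun j z k => (ha j).1.trans_le k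
  have mA := g.isClosed_S.measurableSet.diff
    (.iUnion fun j => g.meas_En (e := .inl j) measurableSet_Ici (sa j))
  generalize hA : M.S \ ⋃ j, M.En (.inl j) (Ici (a j)) = A at h0 mA
  have key : ∀ (Z : Fin M.n₁ → ℝ) (f : E3 → ℂ), (∀ j, a j ≤ Z j) →
      M.S \ ⋃ j, M.En (.inl j) (Ici (Z j)) = A ∪ ⋃ j, M.En (.inl j) (Ico (a j) (Z j)) ∧
      (IntegrableOn f A (sig M.w) →
        (∀ j, IntegrableOn f (M.En (.inl j) (Ico (a j) (Z j))) (sig M.w)) →
        ∫ x in A ∪ ⋃ j, M.En (.inl j) (Ico (a j) (Z j)), f x ∂sig M.w = ∫ x in A, f x ∂sig M.w +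
          ∑ j, ∫ x in M.En (.inl j) (Ico (a j) (Z j)), f x ∂sig M.w) := fun Z f l => by
    have s1 : ∀ j, Ico (a j) (Z j) ⊆ Ioi M.R := fun j => Ico_subset_Ici_self.trans (sa j)
    have s2 : ∀ j, Ici (Z j) ⊆ Ioi M.R := fun j => (Ici_subset_Ici.2 (l j)).trans (sa j)
    have m := fun j => g.meas_En (e := .inl j) measurableSet_Ico (s1 j)
    subst hA
    refine ⟨Subset.antisymm (fun x hx => ?_) (union_subset (diff_subset_diff_right
      (iUnion_mono fun j => Mod.En_mono (Ici_subset_Ici.2 (l j)))) (iUnion_subset fun j => ?_)),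
      fun i1 i2 => ?_⟩
    · refine or_iff_not_imp_left.2 fun k => ?_
      obtain ⟨j, y, hy, rfl⟩ := mem_iUnion.1 (not_not.1 fun n => k ⟨hx.1, n⟩)
      exact mem_iUnion.2 ⟨j, Mod.P_mem_En ⟨hy.1, not_le.1 fun n =>
        hx.2 (mem_iUnion.2 ⟨j, Mod.P_mem_En n⟩)⟩⟩
    · rintro _ ⟨y, hy, rfl⟩
      refine ⟨g.mem _ _ (s1 j hy.1), fun k => ?_⟩
      obtain ⟨i, k⟩ := mem_iUnion.1 k
      rcases eq_or_ne i j with rfl | n
      · exact hy.1.2.not_ge ((g.mem_En (s2 i) (s1 i hy.1)).1 k)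
      · exact g.notMem_En (by simpa using n) (s2 i) (s1 j hy.1) k
    · rw [setIntegral_union (disjoint_sdiff_left.mono_right (iUnion_mono fun j =>
        Mod.En_mono Ico_subset_Ici_self)) (.iUnion m) i1 (integrableOn_finite_iUnion.2 i2),
        integral_iUnion_fintype m (fun i j n => disjoint_left.2 ?_) i2]
      rintro _ k ⟨y, hy, rfl⟩
      exact g.notMem_En (by simpa using n) (s1 i) (s1 j hy.1) k
  obtain ⟨a1, a2⟩ := key Z f fun j => (ha j).2.1
  obtain ⟨b1, b2⟩ := key Z' f' fun j => (ha j).2.2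
  have i := integrableOn_congr_fun (μ := sig M.w) h0 mA
  rw [a1, b1]
  by_cases k : IntegrableOn f A (sig M.w) ∧
    ∀ j, IntegrableOn f (M.En (.inl j) (Ico (a j) (Z j))) (sig M.w)
  · rw [a2 k.1 k.2, b2 (i.2 k.1) fun j => (h1 j).1.2 (k.2 j), setIntegral_congr_fun mA h0,
      Finset.sum_congr rfl fun j _ => (h1 j).2]
  · rw [integral_undef fun n => k ((integrableOn_union.1 n).imp i.1 fun n j =>
      (h1 j).1.1 (integrableOn_finite_iUnion.1 n j)), integral_undef fun n =>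
      k ((integrableOn_union.1 n).imp_right integrableOn_finite_iUnion.1)]

omit g in
theorem sqrt_mul {a : ℝ} (ha : 0 < a) (w : ℂ) : Complex.sqrt (a ^ 2 * w) = a * Complex.sqrt w := by
  rcases eq_or_ne w 0 with rfl | n
  · simp [Complex.sqrt]
  · have n' : (a : ℂ) ≠ 0 := Complex.ofReal_ne_zero.2 ha.ne'
    rw [Complex.sqrt, Complex.sqrt, Complex.cpow_def_of_ne_zero (mul_ne_zero (pow_ne_zero _ n') n),
      Complex.cpow_def_of_ne_zero n, ← Complex.ofReal_pow, Complex.log_ofReal_mul (by positivity) n,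
      Real.log_pow, add_mul, Complex.exp_add]
    congr 1
    rw [← Real.exp_log ha, Complex.ofReal_exp, Real.exp_log ha]
    congr 1
    push_cast
    ring

/-- the area element under a change of the height -/
theorem area_chg {X X' : E3 → V3} {z θ l : ℝ} (hz : M.R < z) (hz' : M.R < ζ z)
    (d : HasDerivAt ζ l z) (p : 0 < l) (hX : DifferentiableAt ℝ X (M.P e (z, θ)))
    (hX' : DifferentiableAt ℝ X' (M.P e (ζ z, θ)))
    (h : (fun q => X (M.P e q)) =ᶠ[𝓝 (z, θ)] fun q => X' (M.P e (ζ q.1, q.2))) :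
    M.JS e (z, θ) * Complex.sqrt (gg (pd X (M.P e (z, θ))) (nu M.w (M.P e (z, θ)))) = l *
      (M.JS e (ζ z, θ) * Complex.sqrt (gg (pd X' (M.P e (ζ z, θ))) (nu M.w (M.P e (ζ z, θ))))) := by
  have key : ∀ (X : E3 → V3) (y : ℝ × ℝ), M.R < y.1 → DifferentiableAt ℝ X (M.P e y) →
      M.JS e y * Complex.sqrt (gg (pd X (M.P e y)) (nu M.w (M.P e y))) = Complex.sqrt
        (g2 (jv (fun q => X (M.P e q)) y 3) (jv (fun q => X (M.P e q)) y 1)) := fun X y hy k => by
    rw [((cov _ _ _ _ g.shr g.smw _ y (g.pc e hy)).2.2.2.2.1 X X k k).2.1,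
      ← sqrt_mul (g.ori e y hy)]
    congr 2
    have := g.sg_sq e
    rw [← Complex.ofReal_pow, ← Complex.ofReal_pow, Mod.JS, Mod.Js, mul_pow, sq (M.sg e), this, one_mul]
  have D : ∀ i v, fderiv ℝ (fun q : ℝ × ℝ => X' (M.P e (ζ q.1, q.2)) i) (z, θ) v =
      fderiv ℝ (fun q => X' (M.P e q) i) (ζ z, θ) (l * v.1, v.2) := fun i v => by
    have := HasFDerivAt.comp (f := fun q : ℝ × ℝ => (ζ q.1, q.2)) (z, θ)
      (differentiableAt_pi.1 (hX'.comp (ζ z, θ)
        ((g.cdP e (y := (ζ z, θ)) hz').differentiableAt (by simp))) i).hasFDerivAt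
      ((d.hasFDerivAt.comp (z, θ) hasFDerivAt_fst).prodMk hasFDerivAt_snd)
    exact (congrArg (· v) this.fderiv).trans (by simp [mul_comm]; rfl)
  have e3 : jv (fun q => X' (M.P e (ζ q.1, q.2))) (z, θ) 3 =
      (l : ℂ) • jv (fun q => X' (M.P e q)) (ζ z, θ) 3 := funext fun i => (D i _).trans (by
    rw [show ((l * ((1, 0) : ℝ × ℝ).1, ((1, 0) : ℝ × ℝ).2) : ℝ × ℝ) = l • (1, 0) by simp, map_smul]
    rfl)
  have e1 : jv (fun q => X' (M.P e (ζ q.1, q.2))) (z, θ) 1 =
      jv (fun q => X' (M.P e q)) (ζ z, θ) 1 := funext fun i => (D i _).trans (by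
    rw [show ((l * ((0, 1) : ℝ × ℝ).1, ((0, 1) : ℝ × ℝ).2) : ℝ × ℝ) = (0, 1) by simp]
    rfl)
  rw [key X _ hz hX, key X' _ hz' hX', jv_congr h, e3, e1, ← sqrt_mul p]
  congr 1
  simp only [g2, dt, P218N.cr0, P218N.cr1, P218N.cr2, Pi.smul_apply, smul_eq_mul]
  ring

end Vale.Agent.P218I.Rp
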