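import Vale.Agent.P218N.Spec3
import Vale.Agent.P218N.Prf
import Vale.Agent.P218N.Bv
import Vale.Agent.P218I.AsmA
import Vale.Agent.P218I.Bt
import Vale.Agent.P218I.RpA
import Vale.Agent.P218I.RpC
import Vale.Agent.P218I.Ind

/-!
# P218, INST: the rows OBSI, PROF, DFV
-/

set_option linter.all false

open MeasureTheory Set Filter Topology
open scoped Real

noncomputable section

namespace Vale.Agent.P218I

open Vale.Agent.P218T Vale.Agent.P218L GD
open Vale.Agent.P218N (sig km rj Df Bc Ef)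
open Vale.Agent.P218Q (oi Prof DF vb)

namespace Pf

theorem prof_mono {K K' Z : ℝ} {c : ℂ} {O V V1 V2 : ℝ → ℂ} (h : Prof K Z c O V V1 V2)
    (hK : K ≤ K') (hZ : 0 < Z) : Prof K' Z c O V V1 V2 :=
  ⟨h.cV, h.cV1, h.dV, h.dV1, fun s hs => (h.eq s hs).trans (by
    have : 0 < s := by linarith [hs.1]
    have := (Real.exp_pos ((s ^ 2 - Z ^ 2) / 8)).le
    unfold M0.ly
    gcongr), h.top, h.rob.trans (by gcongr), fun m hm => (h.obs m hm).trans (by gcongr)⟩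

theorem num (A B : ℝ) : ∀ᶠ s : ℝ in atTop, ∀ W, 0 < W → W ≤ 20 * s →
    A * Real.exp (-s ^ 2 / 2) + B * Real.exp (-s ^ 2 / 4) * Real.exp (-s / 4) * W ≤
      Real.exp (-s ^ 2 / 4) / W ^ 4 := by
  have h := (((Real.tendsto_pow_mul_exp_neg_atTop_nhds_zero 4).const_mul (|A| * 80 ^ 4)).add
    ((Real.tendsto_pow_mul_exp_neg_atTop_nhds_zero 5).const_mul (|B| * 80 ^ 5))).comp
    (tendsto_id.atTop_div_const four_pos)
  filter_upwards [h.eventually_lt_const (show _ < (1 : ℝ) by simp), eventually_ge_atTop 1]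
    with s h1 h2 W w0 w1
  simp only [Function.comp_apply, id] at h1
  have e : Real.exp (-s ^ 2 / 2) ≤ Real.exp (-s ^ 2 / 4) * Real.exp (-(s / 4)) := by
    rw [← Real.exp_add]
    exact Real.exp_le_exp.2 (by nlinarith)
  rw [le_div_iff₀ (by positivity), neg_div 4 s]
  calc _ ≤ (|A| * (Real.exp (-s ^ 2 / 4) * Real.exp (-(s / 4))) + |B| * Real.exp (-s ^ 2 / 4) *
        Real.exp (-(s / 4)) * (20 * s)) * (20 * s) ^ 4 := by
        gcongr <;> exact le_abs_self _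
    _ = Real.exp (-s ^ 2 / 4) * (|A| * 80 ^ 4 * ((s / 4) ^ 4 * Real.exp (-(s / 4))) +
        |B| * 80 ^ 5 * ((s / 4) ^ 5 * Real.exp (-(s / 4)))) := by ring
    _ ≤ _ := mul_le_of_le_one_right (by positivity) h1.le

variable {M : Mod} {k : ℕ} {G : GD M k}

theorem Vt_far {Z : Fin M.n₁ → ℝ} {z₃ : ℝ} (h : G.ρ + 7 ≤ 2 * z₃) (z0 : 0 < z₃) (U : G.XX Z) (c v j)
    {y : ℝ × ℝ} (hy : 2 * z₃ < y.1) (i) :
    Vt z₃ (U, bs c v) j y i = rj (c j) y.1 1 0 i + (U.2.1.1 j).1 i y := by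
  simp [Vt, Vj, bs, zt, zt₁, zt₂, bt_zero G j (c j) h z0 hy i y.2]

theorem both (snd : SOUND) (obsi : OBSI) :
    RowP fun _ _ G p => (G.obj p.toCs).PROF p ∧ (G.obj p.toCs).DFV p := by
  obtain ⟨r₀, r0, h⟩ := P218N.prf
  obtain ⟨K', h⟩ := h 1
  choose! Z₀ h using fun J₀ J a b => eventually_atTop.1 (h J₀ J a b)
  intro M g
  obtain ⟨z₁, h1⟩ := Row.and snd obsi M g
  refine ⟨max z₁ 2, fun k G hz o => ?_⟩
  obtain ⟨h1, h2⟩ := h1 k G (le_of_max_le_left hz) o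
  have z2 := le_of_max_le_right hz
  filter_upwards [h1, h2, ev_ad, ev_cyl (Y := 1) z2 (by nlinarith), ev_Z fun q J _ => Z₀ q.J₀ J,
    ev_Z fun q _ _ => 600 * q.z₃ + 1, ev_K₂ fun _ _ => K', ev_cs (ev₀_J fun _ _ _ => 10 ^ 13),
    ev_cs (ev₀_r (f := fun _ => r₀) (.of_forall fun _ => r0)), ev_cs (ev₀_z fun _ _ => G.ρ + 7)]
    with p h1 h2 a cy l1 l2 l3 l4 l5 l6
  have hi := o.ld.hi
  have z0 : 0 < p.z₃ := by linarith
  have key : ∀ b U, (G.obj p.toCs).So p p.W p.c p.v b U → ∀ j,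
      (p.v = 1 → DF p.J K' (p.W j) (p.c j) ((G.obj p.toCs).D j p.J p.m p.W (U, bs p.c p.v))) ∧
      ∃ V V1 V2, Prof K' (p.W j) (p.c j) (fun s => (G.obj p.toCs).O j p.J (fun _ => s) p.W
        (U, bs p.c p.v)) V V1 V2 := fun b U s j => by
    have w := l2.trans (a.hW j).1
    have sub : Icc (p.W j / 300) (p.W j) ⊆ Icc G.z₀ (p.W j) := Icc_subset_Icc_left (by linarith)
    obtain ⟨-, s1, -⟩ := (h1 _ (mem_Bx (by linarith) s.1)).2 b
      (((ind M k G p.toCs).1 p.J p.m p.W U p.c p.v).1.trans s.2)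
    have V := fun y hy => Vt_far (by linarith) z0 U p.c p.v j (y := y) hy
    have e₁ : Zb (U, bs p.c p.v) j = p.W j := by simp [Zb, bs]
    have e₂ : Vb (U, bs p.c p.v) j = vb (p.W j) (p.c j) := by rw [Vb, e₁]; rfl
    have e₃ : pb (U, bs p.c p.v) j = fun θ => rj (p.c j) (p.W j) 1 0 3 +
        (U.2.1.1 j).1 3 (p.W j, θ) := funext fun θ => by rw [pb, e₁]; simp [bs, rj]
    have s2 := congrFun (s1 j).1 0
    rw [Bj, e₁, e₂, e₃] at s2
    obtain ⟨k1, k2⟩ := (h p.J₀ p.J (by exact_mod_cast l4) a.hJ _ (l1.trans (a.hW j).1) _ (a.hc j)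
      (fun i => (U.2.1.1 j).1 i) (fun i y => rj (p.c j) y.1 1 0 i + (U.2.1.1 j).1 i y)
      (km (p.m j)) ((U.2.1.1 j).2.1.mono sub) (fun i => ((U.2.1.1 j).1 i).cont.continuousOn)
      (fun i => ((Rp.pN_iff (cy j) r0.le).1 (((le_Nn U).1 j).trans (s.1.le.trans l5.2)) i).mono
        sub (fun _ _ => le_rfl) (fun _ _ => le_rfl) le_rfl) (U.2.1.1 j).2.2.1 fun _ _ => rfl).2
      p.v a.hv s2
    refine ⟨fun hv => ?_, k2 (fun y hy => ?_) _ fun m hm => ?_⟩
    · show DF _ _ _ _ (Df _ _ _ _ _ _ _ _)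
      rw [e₁, e₂, e₃]
      exact k1 hv
    · have := (s1 j).2 y.1 ⟨by linarith [hy.1], hy.2.le⟩ y.2
      rw [Ec, funext (V (y.1, y.2) (by linarith [hy.1]))] at this
      simpa [bs, zt, zt₁, zt₂] using this
    · rw [one_mul, intervalIntegral.integral_congr fun z hz => ?_]
      · exact h2 U s.1 j m hm
      rw [uIcc_of_le (by linarith)] at hz
      simp only [V (z, _) (by linarith [hz.1, hm.1] : 2 * p.z₃ < z)]
  refine ⟨fun b U s j => ?_, fun hv b U s j => le_trans ((key b U s j).1 hv) ?_⟩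
  · obtain ⟨V, V1, V2, k⟩ := (key b U s j).2
    exact ⟨V, V1, V2, prof_mono k l3 (by linarith [(a.hW j).1])⟩
  · have : 0 < p.W j := by linarith [(a.hW j).1]
    gcongr

end Pf

theorem prof (snd : SOUND) (obsi : OBSI) : Fld Obj.PROF :=
  (Pf.both snd obsi).mono fun _ _ _ _ h => h.mono fun _ h => h.1

theorem dfv (snd : SOUND) (obsi : OBSI) : Fld Obj.DFV :=
  (Pf.both snd obsi).mono fun _ _ _ _ h => h.mono fun _ h => h.2

theorem obsi (gds : GDS) (stc : STC) (stk : STK) (smc : SMC) (smk : SMK) (hi : HI) (gau : GAU) :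
    OBSI := by
  obtain ⟨C, jo, -⟩ := P218Q.jo
  intro M g
  obtain ⟨z₁, h⟩ := (((gds.and stc).and (stk.and smc)).and (smk.and hi)) M g
  refine ⟨z₁, fun k G hz o => ?_⟩
  obtain ⟨⟨⟨h1, h2⟩, h3, h4⟩, ⟨r₀, r0, h5⟩, h6⟩ := h k G hz o
  choose s₀ hs using fun K => eventually_atTop.1 (Pf.num (K * Real.exp ((G.ρ + 5) ^ 2 / 8) *
    ∫ x, Real.exp (-‖x‖ ^ 2 / 8) ∂sig M.w) (|C| * (2 * π)))
  have lo := o.ld.lo
  have hi := o.ld.hi
  have R1 := g.one.1
  filter_upwards [h1, h4, h6, ev_ad, ev_Z fun q _ _ => 20 * s₀ q.K, ev_cs (ev₀_K 0),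
    ev_Z fun _ _ _ => 20 * (G.ρ + 6), ev_cs (ev₀_r (f := fun _ => r₀) (.of_forall fun _ => r0)),
    ev_cs (ev₀_z fun _ _ => G.ρ + 9)] with p h1 h4 h6 a l1 K0 l2 l3 l4 U hU j s hs'
  have w := fun j => (a.hW j).1
  obtain ⟨s1, s2⟩ := hs'
  have y := mem_Bx (by linarith) hU
  have m : ∀ _ : Fin M.n₁, p.Z / 25 ≤ s := fun _ => by linarith [w j]
  have S := fun j => (h2 p.W p.z₃ (fun j => by linarith [w j]) l4 (fun _ => s) (U, bs p.c p.v) j).2
  have T := h3 p.W p.z₃ (fun j => by linarith [w j]) l4 (fun _ => s) (U, bs p.c p.v)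
  have i := (h6 _ y).2.2.2.2.2.2 _ m j
  set F := fun q : ℝ × ℝ => oi s q.1 (Vt p.z₃ (U, bs p.c p.v) j q 0)
    (Vt p.z₃ (U, bs p.c p.v) j q 3) (Vt p.z₃ (U, bs p.c p.v) j q 1)
  set f := Io p.z₃ (fun _ => s) (U, bs p.c p.v) j with hf
  have t : Ioo (G.ρ + 4) (p.W j) ⊆ Ioi M.R := fun z hz => mem_Ioi.2 (by linarith [hz.1])
  have mE := g.meas_En (e := .inl j) measurableSet_Ioo t
  have tW : ∀ l, Ici (p.W l) ⊆ Ioi M.R := fun l z hz => by
    have := mem_Ici.1 hz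
    exact mem_Ioi.2 (by linarith [w l])
  have sE : M.En (.inl j) (Ioo (G.ρ + 4) (p.W j)) ⊆ SW p.W := by
    rintro _ ⟨q, hq, rfl⟩
    refine ⟨g.mem _ _ (t hq.1), fun n => ?_⟩
    obtain ⟨l, n⟩ := mem_iUnion.1 n
    rcases eq_or_ne l j with rfl | e
    · exact hq.1.2.not_ge ((g.mem_En (tW l) (t hq.1)).1 n)
    · exact g.notMem_En (by simpa using e) (tW l) (t hq.1) n
  have mS : MeasurableSet (SW (M := M) p.W) := g.isClosed_S.measurableSet.diff
    (.iUnion fun l => g.meas_En measurableSet_Ici (tW l))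
  have sm := fun l (q : ℝ × ℝ) (q1 : G.ρ + 4 < q.1) (q2 : q.1 < p.W l) =>
    h4 _ y l q ⟨by linarith, q2.le⟩
  have mI := measurableSet_Ico (a := (0 : ℝ)) (b := 2 * π)
  have E : EqOn (fun q => M.JS (.inl j) q • f (M.P (.inl j) q)) F
      (Ioo (G.ρ + 4) (p.W j) ×ˢ Ico 0 (2 * π)) := fun q hq => by
    have := (S j q hq.1.1 hq.1.2 (sm j q hq.1.1 hq.1.2)).2.2.2.2.2.2.1
    simp only [Complex.real_smul]
    rw [mul_comm, this]
    simpa [bs, zt, zt₁, F] using (P218N.cyb _ q.1 s q.1 1 0 (sm j q hq.1.1 hq.1.2).cj (by simp)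
      (by simp) (by simp)).2.2.2.2.2.2
  obtain ⟨c1, c2⟩ := Rp.int_En g (e := .inl j) measurableSet_Ioo t f
  rw [integrableOn_congr_fun E (measurableSet_Ioo.prod mI)] at c1
  rw [setIntegral_congr_fun (measurableSet_Ioo.prod mI) E] at c2
  have iF := c1.1 (i.mono_set sE)
  have sI : Icc (s - 1) (s + 1) ×ˢ Ico 0 (2 * π) ⊆ Ioo (G.ρ + 4) (p.W j) ×ˢ Ico 0 (2 * π) :=
    prod_mono (fun z hz => ⟨by linarith [hz.1, w j], by linarith [hz.2, w j]⟩) subset_rfl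
  have e1 : ∫ z in (s - 1)..(s + 1), ∫ θ in (0 : ℝ)..2 * π, F (z, θ) =
      ∫ q in Icc (s - 1) (s + 1) ×ˢ Ico 0 (2 * π), F q := by
    rw [Measure.volume_eq_prod, setIntegral_prod _ (iF.mono_set sI),
      intervalIntegral.integral_of_le (by linarith), integral_Icc_eq_integral_Ioc]
    simp only [intervalIntegral.integral_of_le Real.two_pi_pos.le, integral_Ico_eq_integral_Ioo,
      integral_Ioc_eq_integral_Ioo]
  have d1 := integral_diff mE i sE
  have d2 := integral_diff (measurableSet_Icc.prod mI) iF sI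
  have s0 : 1 ≤ s := by linarith [w j]
  have b1 : ‖∫ x in SW p.W \ M.En (.inl j) (Ioo (G.ρ + 4) (p.W j)), f x ∂sig M.w‖ ≤
      p.K * Real.exp ((G.ρ + 5) ^ 2 / 8) * (∫ x, Real.exp (-‖x‖ ^ 2 / 8) ∂sig M.w) *
        Real.exp (-s ^ 2 / 2) := by
    have gi := (gau M g).const_mul (p.K * Real.exp ((G.ρ + 5) ^ 2 / 8) * Real.exp (-s ^ 2 / 2))
    refine ((norm_integral_le_of_norm_le gi.integrableOn ((ae_restrict_mem (mS.diff mE)).mono
      fun x hx => ?_)).trans (setIntegral_le_integral gi (.of_forall fun x => by positivity))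
        ).trans_eq (by rw [integral_const_mul]; ring)
    rcases le_or_gt ‖x‖ (G.ρ + 5) with n | n
    · refine ((h1 _ y _ m x hx.1).2.2.2.2 n j).trans ?_
      rw [mul_right_comm p.K, mul_assoc, ← Real.exp_add]
      exact le_mul_of_one_le_right (by positivity) (Real.one_le_exp (by
        linarith [pow_le_pow_left₀ (norm_nonneg x) n 2]))
    obtain ⟨e, q, q0, rfl⟩ := g.cov x hx.1.1 (by linarith)
    have q1 : G.ρ + 4 < q.1 := by linarith [((g.cht e).rad q q0).2]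
    refine le_of_eq_of_le (norm_eq_zero.2 ?_) (by positivity)
    rcases e with l | l
    · have q2 : q.1 < p.W l := not_le.1 fun n => hx.1.2 (mem_iUnion.2 ⟨l, Mod.P_mem_En n⟩)
      exact (S l q q1 q2 (sm l q q1 q2)).2.2.2.2.2.2.2.1 j fun e =>
        hx.2 (e ▸ Mod.P_mem_En ⟨q1, e ▸ q2⟩)
    · exact (T l q q1 (h5 _ _ l q (((le_Nn U).2.2.1 l).trans_lt (hU.trans_le l3.2))
        (by linarith))).2.2.2.2.1 j
  have v : volume (Ioo (G.ρ + 4) (p.W j) ×ˢ Ico 0 (2 * π)) =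
      ENNReal.ofReal ((p.W j - (G.ρ + 4)) * (2 * π)) := by
    rw [Measure.volume_eq_prod, Measure.prod_prod, Real.volume_Ioo, Real.volume_Ico,
      ENNReal.ofReal_mul (by linarith [w j]), sub_zero (2 * π)]
  have b2 := norm_setIntegral_le_of_norm_le_const (f := F)
    (C := |C| * Real.exp (-s ^ 2 / 4) * Real.exp (-s / 4)) ((measure_mono (diff_subset
      (t := Icc (s - 1) (s + 1) ×ˢ Ico 0 (2 * π)))).trans_lt (v ▸ ENNReal.ofReal_lt_top))
    fun q hq => by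
      have c := (sm j q hq.1.1.1 hq.1.1.2).cj
      have : s ≤ |q.1 ^ 2 - s ^ 2| := by
        rcases lt_or_ge q.1 (s - 1) with n | n
        · exact le_abs.2 (.inr (by nlinarith [hq.1.1.1]))
        · exact le_abs.2 (.inl (by nlinarith [not_le.1 fun n' => hq.2 ⟨⟨n, n'⟩, hq.1.2⟩]))
      refine (jo _ _ _ _ _ c.le (by nlinarith [c.le, c.p]) (c.q.trans
        (half_le_self (norm_nonneg _)))).trans ?_
      gcongr
      exact le_abs_self _
  have b3 := measureReal_mono (μ := volume) (diff_subset (t := Icc (s - 1) (s + 1) ×ˢ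
    Ico 0 (2 * π))) (v ▸ ENNReal.ofReal_ne_top)
  rw [measureReal_def _ (_ ×ˢ _), v, ENNReal.toReal_ofReal (mul_nonneg (by linarith [w j])
    Real.two_pi_pos.le)] at b3
  rw [e1, oo, show ∀ a b : ℂ, a - b = a - (∫ x in M.En (.inl j) (Ioo (G.ρ + 4) (p.W j)),
    f x ∂sig M.w) + ((∫ q in Ioo (G.ρ + 4) (p.W j) ×ˢ Ico 0 (2 * π), F q) - b) from
      fun _ _ => by rw [c2]; ring, ← d1, ← d2]
  refine (norm_add_le_of_le b1 (b2.trans (mul_le_mul_of_nonneg_left (b3.trans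
    (show _ ≤ p.W j * (2 * π) by gcongr; linarith)) (by positivity)))).trans (le_of_eq_of_le
      (by ring) (hs p.K s (by linarith [w j]) (p.W j) (by linarith [w j]) (by linarith)))

end Vale.Agent.P218I
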