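import Vale.Agent.P218I.Bt

/-!
# P218, INST: the linearisation at the reference surface
-/

open Set Filter Topology
open scoped ContDiff Real

noncomputable section

namespace Vale.Agent.P218I

open Vale.Agent.P218T Vale.Agent.P218L Vale.Agent.P218M Vale.Agent.P218W
open Vale.Agent.P218T.Frm (jm lj)
open Vale.Agent.P218N (vD vv)

variable {R Z z D : ℝ} {c : ℂ}

/-- the derivative of `VV` is computed pointwise -/
theorem fd_VV (l : R ≤ Z) {V : Fin 6 → WI R Z} (h : IsUnit (V 0))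
    (k : IsUnit (vD (V 0) (V 3) (V 1))) (d : Fin 6 → WI R Z) (hz : z ∈ Icc R Z) (θ : ℝ) :
    fderiv ℂ (VV R Z) V d (z, θ) =
      fderiv ℂ (vJ 1 z) (fun i => V i (z, θ)) fun i => d i (z, θ) := by
  let e : WI R Z →L[ℂ] ℂ := (W.ev (z, θ)).toContinuousLinearMap
  let E : (Fin 6 → WI R Z) →L[ℂ] Fin 6 → ℂ := .pi fun i => e ∘L .proj i
  have a := e.hasFDerivAt.comp V (VV_an h k).differentiableAt.hasFDerivAt
  have b := (d_vJ (t := 1) (z := z) (V := E V) (h.map (W.ev (z, θ))).ne_zero (by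
    simpa [vD, E, e] using (k.map (W.ev (z, θ))).ne_zero)).hasFDerivAt.comp V E.hasFDerivAt
  have u : ∀ {f : (Fin 6 → WI R Z) → WI R Z}, Continuous f → IsUnit (f V) →
      ∀ᶠ U in 𝓝 V, IsUnit (f U) := fun hf hu => hf.continuousAt.eventually (Units.isOpen.mem_nhds hu)
  refine congrArg (· d) (a.unique (b.congr_of_eventuallyEq ?_))
  filter_upwards [u (f := fun U => U 0) (by fun_prop) h,
    u (f := fun U => vD (U 0) (U 3) (U 1)) (by unfold vD; fun_prop) k] with U h k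
  exact VV_ev l h k hz θ

theorem tc_eq {M : Mod} {k : ℕ} (L : LD M k) (l : L.z₀ ≤ Z) {U : Fin 6 → WI L.z₀ Z}
    (h : IsUnit (U 0)) (h' : IsUnit (vD (U 0) (U 3) (U 1))) {V : Fin 6 → ℝ × ℝ → ℂ}
    (e : ∀ i, ∀ z ∈ Icc L.z₀ Z, ∀ θ, U i (z, θ) = V i (z, θ)) (v : XE L.z₀ Z) :
    L.TC Z V v = (fderiv ℂ (VV L.z₀ Z) U v.1, low Z (v.1 3)) := by
  have a : ∀ v : XE L.z₀ Z, toW (Icc L.z₀ Z) (cl L.z₀ Z) (fun y => fderiv ℂ (vJ 1 y.1)
      (fun i => V i y) fun i => v.1 i y) = fderiv ℂ (VV L.z₀ Z) U v.1 := fun v =>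
    (ret_cl l).toW_eq fun z hz θ => by simp only [fd_VV l h h' _ hz, e _ z hz]
  rw [LD.TC, toL_apply ⟨(fderiv ℂ (VV L.z₀ Z) U).prod (low Z ∘L .proj 3) ∘L (XE L.z₀ Z).subtypeL,
    fun v => by rw [a]; rfl⟩, a]

theorem fd_RR {B : Fin 6 → WI R Z} (h : IsUnit ((rJ c R Z + B) 0))
    (k : IsUnit (vD ((rJ c R Z + B) 0) ((rJ c R Z + B) 3) ((rJ c R Z + B) 1))) :
    fderiv ℂ (RR c R Z) B = fderiv ℂ (VV R Z) (rJ c R Z + B) - LW c R Z :=
  (((VV_an h k).differentiableAt.hasFDerivAt.comp B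
    ((hasFDerivAt_id B).const_add _)).sub (LW c R Z).hasFDerivAt).fderiv

/-- from the weights of `DB` to the natural seminorms -/
theorem qN_le (h : Cyl 1 R Z c) (D0 : 0 ≤ D) {x : WI R Z} {v : XE R Z}
    (e : ∀ M, XN (Icc R Z) (fun i z => 1 * omW (wK (31 / 16) c) c Z i z)
      (fun i z => 1 * nu (wK (31 / 16) c) c Z i z) (fun i => v.1 i) M → L2 (Icc R Z) x
        (fun z => 1 * gO c Z z) (fun z => 1 * gW (wK (31 / 16) c) c Z z) (D * M)) :
    qN c R Z (x, 0) ≤ D * pN c R Z v := by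
  obtain ⟨pK, pw, pg, -, pr, -⟩ := pw_all h le_rfl
  have l : R ≤ Z := by linarith [h.RZ]
  have m := right_mem_Icc.2 l
  have b0 := mul_pos (h.z0 m) (pw.pos m)
  have b1 := mul_pos (h.z0 m) ((pK (31 / 16)).pos m)
  simp only [one_mul] at e
  refine (yn_le_iff l pg (pw_gW h one_pos (pK _)) b0 b1).2 ⟨e _ (((ret_cl l).xn_le_iff
    (pw_om h one_pos (pK _) pr (pg.add isCompact_Icc pr)) (pw_nu h one_pos (pK _))
    (apply_nonneg _ _)).1 le_rfl), fun i => ?_⟩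
  fin_cases i <;> simp <;> positivity

theorem om_mul {s o o' w w' : ℝ → ℝ} (s0 : 0 ≤ s z) (e : s z * w z = w' z) (i : Fin 6) :
    nu w' c Z i z ≤ s z * nu w c Z i z ∧ P218W.om (fun z => s z * o z) (fun z => s z * o' z) w' c Z
      i z ≤ s z * P218W.om o o' w c Z i z := by
  have n : ∀ i, nu w' c Z i z ≤ s z * nu w c Z i z := fun i => by
    rw [← nu_mul s0]
    fin_cases i <;> simp [nu, gW, e]
  refine ⟨n i, ?_⟩
  fin_cases i <;> simp [P218W.om, n, mul_div_assoc]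

/-- from the weights of `DB` to the heavy seminorms -/
theorem qH_le (h : Cyl 1 R Z c) (D0 : 0 ≤ D) {x : WI R Z} {v : XE R Z}
    (e : ∀ M, XN (Icc R Z) (fun i z => hv c z * omW (wh c) c Z i z)
      (fun i z => hv c z * nu (wh c) c Z i z) (fun i => v.1 i) M → L2 (Icc R Z) x
        (fun z => hv c z * gO c Z z) (fun z => hv c z * gW (wh c) c Z z) (D * M)) :
    qH c R Z (x, 0) ≤ D * pH c R Z v := by
  obtain ⟨pK, pw, pg, ph, pr, -⟩ := pw_all h le_rfl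
  have l : R ≤ Z := by linarith [h.RZ]
  have m := right_mem_Icc.2 l
  have b0 := mul_pos (ph.pos m) (mul_pos (h.z0 m) (pw.pos m))
  have b1 := mul_pos (h.z0 m) ((pK (19 / 32)).pos m)
  have n := fun i z hz => om_mul (Z := Z) (c := c) (o := fun z => (rh c z).re)
    (o' := fun z => gO c Z z + (rh c z).re) (ph.pos hz).le (hv_wh (z := z) h hz) i
  refine (yn_le_iff l (ph.mul isCompact_Icc pg) (pw_gW h one_pos (pK _)) b0 b1).2
    ⟨(e _ fun i => (((ret_cl l).xn_le_iff (pw_om h one_pos (pK _) (ph.mul isCompact_Icc pr)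
      (ph.mul isCompact_Icc (pg.add isCompact_Icc pr))) (pw_nu h one_pos (pK _))
      (apply_nonneg _ _)).1 le_rfl i).mono subset_rfl (fun z hz => (n i z hz).2)
      (fun z hz => (n i z hz).1) le_rfl).mono subset_rfl
      (fun _ _ => le_rfl) (fun z hz => by rw [gW, gW, ← mul_assoc, hv_wh h hz]) le_rfl, fun i => ?_⟩
  fin_cases i <;> simp <;> positivity

theorem cont_fd {z : ℂ} {V : Fin 6 → ℂ} (h : V 0 ≠ 0) (k : vD (V 0) (V 3) (V 1) ≠ 0) :
    ContinuousAt (fun t : ℂ × (Fin 6 → ℂ) => fderiv ℂ (vJ 1 t.1) t.2) (z, V) := by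
  refine (ContDiffAt.fderiv (f := fun t : ℂ × (Fin 6 → ℂ) => vJ 1 t.1) (n := 1) (m := 0) ?_
    contDiffAt_snd le_rfl).continuousAt
  unfold Function.uncurry vJ vv
  unfold vD at *
  fun_prop (disch := assumption)

/-- near the core the reference surface tends to the shrinker -/
theorem cls {M : Mod} {k : ℕ} (g : M.Geo) (G : GD M k) (h : M.R < G.z₀) (R : ℝ) {ε : ℝ}
    (ε0 : 0 < ε) (j : Fin M.n₁) : ∀ᶠ c in 𝓝 (0 : ℂ), ∀ z₃ Z, R < z₃ → ∀ z ∈ Icc G.z₀ R, ∀ θ,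
      ‖fderiv ℂ (vJ 1 z) (fun i => G.Vj z₃ j Z c 0 i (z, θ)) -
        fderiv ℂ (vJ 1 z) fun i => jet (VS (M.f j)) i (z, θ)‖ ≤ ε := by
  have o := Complex.ofRealCLM.contDiff (n := ∞)
  have c2 : ContDiff ℝ ∞ fun y : ℝ × ℝ => ((1 - cut (G.ρ + 6) y.1 : ℝ) : ℂ) * (y.1 ^ 2 - 2) :=
    ((o.comp (contDiff_const.sub (cd_cut _))).mul ((o.pow 2).sub contDiff_const)).comp contDiff_fst
  have pe : Per M.R fun y : ℝ × ℝ => ((1 - cut (G.ρ + 6) y.1 : ℝ) : ℂ) * (y.1 ^ 2 - 2) :=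
    fun _ _ _ => rfl
  generalize hγ : (fun y : ℝ × ℝ => ((1 - cut (G.ρ + 6) y.1 : ℝ) : ℂ) * (y.1 ^ 2 - 2)) = γ at c2 pe
  let A : ℝ × ℝ → Fin 6 → ℂ := fun y i => jet (VS (M.f j)) i y
  let B : ℝ × ℝ → Fin 6 → ℂ := fun y i => hj y.1 i - jet γ i y
  have cA : Continuous A := continuous_pi (Sdec.jet_cont (g.cd_VS j))
  have cB : Continuous B := continuous_pi fun i => Continuous.sub
    (by fin_cases i <;> simp [hj] <;> fun_prop) (Sdec.jet_cont c2 i)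
  have key := ((isCompact_Icc (a := G.z₀) (b := R)).prod (isCompact_Icc (a := 0) (b := 2 * π))
    ).eventually_forall_of_forall_eventually (x₀ := (0 : ℂ)) (P := fun c y =>
      ‖fderiv ℂ (vJ 1 y.1) (A y + c • B y) - fderiv ℂ (vJ 1 y.1) (A y)‖ < ε) fun y hy => by
    have y0 := h.trans_le hy.1.1
    have t := cont_fd (z := y.1) (V := A y) (Complex.ofReal_ne_zero.2 (pow_ne_zero 2 (g.r_ne y0)))
      (g.vD_ne y0)
    exact ((t.comp_of_eq (f := fun a : ℂ × ℝ × ℝ => ((a.2.1 : ℂ), A a.2 + a.1 • B a.2))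
      (by fun_prop) (by simp)).sub (t.comp_of_eq (f := fun a : ℂ × ℝ × ℝ => ((a.2.1 : ℂ), A a.2))
      (by fun_prop) rfl)).norm.eventually (gt_mem_nhds (by simpa using ε0))
  filter_upwards [key] with c hc z₃ Z h3 z hz θ
  have z0 := h.trans_le hz.1
  obtain ⟨θ', h1, h2⟩ := Per.red (F := fun y => (A y, B y)) (fun z θ hz => by
    simp only [A, B, per_jet (g.per_VS j M.R) _ z θ hz, per_jet pe _ z θ hz]) z0 θ
  have two : (2 : WithTop ℕ∞) ≤ ∞ := by norm_cast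
  have e : (fun i => G.Vj z₃ j Z c 0 i (z, θ)) = A (z, θ) + c • B (z, θ) := funext fun i => by
    have z3 : 0 < z₃ := by linarith [g.one.1, hz.2]
    rw [Vj_zero, (((lj (((g.cd_VS j).sub (contDiff_const (c := 2))).of_le two).contDiffAt).add
      ((lj (contDiffAt_const (c := -c))).mul (lj (c2.of_le two).contDiffAt (y := (z, θ))))).congr
      (G := G.bt z₃ j c) ((continuousAt_fst.eventually (gt_mem_nhds (hz.2.trans_lt h3))).mono
        fun q hq => by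
          simp [GD.bt, ← hγ, cut_zero (a := 1) ((div_le_one z3).2 hq.le)]
          ring)).jet i]
    simp only [A, B, Sdec.jet_sub (VS (M.f j)), Pi.add_apply, Pi.smul_apply, smul_eq_mul]
    fin_cases i <;> simp [jm, jet, hj, rh] <;> ring
  have := hc (z, θ') ⟨hz, Ico_subset_Icc_self h1⟩
  rw [(Prod.mk.inj h2).1, (Prod.mk.inj h2).2, ← e] at this
  exact this.le

/-- **the linearisation at the reference surface** -/
theorem pt (hb : BT) : PT := fun M g δ₀ d0 => by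
  obtain ⟨r₁, C₁, r1, -, ev1⟩ := end_val
  obtain ⟨r₂, C, r2, C0, nl⟩ := end_nl
  obtain ⟨η, η0, η1, η2, η3, η4⟩ : ∃ η, 0 < η ∧ η ≤ r₁ ∧ η ≤ r₂ ∧ η ≤ 1 ∧ C * η ≤ δ₀ :=
    ⟨min (min r₁ r₂) (min 1 (δ₀ / C)), by positivity, (min_le_left _ _).trans (min_le_left _ _),
      (min_le_left _ _).trans (min_le_right _ _), (min_le_right _ _).trans (min_le_left _ _),
      (le_div_iff₀' C0).1 ((min_le_right _ _).trans (min_le_right _ _))⟩
  obtain ⟨z₁, hb⟩ := hb M g (η / 2) (by positivity)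
  have Y1 : 1 ≤ (η ^ 8)⁻¹ := (one_le_inv₀ (by positivity)).2 (pow_le_one₀ η0.le η3)
  refine ⟨max z₁ ((η ^ 8)⁻¹ + 1), fun k G hz o R ε ε0 => ?_⟩
  have r : (η ^ 8)⁻¹ + 1 ≤ G.z₀ := le_of_max_le_right hz
  obtain ⟨a, a0, ha⟩ := Metric.eventually_nhds_iff.1
    (eventually_all.2 (cls g G (by linarith [o.lo]) R ε0))
  filter_upwards [hb k G (le_of_max_le_left hz), ev_cyl (R := G.z₀) (Y := (η ^ 8)⁻¹) (by linarith)
    (by nlinarith), ev_cs (ev₀_z fun _ _ => R + 1), ev_W fun _ => max (8 / a + 1) R]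
    with p hb cy z3 hW j v
  obtain ⟨B, B2, e, n1, n2⟩ := hb j
  have c := cy j
  have c1 : Cyl 1 G.z₀ (p.W j) (p.c j) := ⟨c.R0, c.RZ, c.cZ, fun z hz => Y1.trans (c.tip z hz), c.dsc⟩
  have l : G.z₀ ≤ p.W j := by linarith [c.RZ]
  have ad := adw c1 (by linarith)
  have ηY : 1 ≤ η ^ 8 * (η ^ 8)⁻¹ := (mul_inv_cancel₀ (by positivity)).ge
  have pa := pw_all c1 le_rfl
  obtain ⟨u, u', -⟩ := ev1 _ _ _ η _ _ ⟨c, Y1, ad.1, (pa.1 _).c, η0, η1, ηY⟩ B B2 (by linarith)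
  have t := tc_eq G.toLD l u u' (fun i z hz θ => (e i z hz θ).2) v
  have s : G.Tj p j v - T0 (p.c j) G.z₀ (p.W j) v = (fderiv ℂ (RR (p.c j) _ _) B v.1, 0) := by
    rw [fd_RR u u', show G.Tj p j v = _ from t, T0_apply, Prod.mk_sub_mk, sub_self]
    rfl
  have f : ∀ z ∈ Icc G.z₀ (p.W j), ∀ θ, (G.Tj p j v).1 (z, θ) = fderiv ℂ (vJ 1 z)
      (fun i => G.Vj p.z₃ j (p.W j) (p.c j) 0 i (z, θ)) fun i => v.1 i (z, θ) := fun z hz θ => by
    simp only [show G.Tj p j v = _ from t, fd_VV l u u' _ hz, (e _ z hz θ).2]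
  have v2 := (XE.mj (by linarith [c.RZ]) v).p2 l
  rw [s]
  refine ⟨⟨congrArg Prod.snd t, f⟩, (qN_le c1 (D := C * η) (by positivity) fun M hM =>
    ((nl _ _ _ η _ _ ⟨c, Y1, ad.1, (pa.1 _).c, η0, η2, ηY⟩).2 (fun _ => 1)
      (pw_cyl continuousOn_const fun _ _ => one_pos) B B2 _ v2 M hM).1 n1).trans (by gcongr),
    (qH_le c1 (D := C * η) (by positivity) fun M hM =>
      ((nl _ _ _ η _ _ ⟨c, Y1, ad.2, cont_wh c1, η0, η2, ηY⟩).2 _ pa.2.2.2.1 B B2 _ v2 M hM).1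
        n2).trans (by gcongr), fun y hy => ?_⟩
  have W1 : 8 / a + 1 ≤ p.W j := le_of_max_le_left (hW j).1
  have ca : dist (p.c j) 0 < a := by
    have := (div_lt_iff₀ a0).1 (show 8 / a < p.W j ^ 2 by nlinarith [div_pos (by norm_num : (0 : ℝ) < 8) a0])
    rw [dist_zero_right]
    nlinarith [c.cZ, norm_nonneg (p.c j), sq_nonneg (p.W j)]
  rw [show y = (y.1, y.2) from rfl, f _ ⟨hy.1, hy.2.trans (le_of_max_le_right (hW j).1)⟩]
  exact ((_ - _ : _ →L[ℂ] ℂ).le_opNorm _).trans (mul_le_mul_of_nonneg_right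
    (ha ca j p.z₃ (p.W j) (by linarith) _ hy _) (norm_nonneg _))

end Vale.Agent.P218I
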