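import Vale.Agent.P218I.RpB
import Vale.Agent.P218C.Jet
import Vale.Agent.P218N.AmbA

/-! The ansatz in the far zone of a cylindrical end. -/

set_option linter.all false

open Set Filter Topology
open scoped ContDiff

noncomputable section

namespace Vale.Agent.P218I.Rp

open Vale.Agent.P218T Vale.Agent.P218L GD
open Vale.Agent.P218N (V3 AD jt cx cay dt cd_cx)
open Vale.Agent.P218H (st st_ev_one)

variable {M : Mod} {k : ℕ} {G : GD M k} {Z : Fin M.n₁ → ℝ} {j : Fin M.n₁} {q : ℝ × ℝ} {z₃ : ℝ}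

theorem lift_one (g : M.Geo) (e e' : M.I) (hq : M.R < q.1) :
    M.lift e (fun _ => (1 : ℝ)) =ᶠ[𝓝 (M.P e' q)] fun _ => if e = e' then 1 else 0 := by
  split_ifs with h
  · subst h
    filter_upwards [g.P_nhds hq univ_mem]
    rintro _ ⟨a, ha, rfl⟩
    exact g.lift_Ph (fun _ _ _ => rfl) ha.2
  · exact g.lift_other h hq

theorem per_Vt (g : M.Geo) (y : G.XX Z × Pm (Fin M.n₁)) : Per M.R fun p => Vt z₃ y j p 0 :=
  fun z θ h => by
    simp [Vt, Vj, bt, P218W.jet, g.per_VS j M.R z θ h, P218W.W.per]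

theorem d_Vt (g : M.Geo) (y : G.XX Z × Pm (Fin M.n₁)) (hq : q.1 ∈ Ioo G.z₀ (Z j)) :
    DifferentiableAt ℝ (fun p => Vt z₃ y j p 0) q := by
  have a := fun a => (cd_cut a).differentiable (by simp)
  have b := (g.cd_VS j).differentiable (by simp)
  have c := ((y.1.2.1.1 j).2.1.d0 q (by rwa [interior_Icc])).differentiableAt
  have o : Differentiable ℝ Complex.ofReal := Complex.ofRealCLM.differentiable
  simp only [Vt, Vj, P218N.rj, P218W.jet, Matrix.cons_val_zero, zt]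
  unfold bt
  fun_prop

section

variable (o : G.Ok) (hq : G.ρ + 4 < q.1)
include o hq

theorem far_lo : M.R < q.1 := by linarith [o.ld.lo, o.ld.hi]

theorem far_st (e : M.I) {a : ℝ} (h : a ∈ Icc G.ρ (G.ρ + 3)) : ∀ᶠ x in 𝓝 (M.P e q), st a x = 1 :=
  st_ev_one (by linarith [o.ld.hi, G.hz, h.1])
    (by linarith [((o.ld.geo.cht e).rad q (far_lo o hq)).1, h.2])

theorem far_lam (e e' : M.I) : G.lam e =ᶠ[𝓝 (M.P e' q)] fun _ => if e = e' then 1 else 0 := by
  filter_upwards [far_st o hq e' (a := G.ρ + 1) (by norm_num), lift_one o.ld.geo e e' (far_lo o hq)]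
    with x a b
  rw [lam, a, b, one_mul]

theorem far_rot (i : Fin M.n₁) :
    G.rot i =ᶠ[𝓝 (M.P (.inl j) q)] fun _ => if i = j then 1 else 0 := by
  filter_upwards [far_st o hq (.inl j) (a := G.ρ + 2) (by norm_num),
    lift_one o.ld.geo (.inl i) (.inl j) (far_lo o hq)] with x a b
  simp [LD.rot, a, b]

theorem far_a : (G.ad Z).a =ᶠ[𝓝 (M.P (.inl j) q)] fun _ => 0 := by
  filter_upwards [eventually_all.2 fun e => far_lam o hq e (.inl j)] with x a
  simp [ad, a, apply_ite Complex.ofReal]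

theorem far_ft (y : G.XX Z × Pm (Fin M.n₁)) : ft z₃ y =ᶠ[𝓝 (M.P (.inl j) q)]
    M.lift (.inl j) fun p => P218L.q M (.inl j) p * (Vt z₃ y j p 0 - VS (M.f j) p) := by
  have l := far_lo o hq
  filter_upwards [far_st o hq (.inl j) (a := G.ρ + 1) (by norm_num),
    far_st o hq (.inl j) (a := G.ρ + 3) (by norm_num),
    eventually_all.2 fun e => eventually_all.2 fun h : e ≠ .inl j => o.ld.geo.lift_other
      (F := fun p => P218L.q M e p * LD.jx y.1.2.1 e 0 p) h l,
    eventually_all.2 fun i => eventually_all.2 fun h : i ≠ j => o.ld.geo.lift_other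
      (e := .inl i) (e' := .inl j) (F := fun p => P218L.q M (.inl i) p *
        (G.Vj z₃ i (Z i) (y.2.1 i) (y.2.2.1 i) 0 p - VS (M.f i) p)) (by simpa using h) l]
    with x a b c d
  have e : we y.1 x = _ :=
    Finset.sum_eq_single (s := Finset.univ) (.inl j) (fun e _ => c e) (by simp)
  rw [ft, uu, e, Finset.sum_eq_single j (fun i _ => d i) (by simp)]
  simp only [LD.core, a, b, sub_self, zero_smul, one_smul, zero_add, ← Mod.lift_add]
  congr 1
  funext p
  simp only [Vt, LD.jx]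
  ring

theorem far_per (y : G.XX Z × Pm (Fin M.n₁)) :
    Per M.R fun p => (P218L.q M (.inl j) p : ℂ) * (Vt z₃ y j p 0 - VS (M.f j) p) :=
  fun z θ h => by
    simp only [o.ld.geo.per_qn _ z θ h, per_Vt o.ld.geo y z θ h, o.ld.geo.per_VS j _ z θ h]

theorem far_d (y : G.XX Z × Pm (Fin M.n₁)) (h : q.1 < Z j) :
    DifferentiableAt ℝ (ft z₃ y) (M.P (.inl j) q) :=
  (o.ld.geo.lift_d1 (far_per o hq y) (far_lo o hq) (((cd_ofReal (o.ld.geo.cd_qn _
    (far_lo o hq))).differentiableAt (by simp)).mul ((d_Vt o.ld.geo y ⟨by linarith [o.ld.hi], h⟩).sub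
      ((o.ld.geo.cd_VS j).differentiable (by simp) q))) 0).1.congr_of_eventuallyEq (far_ft o hq y)

theorem far_V (y : G.XX Z × Pm (Fin M.n₁)) : (G.ad Z).VS j (M.P (.inl j) q) +
    ft z₃ y (M.P (.inl j) q) / (G.ad Z).q j (M.P (.inl j) q) = Vt z₃ y j q 0 := by
  have l := far_lo o hq
  have n := Complex.ofReal_ne_zero.2 (o.ld.geo.qn_ne (.inl j) l)
  rw [(far_ft o hq y).self_of_nhds, o.ld.geo.lift_P (far_per o hq y) l]
  simp only [ad, o.ld.geo.lift_P (o.ld.geo.per_VS j _) l,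
    o.ld.geo.lift_P ((o.ld.geo.per_qn (.inl j)).comp Complex.ofReal) l]
  field_simp
  ring

theorem far_ov (m : Fin M.n₁ → ℝ) (y : G.XX Z × Pm (Fin M.n₁)) :
    (G.ad Z).ov (M.P (.inl j) q) (par m y) =
      y.1.2.2.1 (j, 1) • cx (eR (M.Q j) 0) + y.1.2.2.1 (j, 2) • cx (eT (M.Q j) 0) := by
  simp [AD.ov, ad, fun i => (far_rot (j := j) o hq i).self_of_nhds, apply_ite Complex.ofReal, par,
    om, Finset.sum_add_distrib]

omit hq in
theorem per_r : Per M.R (fun y => ((√2 + M.f j y : ℝ) : ℂ)) ∧ Per M.R fun y => cx (eR (M.Q j) y.2) :=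
  ⟨fun z θ _ => by simp [(o.ld.geo.ended.cyl j).per], fun z θ _ => by simp [eR]⟩

/-- **the ansatz in the chart** -/
theorem far_X (m : Fin M.n₁ → ℝ) (y : G.XX Z × Pm (Fin M.n₁)) :
    (G.ad Z).Xm (ft z₃ y) (par m y) (M.P (.inl j) q) =
      cay (y.1.2.2.1 (j, 1) • cx (eR (M.Q j) 0) + y.1.2.2.1 (j, 2) • cx (eT (M.Q j) 0))
        (FQ (M.Q j) q.2 ![Complex.sqrt (Vt z₃ y j q 0), 0, zt (Z j) (y.2.2.1 j) q.1]) := by
  have l := far_lo o hq
  have g := o.ld.geo
  rw [AD.Xm, AD.XX, far_ov o hq, AD.X0, (far_a o hq).self_of_nhds,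
    Finset.sum_eq_single j (fun i _ n => by
      simp [ad, (far_lam o hq (.inl i) (.inl j)).self_of_nhds, n]) (by simp),
    Finset.sum_eq_single j (fun i _ n => by
      simp [ad, (g.lift_other (e := .inl i) (e' := .inl j) (by simpa using n) l).self_of_nhds])
      (by simp), far_V o hq]
  simp only [ad, (far_lam o hq (.inl j) (.inl j)).self_of_nhds, g.lift_P (per_r o).1 l,
    g.lift_P (per_r o).2 l, g.lift_P (per_z (cut (Z j - 2))) l]
  rw [show cx (M.P (.inl j) q) = _ from (cylj _).2.1 _ _]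
  congr 1
  simp only [FQ, P218N.fr, zt, par, Matrix.cons_val, if_true]
  push_cast
  module

/-- the ansatz is regular -/
theorem far_rg (m : Fin M.n₁ → ℝ) (y : G.XX Z × Pm (Fin M.n₁)) (h : ‖y.1.2.2.1‖ ≤ 1)
    (sl : Vt z₃ y j q 0 ∈ Complex.slitPlane) :
    (G.ad Z).Rg (M.P (.inl j) q) (ft z₃ y (M.P (.inl j) q)) (par m y) := by
  have l := far_lo o hq
  have g := o.ld.geo
  have a := fun i => contDiffAt_const (𝕜 := ℝ) (n := ∞).congr_of_eventuallyEq
    (far_lam o hq (.inl i) (.inl j))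
  refine ⟨g.smw.contDiffAt, contDiffAt_const.congr_of_eventuallyEq (far_a o hq), a,
    fun i => contDiffAt_const.congr_of_eventuallyEq (far_rot o hq i), fun i => ?_, a, fun i => ?_, ?_⟩
  · rcases eq_or_ne i j with rfl | n
    · exact g.lift_cd (per_z _) l le_rfl ((cd_cut _).contDiffAt.comp q contDiffAt_fst)
    · exact contDiffAt_const.congr_of_eventuallyEq
        (g.lift_other (F := fun y => cut (Z i - 2) y.1) (Sum.inl_injective.ne n) l)
  · rcases eq_or_ne i j with rfl | n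
    · refine .inr ⟨g.lift_cd (g.per_VS i _) l le_rfl (g.cd_VS i).contDiffAt,
        g.lift_cd (per_r o).1 l le_rfl (cd_ofReal (contDiffAt_const.add (g.cd_f i).contDiffAt)),
        g.lift_cd ((g.per_qn _).comp Complex.ofReal) l le_rfl (cd_ofReal (g.cd_qn _ l)),
        g.lift_cd (per_r o).2 l le_rfl (cd_cxv ((g.cd_nE (.inl i)).contDiffAt.comp q contDiffAt_snd)),
        ?_, (far_V o hq y).symm ▸ sl⟩
      exact (g.lift_P ((g.per_qn _).comp Complex.ofReal) l).trans_ne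
        (Complex.ofReal_ne_zero.2 (g.qn_ne _ l))
    · exact .inl ((far_lam o hq (.inl i) (.inl j)).trans (by simp [n]))
  · obtain ⟨u, v⟩ : dt (cx (eR (M.Q j) 0)) (cx (eR (M.Q j) 0)) = 1 ∧ dt (cx (eT (M.Q j) 0))
        (cx (eT (M.Q j) 0)) = 1 ∧ dt (cx (eR (M.Q j) 0)) (cx (eT (M.Q j) 0)) = 0 := by
      simp [Frm.dt_cx, eR, eT, real_inner_self_eq_norm_sq, EuclideanSpace.norm_sq_eq,
        Fin.sum_univ_three, PiLp.inner_apply]
    have b := fun i => (norm_le_pi_norm y.1.2.2.1 i).trans h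
    have e : dt ((G.ad Z).ov (M.P (.inl j) q) (par m y)) ((G.ad Z).ov (M.P (.inl j) q) (par m y)) =
        y.1.2.2.1 (j, 1) ^ 2 + y.1.2.2.1 (j, 2) ^ 2 := by
      simp only [far_ov o hq, dt, Pi.add_apply, Pi.smul_apply, smul_eq_mul] at u v ⊢
      linear_combination y.1.2.2.1 (j, 1) ^ 2 * u + y.1.2.2.1 (j, 2) ^ 2 * v.1 +
        2 * y.1.2.2.1 (j, 1) * y.1.2.2.1 (j, 2) * v.2
    rw [e, Ne, add_eq_zero_iff_eq_neg]
    intro n
    have := (congrArg norm n).trans_le ((norm_neg _).trans_le (norm_add_le _ _))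
    simp only [norm_pow, Complex.norm_ofNat] at this
    linarith [pow_le_one₀ (n := 2) (norm_nonneg _) (b (j, 1)),
      pow_le_one₀ (n := 2) (norm_nonneg _) (b (j, 2))]

end

end Vale.Agent.P218I.Rp
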