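import Vale.Agent.P218I.RpC
import Vale.Agent.P218I.RpD

/-! **Change of the cuts.** -/

set_option linter.all false

open Set Filter Topology MeasureTheory

noncomputable section

namespace Vale.Agent.P218I.Rp

open Vale.Agent.P218T Vale.Agent.P218L GD
open Vale.Agent.P218N (AD jt sig gg pd nu)
open Vale.Agent.P218H (tri le_tri)

variable {M : Mod} {k : ℕ} {G : GD M k} {W W' : Fin M.n₁ → ℝ} {z₃ : ℝ} {U : G.XX W}

namespace St

variable (h : St z₃ W' U) (c : Fin M.n₁ → ℂ) (v : ℝ) (m : Fin M.n₁ → ℝ) (hm : ‖U.2.2.1‖ ≤ 1)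
  (sl : ∀ j, ∀ z ∈ Icc (W j - 3) (W' j), ∀ θ, Vt z₃ (y₁ W' U c v) j (z, θ) 0 ∈ Complex.slitPlane)
include h hm sl

theorem far (j : Fin M.n₁) {z : ℝ} (hz : z ∈ Ico (W j - 3) (W j)) (θ : ℝ) {x x' : E3}
    (e : x = M.P (.inl j) (z, θ)) (e' : x' = M.P (.inl j) (zf (W j) (W' j - W j) z, θ)) :
    (G.ad W).XX (x, jt (ft z₃ (y₀ W' U c v)) x none none, par m (y₀ W' U c v)) =
      (G.ad W').XX (x', jt (ft z₃ (y₁ W' U c v)) x' none none, par m (y₁ W' U c v)) ∧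
    (∀ i, (G.ad W).ze i x = (G.ad W').ze i x') ∧
    M.JS (.inl j) (z, θ) * (G.ad W).Wj x (jt (ft z₃ (y₀ W' U c v)) x) (par m (y₀ W' U c v)) =
      zf₁ (W j) (W' j - W j) z * (M.JS (.inl j) (zf (W j) (W' j - W j) z, θ) *
        (G.ad W').Wj x' (jt (ft z₃ (y₁ W' U c v)) x') (par m (y₁ W' U c v))) := by
  subst e e'
  obtain ⟨_, r⟩ := (h.rl j).rep
  have o := h.ok
  have a := h.hi j
  have b := o.ld.hi
  have l : G.ρ + 4 < ((z, θ) : ℝ × ℝ).1 := by linarith [hz.1]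
  have g1 := h.ge j (z := z) (by linarith) hz.1
  have g2 : zf (W j) (W' j - W j) z < W' j := (r.mono hz.2).trans_eq zf_hi
  have l' : G.ρ + 4 < ((zf (W j) (W' j - W j) z, θ) : ℝ × ℝ).1 := by linarith
  have X : (fun q => (G.ad W).Xm (ft z₃ (y₀ W' U c v)) (par m (y₀ W' U c v)) (M.P (.inl j) q))
      =ᶠ[𝓝 (z, θ)] fun q => (G.ad W').Xm (ft z₃ (y₁ W' U c v)) (par m (y₁ W' U c v))
        (M.P (.inl j) (zf (W j) (W' j - W j) q.1, q.2)) := by
    filter_upwards [continuousAt_fst.eventually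
      (Ioo_mem_nhds (show G.ρ + 5 < z by linarith [hz.1]) hz.2)] with q hq
    rw [far_X o (by linarith [hq.1]), far_X o (by
      linarith [h.ge j (z := q.1) (by linarith) hq.1.le]),
      h.Vt_eq c v j ⟨by linarith [hq.1], hq.2.le⟩ q.2]
    simp [pj, zt, zf, bs, rp]
  have s' := sl j _ ⟨g1, g2.le⟩ θ
  have R := (far_rg o l m (y₀ W' U c v) hm (by
    rwa [h.Vt_eq c v j ⟨by linarith [hz.1], hz.2.le⟩ θ])).XX
  have R' := (far_rg o l' m (y₁ W' U c v) hm s').XX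
  have d := far_d (z₃ := z₃) o l (y₀ W' U c v) hz.2
  have d' := far_d (z₃ := z₃) o l' (y₁ W' U c v) g2
  refine ⟨X.self_of_nhds, fun i => (far_lam o l _ _).self_of_nhds.trans
    (far_lam o l' _ _).self_of_nhds.symm, ?_⟩
  rw [AD.Wj, AD.Wj, ← R.pd d, ← R'.pd d']
  exact area_chg o.ld.geo (far_lo o l) (far_lo o l') (r.d1 z) (r.pos z)
    (DifferentiableAt.comp (f := fun y => (y, _, _)) _ (R.sm.differentiableAt (by simp))
      (differentiableAt_id.prodMk (d.prodMk (differentiableAt_const _))))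
    (DifferentiableAt.comp (f := fun y => (y, _, _)) _ (R'.sm.differentiableAt (by simp))
      (differentiableAt_id.prodMk (d'.prodMk (differentiableAt_const _)))) X

omit hm sl in
theorem int_eq {f f' : E3 → ℂ} (h0 : ∀ p, Nb W p → f' p = f p)
    (h1 : ∀ j, ∀ z ∈ Ico (W j - 3) (W j), ∀ θ, M.JS (.inl j) (z, θ) * f (M.P (.inl j) (z, θ)) =
      zf₁ (W j) (W' j - W j) z * (M.JS (.inl j) (zf (W j) (W' j - W j) z, θ) *
        f' (M.P (.inl j) (zf (W j) (W' j - W j) z, θ)))) :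
    ∫ x in SW W', f' x ∂sig M.w = ∫ x in SW W, f x ∂sig M.w :=
  int_SW h.ok.ld.geo (a := fun j => W j - 3) (fun j => ⟨by linarith [h.lt j], by linarith,
    by linarith [abs_le.1 (h.hi j).2.2]⟩) (fun p hp => h0 p ⟨hp.1, fun j k =>
      hp.2 (mem_iUnion.2 ⟨j, Mod.En_mono (Ici_subset_Ici.2 (by linarith)) k⟩)⟩) fun j =>
    let ⟨_, r⟩ := (h.rl j).rep
    int_chg h.ok.ld.geo (by linarith [h.lt j]) r.d1 r.mono r.pos (zf_lo (by linarith)).1 zf_hi
      (by linarith) (h1 j)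

theorem ff_eq (J₀ J : ℕ) : ff z₃ J₀ J m (y₁ W' U c v) = ff z₃ J₀ J m (y₀ W' U c v) := by
  refine congrArg₂ _ (h.int_eq (fun p n => ?_) fun j z hz θ => ?_)
    (Finset.sum_congr rfl fun j _ => by rw [h.Zb_eq, h.Vb_eq]; rfl)
  · rw [jt_congr (h.ft_ev c v n), (h.ad_eq c v m n _).2.1]
  · obtain ⟨a, b, d⟩ := h.far c v m hm sl j hz θ rfl rfl
    simp only [AD.If, AD.Om, AD.gw, a, b]
    rw [mul_left_comm, d]
    simp only [par, bs]
    ring

theorem oo_eq (i : Fin M.n₁) : oo z₃ i m (y₁ W' U c v) = oo z₃ i m (y₀ W' U c v) := by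
  refine h.int_eq (fun p n => ?_) fun j z hz θ => ?_
  · rw [jt_congr (h.ft_ev c v n), (h.ad_eq c v m n _).2.2]
  · obtain ⟨a, b, d⟩ := h.far c v m hm sl j hz θ rfl rfl
    simp only [AD.IO, a, b]
    rw [mul_left_comm, d]
    simp only [par]
    ring

end St

/-- **change of the cuts** -/
theorem _root_.Vale.Agent.P218I.rp (ind : IND) (xiv : XIV) (inj : INJ) : Fld Obj.RP := by
  intro M g
  obtain ⟨z₁, xi⟩ := xiv M g
  obtain ⟨C, C0, hC⟩ := pN_re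
  refine ⟨max z₁ 2, fun k G hz o => ?_⟩
  obtain ⟨_, xi⟩ := xi k G (le_of_max_le_left hz) o
  filter_upwards [ev_ad, ev_cs (ev₀_J fun _ _ _ => 1), ev_cs (ev₀_z fun _ _ => 1),
    ev_cs (ev₀_r (f := fun _ => min 1 (1 / (2 * C))) (.of_forall fun _ => by positivity)),
    ev_Z fun q _ _ => max (G.ρ + 20) (2 * q.z₃ + 4)] with p a h1 h2 h3 h4
  have hW := fun j => max_le_iff.1 (h4.trans (a.hW j).1)
  have lt : ∀ j, G.z₀ < p.W j - 2 := fun j => by linarith [(hW j).1, o.ld.hi]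
  have c0 : ContinuousAt (fun t : (Fin M.n₁ → ℝ) × (Fin M.n₁ → ℂ) × ℝ => (t.1, t.2.1))
    (p.W, p.c, p.v) := by fun_prop
  filter_upwards [c0.eventually
    (nrm_all G a.hc (le_trans (by exact_mod_cast h1) a.hJ) (le_of_max_le_right hz) lt),
    continuousAt_fst.eventually (Metric.closedBall_mem_nhds p.W one_half_pos)]
    with t ⟨cy, nr⟩ cl b U hU e
  obtain ⟨rl, nr⟩ := nr U
  have cl := fun j => (dist_le_pi_dist t.1 p.W j).trans cl
  have h : St p.z₃ t.1 U := ⟨o, by linarith, fun j => ⟨(hW j).1, (hW j).2, cl j⟩, rl⟩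
  have hU : tri (G.pn p.W p.c) U < p.r / 2 := hU
  have n : tri (G.pn t.1 t.2.1) (GD.rp t.1 U) < p.r := by linarith
  have r1 := le_min_iff.1 h3.2
  have hm : ‖U.2.2.1‖ ≤ 1 := by linarith [norm_fst_le U.2.2, (le_tri (G.pn p.W p.c) U).2.2]
  have sl : ∀ j, ∀ z ∈ Icc (p.W j - 3) (t.1 j), ∀ θ,
      Vt p.z₃ (y₁ t.1 U t.2.1 t.2.2) j (z, θ) 0 ∈ Complex.slitPlane := fun j z hz θ => by
    obtain ⟨b1, b2⟩ := hC _ _ _ (cy j) ((GD.rp t.1 U).2.1.1 j) z
      ⟨by linarith [hz.1, (hW j).1, o.ld.hi], hz.2⟩ θ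
    have b3 := ((prs_iff.1 (le_tri (G.pn t.1 t.2.1) (GD.rp t.1 U)).2.1).1 j).trans
      (n.le.trans r1.2)
    have b4 := mul_le_mul_of_nonneg_right (mul_le_mul_of_nonneg_left b3 C0.le) b1.le
    rw [show C * (1 / (2 * C)) = 1 / 2 by field_simp] at b4
    have e : Vt p.z₃ (y₁ t.1 U t.2.1 t.2.2) j (z, θ) 0 =
        P218M.rh (t.2.1 j) z + ((GD.rp t.1 U).2.1.1 j).1 0 (z, θ) := by
      simp [Vt, Vj, h.bt_zero j _ (y := (z, θ)) (by linarith [hz.1]), P218N.rj, zt, bs, P218M.rh]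
    refine .inl ?_
    rw [e, Complex.add_re]
    linarith [abs_le.1 ((Complex.abs_re_le_norm _).trans b2)]
  refine ⟨⟨n, (ind M k G p.toCs).1 p.J p.m _ _ _ _ |>.1.symm.trans (h.FF_eq _ _ _ inj e)⟩,
    funext fun j => ?_, h.coo_eq, h.ff_eq _ _ _ hm sl _ _, fun j => h.oo_eq _ _ _ hm sl j⟩
  exact ((xi _ (fun j => by linarith [(hW j).1, abs_le.1 (h.hi j).2.2]) _).2.1 j).trans
    ((congrArg _ (h.uu_int j)).trans ((xi _ (fun j => by linarith [(hW j).1]) _).2.1 j).symm)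

end Vale.Agent.P218I.Rp
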