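import Vale.Agent.P218I.AsmA
import Vale.Agent.P218N.Spec3
import Vale.Agent.P218N.Jc
import Vale.Agent.P218L.Lq

/-!
# P218, INST: solutions of the system solve the equation
-/

open MeasureTheory Set Filter Topology
open scoped ContDiff Real

noncomputable section

namespace Vale.Agent.P218I

open Vale.Agent.P218T Vale.Agent.P218L GD
open Vale.Agent.P218H (op cm sa st st_zero st_ev_one f1 op_congr)
open Vale.Agent.P218N (jt mix mix_self AD)
open Vale.Agent.P218N.JcAux (jt_congr)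
open Vale.Agent.P218W (W jet toW XK)

namespace Snd

variable {M : Mod} {k : ℕ} {G : GD M k} {Z : Fin M.n₁ → ℝ} {p : Pt (Fin M.n₁)}

theorem lift_ht (g : M.Geo) {e : M.I} {y : ℝ × ℝ} (hy : M.R < y.1) {t : Set ℝ} (ht : t ∈ 𝓝 y.1)
    {F : ℝ × ℝ → ℂ} (h : ∀ q : ℝ × ℝ, M.R < q.1 → q.1 ∈ t → F q = 0) :
    M.lift e F =ᶠ[𝓝 (M.P e y)] fun _ => 0 := by
  filter_upwards [g.P_nhds (e := e) hy (N := {a | a.1.1 ∈ t}) (continuousAt_fst.fst ht)]
  rintro _ ⟨a, ha, rfl⟩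
  simp only [Mod.lift, P218B.desc]
  split_ifs with b
  · have c := b.choose_spec
    refine h _ c.1.1 ?_
    rw [← ((g.cht e).fib _ _ c.1.1 ha.2.1 (by rw [← g.pr_Ph e c.1, c.2, g.pr_Ph e ha.2])).1]
    exact ha.1
  · rfl

/-- below the height `ρ + 6` the total height is the glued function -/
theorem ft_ev (g : M.Geo) {z₃ : ℝ} (h2 : G.ρ + 6 ≤ z₃) (h3 : ∀ j, G.ρ + 8 ≤ Z j)
    (y : G.XX Z × Pm (Fin M.n₁)) {e : M.I} {q : ℝ × ℝ} (hq : M.R < q.1) (h : q.1 < G.ρ + 6) :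
    ft z₃ y =ᶠ[𝓝 (M.P e q)] uu y.1 := by
  have a : ∀ j, ∀ᶠ x in 𝓝 (M.P e q), M.lift (.inl j) (fun p => P218L.q M (.inl j) p *
      (G.Vj z₃ j (Z j) (y.2.1 j) (y.2.2.1 j) 0 p - VS (M.f j) p)) x = 0 := fun j => by
    by_cases b : Sum.inl j = e
    · subst b
      refine lift_ht g hq (gt_mem_nhds h) fun q' a b => ?_
      rw [Vj_near g a b (by linarith [show q'.1 < _ from b])
        (by linarith [show q'.1 < _ from b, h3 j])]
      simp [jet]
    · exact g.lift_other b hq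
  filter_upwards [eventually_all.2 a] with x hx
  simp [ft, hx]

theorem L2_val (o : G.Ok) (h : G.Lin p) (h2 : G.ρ + 6 ≤ p.z₃) (h3 : ∀ j, G.ρ + 8 ≤ p.W j)
    (v : G.X' p.W) : Val (L2 v) fun e q => G.chn q.1 * DL M e q fun i => LD.jx v e i q := by
  have a := o.ld.lo
  rintro (j | j) z θ hz hz'
  · have hz : z ∈ Icc G.z₀ (p.W j) := ⟨hz, hz' j rfl⟩
    simp only [L2_eq o h h2 h3, LD.fy, P218W.W.sub_apply, P218W.W.mul_apply, fc_apply hz,
      (h.tc j _).2 z hz]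
    by_cases e : z < G.ρ + 6
    · simp only [Vj_near (y := (z, θ)) (z₃ := p.z₃) (Z := p.W j) o.ld.geo
        (by linarith [hz.1]) e (by linarith) (by linarith [h3 j]), DL, LD.jx]
      push_cast
      ring
    · simp [chn_eq, cut_one (a := G.ρ + 5) (z := z) (by linarith)]
  · have e : ∀ i, jk z (fun i => LD.jx v (.inr j) i (z, θ)) i = (v.2 j).1 i (z, θ) := fun i => by
      have z0 : (z : ℂ) ≠ 0 := by exact_mod_cast (G.hz.trans_le hz).ne'
      have := (v.2 j).2.2.1 z hz θ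
      fin_cases i <;> simp [jk, LD.jx, P218W.wj, P218W.omK, z0, this]
      ring
    simp only [L2_eq o h h2 h3, LD.fy, P218W.W.sub_apply, P218W.W.mul_apply, fk_apply hz,
      o.cone j _ (z, θ) hz, DL, funext e]
    push_cast
    ring

/-- the equation in the far zone -/
def Ef (p : Pt (Fin M.n₁)) (y : G.XX p.W × Pm (Fin M.n₁)) : M.I → ℝ × ℝ → ℂ
  | .inl j => Ec p.z₃ p.m y j
  | .inr l => Ek l (y.1.2.1.2 l)

variable {y : G.XX p.W × Pm (Fin M.n₁)}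

/-- the end row -/
theorem row (o : G.Ok) (h : G.Lin p) (h2 : G.ρ + 6 ≤ p.z₃) (h3 : ∀ j, G.ρ + 8 ≤ p.W j)
    (hF : Fe p.z₃ p.J₀ p.J p.m y = 0)
    (qn : Val (N2 p.m y) fun e q =>
      G.chn q.1 * cut (G.ρ - 1) q.1 * Qn p.m y (M.P e q) / kp M e q)
    (fa : ∀ j, ∀ z ∈ Icc G.z₀ (p.W j), ∀ θ,
      n3c p.z₃ p.m j y (z, θ) = (1 - G.chn z : ℝ) * Ec p.z₃ p.m y j (z, θ))
    (fk : ∀ l z, G.z₀ ≤ z → ∀ θ,
      n3k l (y.1.2.1.2 l) (z, θ) = (1 - G.chn z : ℝ) * Ek l (y.1.2.1.2 l) (z, θ)) :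
    (∀ j, Bj p.J₀ p.J p.m y j = 0) ∧ ∀ e (q : ℝ × ℝ), G.z₀ ≤ q.1 → (∀ j, e = .inl j → q.1 ≤ p.W j) →
      G.chn q.1 * (cm (sa M.w) G.cor.cc (wc y.1) (M.P e q)
        + kp M e q * DL M e q (fun i => LD.jx y.1.2.1 e i q)
        + cut (G.ρ - 1) q.1 * Qn p.m y (M.P e q)) + (1 - G.chn q.1) * (kp M e q * Ef p y e q)
        = 0 := by
  refine ⟨fun j => ?_, fun e ⟨z, θ⟩ hz hz' => ?_⟩
  · have := congrArg (fun g : G.Y' p.W => (g.1 j).2) hF
    have b := congrArg Prod.snd (((h.inj (G.cC y.1.1)).1 j))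
    simpa [Fe, L2, N2, LD.toY, b] using this
  · have k0 : (kp M e (z, θ) : ℂ) ≠ 0 :=
      Complex.ofReal_ne_zero.2 (o.ld.geo.kn_ne e (by linarith [o.ld.lo]))
    obtain ⟨T, s, -⟩ := h.ex
    have a := congrArg (fun g : G.Y' p.W => LD.fy g e (z, θ)) hF
    have b : LD.fy ((fun j => (n3c p.z₃ p.m j y, Bj p.J₀ p.J p.m y j),
        fun l => n3k l (y.1.2.1.2 l)) : G.Y' p.W) e (z, θ) =
        (1 - G.chn z : ℝ) * Ef p y e (z, θ) := by
      rcases e with j | l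
      exacts [fa j z ⟨hz, hz' j rfl⟩ θ, fk l z hz θ]
    have c : LD.fy (0 : G.Y' p.W) e (z, θ) = 0 := by cases e <;> rfl
    simp only [Fe, LD.fy_add, (h.inj _).2 e z θ hz hz', L2_val o h h2 h3 _ e z θ hz hz',
      qn e z θ hz hz', b, c, s.com] at a
    push_cast at a
    refine Eq.trans ?_ ((congrArg ((kp M e (z, θ) : ℂ) * ·) a).trans (mul_zero _))
    change _ * (cm _ _ (G.cor.wf G.cor.et (P218H.f2 y.1.1)) _ + _ + _) + _ = _
    field_simp
    rfl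

theorem mem_SW (g : M.Geo) (h3 : ∀ j, M.R < Z j) {e : M.I} {q : ℝ × ℝ} (hq : M.R < q.1) :
    M.P e q ∈ SW Z ↔ ∀ j, e = .inl j → q.1 < Z j := by
  have s : ∀ j, Ici (Z j) ⊆ Ioi M.R := fun j z hz => (h3 j).trans_le hz
  simp only [SW, Set.mem_sdiff, g.mem e q hq, true_and, mem_iUnion, not_exists]
  refine forall_congr' fun j => ⟨fun h e => ?_, fun h => ?_⟩
  · subst e
    simpa [g.mem_En (s j) hq] using h
  · by_cases b : Sum.inl j = e
    · subst b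
      simpa [g.mem_En (s j) hq] using h rfl
    · exact g.notMem_En b (s j) hq

/-- what the rows give at a solution -/
structure Dt (p : Pt (Fin M.n₁)) (y : G.XX p.W × Pm (Fin M.n₁)) : Prop where
  o : G.Ok
  lin : G.Lin p
  h2 : G.ρ + 9 ≤ p.z₃
  h3 : ∀ j, G.ρ + 12 ≤ p.W j
  core : ∀ x, L1 y.1 x = G.cor.ext (Qc p.m y) x
  row : ∀ e (q : ℝ × ℝ), G.z₀ ≤ q.1 → (∀ j, e = .inl j → q.1 ≤ p.W j) →
    G.chn q.1 * (cm (sa M.w) G.cor.cc (wc y.1) (M.P e q)
      + kp M e q * DL M e q (fun i => LD.jx y.1.2.1 e i q)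
      + cut (G.ρ - 1) q.1 * Qn p.m y (M.P e q)) + (1 - G.chn q.1) * (kp M e q * Ef p y e q) = 0
  we : ∀ e (q : ℝ × ℝ), G.z₀ < q.1 → (∀ j, e = .inl j → q.1 < p.W j) →
    op (sa M.w) (we y.1) (M.P e q) = kp M e q * DL M e q fun i => LD.jx y.1.2.1 e i q
  cd : ∀ x ∈ M.S, ‖x‖ ≤ G.ρ + 9 → G.ρ - 1 ≤ ‖x‖ → ContDiffAt ℝ 2 (GD.we y.1) x
  b : ∀ x ∈ M.S, G.ρ + 3 < ‖x‖ → ∀ i, G.b i x = 0
  st : ∀ e (q : ℝ × ℝ), G.ρ + 4 < q.1 → (∀ j, e = .inl j → q.1 < p.W j) → ∃ ζ : ℂ,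
    (q.1 < G.ρ + 6 → ζ = 1) ∧ Ee p.z₃ p.m y (M.P e q) = kp M e q * ζ * Ef p y e q

theorem Dt.near (h : Dt p y) {x : E3} (hx : x ∈ M.S) (h5 : ‖x‖ ≤ G.ρ + 5) :
    (G.ad p.W).E x (jt (uu y.1) x) (par p.m y) = 0 := by
  have a := h.o.ld.lo
  have b := h.o.ld.hi
  have g := h.o.ld.geo
  have r := g.one.1
  obtain ⟨T, s, -⟩ := h.lin.ex
  refine P218N.sng k _ G.cor h.o.cor.toOk0 α₀ β₀ G.sp G.bA (G.ed p.z₃ p.W p.c) (G.ad p.W) y.1
    (par p.m y) (L1 y.1) (by norm_num) h.o.amb rfl rfl rfl rfl rfl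
    (fun x => by rw [L1_eq s]; exact s.core _ x) h.core x hx
    (show ‖x‖ ≤ G.ρ + 2 + 3 by linarith) ((le_total ‖x‖ G.ρ).imp id fun c =>
      h.cd x hx (by linarith) (by linarith)) ?_
  by_cases c : ‖x‖ ≤ G.ρ + 1
  · rw [show G.cor.ce x = 0 from st_zero (by linarith) c, zero_smul]
  · obtain ⟨e, q, hq, rfl⟩ := g.cov x hx (by linarith)
    have d := (g.cht e).rad q hq
    have := h.row e q (by linarith) fun j _ => by linarith [h.h3 j]
    rw [← h.we e q (by linarith) fun j _ => by linarith [h.h3 j], chn_eq,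
      cut_zero (a := G.ρ + 5) (by linarith), cut_one (a := G.ρ - 1) (by linarith)] at this
    simp only [sub_zero, Complex.ofReal_one, one_mul, sub_self, zero_mul, add_zero] at this
    exact smul_eq_zero_of_right _ this

theorem Dt.far (h : Dt p y) (e : M.I) {q : ℝ × ℝ} (h4 : G.ρ + 4 < q.1)
    (hq : ∀ j, e = .inl j → q.1 ≤ p.W j) : Ef p y e q = 0 := by
  have a := h.o.ld.lo
  have b := h.o.ld.hi
  have g := h.o.ld.geo
  have r := g.one.1
  have R : M.R < q.1 := by linarith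
  have k0 : (kp M e q : ℂ) ≠ 0 := Complex.ofReal_ne_zero.2 (g.kn_ne e R)
  have w := h.row e q (by linarith) hq
  refine (mul_eq_zero.1 ?_).resolve_left k0
  by_cases c : q.1 < G.ρ + 6
  · have hq' : ∀ j, e = .inl j → q.1 < p.W j := fun j _ => by linarith [h.h3 j]
    have d := ((g.cht e).rad q R).1
    obtain ⟨ζ, z, s⟩ := h.st e q h4 hq'
    have c0 : ∀ᶠ x in 𝓝 (M.P e q), G.cor.cc x = 0 :=
      (st_ev_one (c := G.ρ + 3) (by linarith) (by linarith)).mono fun x hx => sub_eq_zero.2 hx.symm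
    have e0 : (fun x => G.cor.cc x • wc y.1 x) =ᶠ[𝓝 (M.P e q)] fun _ => 0 :=
      c0.mono fun x hx => by simp [hx]
    have e1 : uu y.1 =ᶠ[𝓝 (M.P e q)] GD.we y.1 := by
      filter_upwards [c0, st_ev_one (c := G.ρ + 1) (x := M.P e q) (by linarith) (by linarith)]
        with x a b
      rw [uu, a, show G.cor.ce x = 1 from b, zero_smul, zero_add, one_smul]
    have e2 : jt (fun _ => (0 : ℂ)) (M.P e q) = 0 := funext fun i => funext fun j => by
      simp only [jt, show (fun _ : E3 => (0 : ℂ)) = 0 from rfl, P218H.dd_zero, Pi.zero_apply]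
    have e3 : Qn p.m y (M.P e q) = Ee p.z₃ p.m y (M.P e q) - op (sa M.w) (GD.we y.1) (M.P e q) := by
      have : ∀ i, G.ψ i (M.P e q) = 0 := fun i => h.o.ld.supp i _ (by linarith)
      simp only [Qn, Ee, jt_congr e0, e2, c0.self_of_nhds, zero_smul, add_zero, sub_zero,
        jt_congr e1, mix_self, jt_congr (ft_ev g (z₃ := p.z₃) (by linarith [h.h2])
          (fun j => by linarith [h.h3 j]) y R c), AD.Rm, AD.Ln, ad,
        h.b _ (g.mem e q R) (by linarith), this, mul_zero, Complex.ofReal_zero,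
        Finset.sum_const_zero]
      rfl
    rw [← h.we e q (by linarith) hq', e3, s, z c, cm, op_congr e0, P218H.op_zero,
      c0.self_of_nhds, zero_smul, cut_one (a := G.ρ - 1) (by linarith)] at w
    push_cast at w
    linear_combination w
  · simpa [chn_eq, cut_one (a := G.ρ + 5) (z := q.1) (by linarith)] using w

theorem Dt.all (h : Dt p y) {x : E3} (hx : x ∈ SW p.W)
    (he : ‖x‖ < G.ρ + 6 → ft p.z₃ y =ᶠ[𝓝 x] uu y.1) : Ee p.z₃ p.m y x = 0 := by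
  have a := h.o.ld.lo
  have b := h.o.ld.hi
  have g := h.o.ld.geo
  by_cases c : ‖x‖ ≤ G.ρ + 5
  · rw [Ee, jt_congr (he (by linarith))]
    exact h.near hx.1 c
  · obtain ⟨e, q, hq, rfl⟩ := g.cov x hx.1 (by linarith)
    have d := ((g.cht e).rad q hq).2
    have hq' := (mem_SW g (fun j => by linarith [h.h3 j]) hq).1 hx
    obtain ⟨ζ, -, s⟩ := h.st e q (by linarith) hq'
    rw [s, h.far e (by linarith) fun j b => (hq' j b).le, mul_zero]

end Snd

open Snd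

theorem sound (zon : ZON) (adn : ADN) (evj : EVJ) (jth : JTH) (stc : STC) (stk : STK) (smc : SMC)
    (smk : SMK) (qc : QC) (qn : QN) (fara : FARA) (fark : FARK) : SOUND := by
  refine (((((zon.and adn).and (evj.and jth)).and ((stc.and stk).and (smc.and smk))).and
    (qc.and qn)).and (fara.and fark)).mono ?_
  rintro M k G o ⟨⟨⟨⟨⟨zon, adn⟩, ⟨C, -, evj⟩, jth⟩, ⟨stc, stk⟩, smc, r₁, r1, smk⟩, qc, qn⟩, fara,
    r₂, C₂, r2, fark⟩
  have z := zon.mono fun _ h U => (h.1 U).1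
  filter_upwards [o.lin, qc.ev z, qn.ev z, smc, fara, ev_W fun _ => G.ρ + 12,
    ev_cs (ev₀_z fun _ _ => G.ρ + 9), ev_cs (ev₀_r (f := fun _ => min r₁ r₂)
      (.of_forall fun _ => lt_min r1 r2))] with p lin qc qn smc fara hW h2 hr y hy
  have h3 := fun j => (hW j).1
  have a := o.ld.lo
  have b := o.ld.hi
  have g := o.ld.geo
  have n : ∀ l, ‖y.1.2.1.2 l‖ < min r₁ r₂ := fun l =>
    ((le_Nn y.1).2.2.1 l).trans_lt (hy.1.trans_le hr.2)
  replace jth := jth p.W p.z₃ h3 h2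
  refine ⟨fun x hx => ((jth x hx).1 y y).1, fun a hF => ?_⟩
  obtain ⟨r0, r⟩ := row o lin (by linarith) (fun j => by linarith [h3 j])
    (congrArg (·.2.1) hF) (qn y hy).2.2.1 (fun j => (fara j y hy).2.2)
    fun l => ((fark l).2 _ ((n l).trans_le (min_le_right _ _))).2.2.1
  have h : Dt p y := ⟨o, lin, h2, h3, fun x => by
      rw [sub_eq_zero.1 (congrArg (·.1) hF)]; exact (qc y hy).2.2.1 x, r, fun e q c d => ?_,
    fun x hx c d => ((((evj _ h3).2 y.1).2.2.2 x hx c).2.2 d).1,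
    fun x hx => ((adn p.W p.z₃ h3 h2).2 x hx).2.2.2, ?_⟩
  · exact ⟨fun x hx => h.all hx fun c => (((jth x hx).1 y y).2.2 c).1,
      fun j => ⟨r0 j, fun z hz θ => h.far (.inl j) (q := (z, θ)) (by linarith [hz.1])
        fun _ e => Sum.inl_injective e ▸ hz.2⟩,
      fun l z hz θ => h.far (.inr l) (q := (z, θ)) (by linarith) (by simp)⟩
  · obtain ⟨e1, e2, e3, e4, -⟩ := ((evj _ h3).2 y.1).2.1 e q c d
    rw [op_congr e4, linc M g e _ q (by linarith) e1 e2, funext e3]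
  · rintro (j | l) q c d
    · have d := d j rfl
      exact ⟨_, fun e => (zt_low (by linarith [h3 j]) _).2.1, ((stc p.W p.z₃ h3 h2 p.m y j).2 q c d
        (smc y hy j q ⟨by linarith, d.le⟩)).2.2.2.2.1⟩
    · exact ⟨1, fun _ => rfl, by
        rw [mul_one]
        exact (stk p.W p.z₃ h3 h2 p.m y l q c (smk _ _ l q ((n l).trans_le (min_le_left _ _))
          (by linarith))).2.2.1⟩

end Vale.Agent.P218I
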