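import Vale.Agent.P218I.Defs
import Vale.Agent.P218I.RpW

/-! The element of `XE R Z` with a given function. -/

set_option linter.all false

open Set Filter Topology

noncomputable section

namespace Vale.Agent.P218I

open Vale.Agent.P218W

variable {R Z : ℝ}

theorem toE_eq (RZ : R < Z) (X : XE R Z) {F : ℝ × ℝ → ℂ}
    (h : ∀ z ∈ Icc R Z, ∀ θ, X.1 0 (z, θ) = F (z, θ)) : toE R Z Z id F = X := by
  have k : ∃ J : XE R Z, ∀ z ∈ Icc R Z, ∀ θ, J.1 0 (id z, θ) = F (z, θ) := ⟨X, h⟩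
  rw [toE, dif_pos k]
  exact Rp.xe_ext RZ fun z hz θ => (k.choose_spec z hz θ).trans (h z hz θ).symm

/-- the components of `toE` are the given jet -/
theorem toE_jet (RZ : R < Z) {u : Fin 6 → ℝ × ℝ → ℂ} (j : Jet (Icc R Z) u)
    (c : ∀ i, ContinuousOn (u i) (Icc R Z ×ˢ univ))
    (b : ∀ i, ∃ M, Le (Icc R Z) (u i) (fun _ => 1) M) (hZ : ∀ θ, u 0 (Z, θ) = 0)
    (hR : ∀ k, 2 ≤ |k| → co (u 0) k R = 0) (i : Fin 6) {z : ℝ} (hz : z ∈ Icc R Z) (θ : ℝ) :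
    (toE R Z Z id (u 0)).1 i (z, θ) = u i (z, θ) := by
  have r := ret_cl RZ.le
  have e := fun i z (hz : z ∈ Icc R Z) θ => r.mk'_apply (u i) (c i) (b i) hz θ
  let X : XE R Z := ⟨fun i => r.mk' (u i) (c i) (b i), j.congr e,
    fun θ => (e 0 Z (right_mem_Icc.2 RZ.le) θ).trans (hZ θ),
    fun k hk => (co_congr (e 0 R (left_mem_Icc.2 RZ.le)) k).trans (hR k hk)⟩
  rw [toE_eq RZ X (e 0)]
  exact e i z hz θ

/-- weighted bounds of the jet bound the seminorm -/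
theorem xe_of_xn (RZ : R ≤ Z) {o₀ o₁ w : ℝ → ℝ} {c : ℂ} (po : ∀ i, PW (Icc R Z) (om o₀ o₁ w c Z i))
    (pn : ∀ i, PW (Icc R Z) (nu w c Z i)) {X : XE R Z} {u : Fin 6 → ℝ × ℝ → ℂ} {M : ℝ}
    (e : ∀ i, ∀ z ∈ Icc R Z, ∀ θ, X.1 i (z, θ) = u i (z, θ))
    (b : XN (Icc R Z) (om o₀ o₁ w c Z) (nu w c Z) u M) : MP.xe o₀ o₁ w c R Z X ≤ M :=
  ((ret_cl RZ).xn_le_iff po pn (b 0).1.M0).2 fun i => (b i).congr (e i)

end Vale.Agent.P218I
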