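import Vale.Agent.P218I.Spec
import Vale.Agent.P218I.Cd
import Vale.Agent.P218I.ToE
import Vale.Agent.P218L.Sdec

/-! The row `U0V`: the slow direction. -/

set_option linter.all false

open Set Filter Topology
open scoped ContDiff

noncomputable section

namespace Vale.Agent.P218I

open Vale.Agent.P218T Vale.Agent.P218L Vale.Agent.P218M Vale.Agent.P218W
open Vale.Agent.P218L.Sdec (lb lb_jet jet_cont)

namespace U0v

variable {s : Set ℝ} {R Z z : ℝ} {c : ℂ}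

/-- the jet of a function of `z` -/
theorem jet_z {ζ : ℝ → ℂ} (h : ContDiff ℝ ∞ ζ) (i : Fin 6) (p : ℝ × ℝ) :
    jet (fun q => ζ q.1) i p = ![ζ, 0, 0, deriv ζ, 0, deriv (deriv ζ)] i p.1 := by
  have h1 := contDiff_infty_iff_deriv.1 h
  have h2 := contDiff_infty_iff_deriv.1 h1.2
  rw [(Frm.lj_z (.of_forall fun z => (h1.1 z).hasDerivAt) (h2.1 p.1).hasDerivAt).jet]
  fin_cases i <;> rfl

/-- multiplication by a slowly varying function -/
theorem lb_le {χ χ₁ χ₂ : ℝ → ℂ} {u : Fin 6 → ℝ × ℝ → ℂ} {w v : ℝ → ℝ} {B M : ℝ}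
    (z1 : ∀ z ∈ s, 1 ≤ z) (hu : ∀ i, Le s (u i) (omH w i) M) (v0 : ∀ z ∈ s, 0 ≤ v z) (B0 : 0 ≤ B)
    (h : ∀ z ∈ s, ‖χ z‖ * w z ≤ B * v z ∧ z * (‖χ₁ z‖ * w z) ≤ B * v z ∧
      z ^ 2 * (‖χ₂ z‖ * w z) ≤ B * v z) (i : Fin 6) :
    Le s (lb χ χ₁ χ₂ u i) (omH v i) (4 * B * M) := by
  have w0 : ∀ z ∈ s, 0 ≤ w z := (hu 0).w0
  have z0 : ∀ z ∈ s, 0 < z := fun z hz => one_pos.trans_le (z1 z hz)
  have v3 : ∀ z ∈ s, 0 ≤ v z / z := fun z hz => div_nonneg (v0 z hz) (z0 z hz).le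
  have h1 : ∀ z ∈ s, ‖χ₁ z‖ * w z ≤ B * v z := fun z hz =>
    (le_mul_of_one_le_left (mul_nonneg (norm_nonneg _) (w0 z hz)) (z1 z hz)).trans (h z hz).2.1
  have a : ∀ {F}, Le s F w M → Le s (fun p => χ p.1 * F p) v (B * M) := fun k =>
    k.mulz B0 v0 fun z hz => (h z hz).1
  have a3 := (hu 3).mulz (φ := χ) B0 v3 fun z hz => by
    simp only [omH, Matrix.cons_val, ← mul_div_assoc]
    exact div_le_div_of_nonneg_right (h z hz).1 (z0 z hz).le
  have b0 := (hu 0).mulz (φ := χ₁) B0 v3 fun z hz => by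
    rw [← mul_div_assoc, le_div_iff₀' (z0 z hz)]
    exact (h z hz).2.1
  have b1 := (hu 1).mulz (φ := χ₁) B0 v0 h1
  have b3 := (hu 3).mulz (φ := χ₁) B0 v0 fun z hz => le_trans (mul_le_mul_of_nonneg_left
    (div_le_self (w0 z hz) (z1 z hz)) (norm_nonneg _)) (h1 z hz)
  have c0 := (hu 0).mulz (φ := χ₂) B0 v0 fun z hz => (le_mul_of_one_le_left
    (mul_nonneg (norm_nonneg _) (w0 z hz)) (one_le_pow₀ (z1 z hz))).trans (h z hz).2.2
  have M0 := mul_nonneg B0 (hu 0).M0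
  have up : ∀ {F G o N}, Le s F o N → N ≤ 4 * B * M → (∀ p, G p = F p) → Le s G o (4 * B * M) :=
    fun k l e => (k.mono subset_rfl (fun _ _ => le_rfl) l).congr fun _ _ _ => e _
  fin_cases i
  exacts [up (a (hu 0)) (by linarith) fun p => by simp [lb],
    up (a (hu 1)) (by linarith) fun p => by simp [lb],
    up (a (hu 2)) (by linarith) fun p => by simp [lb],
    up (a3.add b0) (by linarith) fun p => by simp [lb],
    up ((a (hu 4)).add b1) (by linarith) fun p => by simp [lb],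
    up ((((a (hu 5)).add b3).add b3).add c0) (by linarith) fun p => by simp [lb]; ring]

theorem lb_cont {χ χ₁ χ₂ : ℝ → ℂ} {u : Fin 6 → ℝ × ℝ → ℂ} (c0 : Continuous χ) (c1 : Continuous χ₁)
    (c2 : Continuous χ₂) {t : Set (ℝ × ℝ)} (hu : ∀ i, ContinuousOn (u i) t) (i : Fin 6) :
    ContinuousOn (lb χ χ₁ χ₂ u i) t := by
  have h0 := hu 0
  have h1 := hu 1
  have h3 := hu 3
  have hi := hu i
  unfold lb
  refine ((c0.comp continuous_fst).continuousOn.mul hi).add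
    (((c1.comp continuous_fst).continuousOn.mul ?_).add
      ((c2.comp continuous_fst).continuousOn.mul ?_)) <;> fin_cases i <;>
    simp only [Fin.zero_eta, Fin.mk_one, Fin.reduceFinMk, Matrix.cons_val] <;> fun_prop

theorem cd_cut (a : ℝ) : ContDiff ℝ ∞ (cut a) :=
  Real.smoothTransition.contDiff.comp (contDiff_id.sub contDiff_const)

theorem cut_one {a z : ℝ} (h : a + 1 ≤ z) : cut a z = 1 :=
  Real.smoothTransition.one_of_one_le (by linarith)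

/-- the complementary step -/
def st₀ (a t : ℝ) : ℂ := ((1 - cut a t : ℝ) : ℂ)

theorem cd_st (a : ℝ) : ContDiff ℝ ∞ (st₀ a) :=
  Complex.ofRealCLM.contDiff.comp (contDiff_const.sub (cd_cut a))

theorem norm_st (a t : ℝ) : ‖st₀ a t‖ ≤ 1 := by
  rw [st₀, Complex.norm_real, Real.norm_eq_abs, abs_le, cut]
  constructor <;> linarith [Real.smoothTransition.nonneg (t - a),
    Real.smoothTransition.le_one (t - a)]

theorem zero_of {ζ : ℝ → ℂ} {a : ℝ} (h : ∀ t, a ≤ t → ζ t = 0) {t : ℝ} (ht : a < t) (i : Fin 6) :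
    ![ζ, 0, 0, deriv ζ, 0, deriv (deriv ζ)] i t = 0 := by
  have e : ζ =ᶠ[𝓝 t] fun _ => 0 := mem_of_superset (Ioi_mem_nhds ht) fun y hy => h y (le_of_lt hy)
  fin_cases i <;> simp [e.eq_of_nhds, e.deriv_eq, e.deriv.deriv_eq]

theorem bd_of {ζ : ℝ → ℂ} (h : ContDiff ℝ ∞ ζ) (a : ℝ) : ∃ B, 1 ≤ B ∧ ∀ i, ∀ t ∈ Icc 0 a,
    ‖![ζ, 0, 0, deriv ζ, 0, deriv (deriv ζ)] i t‖ ≤ B := by
  obtain ⟨B, hB⟩ := (isCompact_Icc (a := 0) (b := a)).exists_bound_of_continuousOn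
    (f := fun t i => jet (fun q => ζ q.1) i (t, 0)) (continuousOn_pi.2 fun i =>
      ((jet_cont (h.comp contDiff_fst) i).comp (.prodMk_left 0)).continuousOn)
  exact ⟨max 1 B, le_max_left _ _, fun i t ht => le_max_of_le_right
    ((jet_z h i (t, 0) ▸ norm_le_pi_norm (fun i => jet (fun q => ζ q.1) i (t, 0)) i).trans
      (hB t ht))⟩

/-- the slow cut-off function -/
def chi (z₃ z : ℝ) : ℂ := st₀ 1 (z / z₃)

theorem cd_chi (z₃ : ℝ) : ContDiff ℝ ∞ (chi z₃) := (cd_st 1).comp (contDiff_id.div_const _)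

theorem chi_zero {z₃ : ℝ} (h : 0 < z₃) (z : ℝ) (hz : 2 * z₃ ≤ z) : chi z₃ z = 0 := by
  rw [chi, st₀, cut_one (by rw [le_div_iff₀ h]; linarith)]
  simp

theorem chi_le : ∃ B, 1 ≤ B ∧ ∀ z₃ z : ℝ, 0 < z₃ → z ∈ Icc 0 (2 * z₃) → ‖chi z₃ z‖ ≤ B ∧
    z * ‖deriv (chi z₃) z‖ ≤ B ∧ z ^ 2 * ‖deriv (deriv (chi z₃)) z‖ ≤ B := by
  obtain ⟨B, B1, hB⟩ := bd_of (cd_st 1) 2
  refine ⟨4 * B, by linarith, fun z₃ z h hz => ?_⟩
  have e : chi z₃ = fun z => st₀ 1 (z₃⁻¹ * z) := funext fun z => by rw [chi, div_eq_inv_mul]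
  have e1 : deriv (chi z₃) = fun z => z₃⁻¹ • deriv (st₀ 1) (z₃⁻¹ * z) := funext fun z => by
    rw [e, deriv_comp_mul_left]
  have e2 : deriv (deriv (chi z₃)) z = z₃⁻¹ • z₃⁻¹ • deriv (deriv (st₀ 1)) (z₃⁻¹ * z) := by
    rw [e1, deriv_fun_const_smul', deriv_comp_mul_left]
  have m : z₃⁻¹ * z ∈ Icc (0 : ℝ) 2 := ⟨mul_nonneg (inv_pos.2 h).le hz.1, by
    rw [inv_mul_le_iff₀ h]; linarith [hz.2]⟩
  have b1 : ‖deriv (st₀ 1) (z₃⁻¹ * z)‖ ≤ B := hB 3 _ m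
  have b2 : ‖deriv (deriv (st₀ 1)) (z₃⁻¹ * z)‖ ≤ B := hB 5 _ m
  rw [e2, e1]
  simp only [norm_smul, Real.norm_of_nonneg (inv_pos.2 h).le]
  refine ⟨(norm_st _ _).trans (by linarith), ?_, ?_⟩
  · nlinarith [mul_le_mul m.2 b1 (norm_nonneg _) zero_le_two]
  · nlinarith [mul_le_mul (pow_le_pow_left₀ m.1 m.2 2) b2 (norm_nonneg _) (by positivity)]

/-- the weight `z ^ (1/16)`, cut off at `2 z₃` -/
def vv (z₃ z : ℝ) : ℝ := if z ≤ 2 * z₃ then wy z else 0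

theorem wy_mem (h : 1 ≤ z) : 1 ≤ wy z ∧ wy z ≤ z ^ (13 / 16 : ℝ) ∧ wy z ≤ z := by
  simp only [wH, add_zero]
  exact ⟨Real.one_le_rpow h (by norm_num), Real.rpow_le_rpow_of_exponent_le h (by norm_num),
    (Real.rpow_le_rpow_of_exponent_le h (by norm_num)).trans_eq (Real.rpow_one z)⟩

theorem vv_mem (z₃ : ℝ) (h : 1 ≤ z) : 0 ≤ vv z₃ z ∧ vv z₃ z ≤ z := by
  have := wy_mem h
  unfold vv
  split_ifs <;> constructor <;> linarith

variable {M : Mod} {k : ℕ} (G : GD M k)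

/-- the part of the slow direction in the compact zone -/
def ph (z : ℝ) : ℂ := st₀ (G.ρ + 6) z * (z ^ 2 - 2)

theorem cd_h : ContDiff ℝ ∞ fun z : ℝ => (z : ℂ) ^ 2 - 2 :=
  (Complex.ofRealCLM.contDiff.pow 2).sub contDiff_const

theorem cd_ph : ContDiff ℝ ∞ (ph G) := (cd_st _).mul cd_h

theorem ph_zero (z : ℝ) (hz : G.ρ + 7 ≤ z) : ph G z = 0 := by
  rw [ph, st₀, cut_one (by linarith)]
  simp

theorem jet_h (i : Fin 6) (p : ℝ × ℝ) : jet (fun q : ℝ × ℝ => (q.1 : ℂ) ^ 2 - 2) i p = hj p.1 i := by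
  have d : ∀ z : ℝ, HasDerivAt (fun z : ℝ => (z : ℂ)) 1 z := fun z => Complex.ofRealCLM.hasDerivAt
  rw [(Frm.lj_z (ζ := fun z : ℝ => (z : ℂ) ^ 2 - 2) (ζ₁ := fun z => 2 * z) (ζ₂ := 2)
    (.of_forall fun z => by simpa using ((d z).pow 2).sub_const 2)
    (by simpa using (d p.1).const_mul 2)).jet]
  rfl

theorem u0j_eq (z₃ : ℝ) (j : Fin M.n₁) (i : Fin 6) (p : ℝ × ℝ) : G.u0j z₃ j i p =
    lb (chi z₃) (deriv (chi z₃)) (deriv (deriv (chi z₃))) (wj (omH wy) (G.yv j).1) i p +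
      jet (fun q => ph G q.1) i p := by
  have c1 : ContDiffAt ℝ 2 (fun q : ℝ × ℝ => chi z₃ q.1) p :=
    (((cd_chi z₃).comp contDiff_fst).of_le (by norm_cast)).contDiffAt
  have c2 : ContDiffAt ℝ 2 (fun q : ℝ × ℝ => (q.1 : ℂ) ^ 2 - 2) p :=
    ((cd_h.comp contDiff_fst).of_le (by norm_cast)).contDiffAt
  have c3 : ContDiffAt ℝ 2 (fun q : ℝ × ℝ => ((cut 1 (q.1 / z₃) - cut (G.ρ + 6) q.1 : ℝ) : ℂ)) p :=
    cd_ofReal (((((cd_cut 1).comp (contDiff_fst.div_const _)).sub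
      ((cd_cut _).comp contDiff_fst)).of_le (by norm_cast)).contDiffAt)
  have e := jet_add (c1.mul c2) (c3.mul c2) i
  rw [jet_mul c1 c2, jet_congr (G := fun q => ph G q.1) (.of_forall fun q => by
    simp only [chi, ph, st₀]; push_cast; ring)] at e
  rw [e, GD.u0j, ← add_assoc]
  congr 1
  change Frm.jm (fun i => jet (fun q => chi z₃ q.1) i p) _ i = _
  simp only [jet_z (cd_chi z₃), jet_h, yj]
  fin_cases i <;> simp [Frm.jm, lb] <;> ring

theorem u0j_le (h : 1 ≤ G.z₀) : ∃ K, ∀ z₃, G.ρ + 7 ≤ 2 * z₃ → 0 < z₃ → ∀ j i,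
    Le (Ici G.z₀) (G.u0j z₃ j i) (omH (vv z₃) i) K := by
  obtain ⟨B, B1, hB⟩ := chi_le
  obtain ⟨D, D1, hD⟩ := bd_of (cd_ph G) (G.ρ + 7)
  refine ⟨4 * B * ‖G.yv‖ + 4 * (D * |G.ρ + 7|), fun z₃ h1 h0 j i => ?_⟩
  have z1 : ∀ z ∈ Ici G.z₀, 1 ≤ z := fun z hz => h.trans hz
  have p := fun i z => omH_pos (w := wy) G.hz (wH_pos G.hz le_rfl) i (z := z)
  have v0 : ∀ z ∈ Ici G.z₀, 0 ≤ vv z₃ z := fun z hz => (vv_mem z₃ (z1 z hz)).1
  have a := lb_le (χ := chi z₃) (χ₁ := deriv (chi z₃)) (χ₂ := deriv (deriv (chi z₃)))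
    (u := wj (omH wy) (G.yv j).1) (w := wy) (M := ‖G.yv‖) (B := B) z1 (fun i =>
      ((((G.yv j).1 i).le_on _).mulz (φ := fun z => omH wy i z) zero_le_one
        (fun z hz => (p i z hz).le) fun z hz => by simp [abs_of_pos (p i z hz)]).mono subset_rfl
        (fun _ _ => le_rfl) ((one_mul _).trans_le
          ((norm_le_pi_norm (G.yv j).1 i).trans (norm_le_pi_norm G.yv j))))
    v0 (by linarith) (fun z hz => ?_) i
  · refine (a.add (le_z (φ := ![ph G, 0, 0, deriv (ph G), 0, deriv (deriv (ph G))] i)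
      (C := D * |G.ρ + 7|) (by positivity) a.w0 fun z hz => ?_)).congr fun z _ θ => by
        rw [u0j_eq, jet_z (cd_ph G)]
    rcases le_or_gt z (G.ρ + 7) with l | l
    · have z0 := z1 z hz
      have w1 := (wy_mem z0).1
      have : 1 ≤ |G.ρ + 7| * omH (vv z₃) i z := by
        have e : vv z₃ z = wy z := if_pos (l.trans h1)
        have l' := l.trans (le_abs_self _)
        have k : 1 ≤ |G.ρ + 7| * vv z₃ z := by rw [e]; nlinarith
        fin_cases i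
        exacts [k, k, k, by
          change 1 ≤ _ * (vv z₃ z / z)
          rw [e, ← mul_div_assoc, le_div_iff₀ (by linarith)]
          nlinarith, k, k]
      refine (hD i z ⟨by linarith, l⟩).trans ?_
      nlinarith
    · rw [zero_of (ph_zero G) l, norm_zero]
      exact mul_nonneg (by positivity) (a.w0 z hz)
  · have w0 := (p 0 z hz).le
    change 0 ≤ wy z at w0
    unfold vv
    split_ifs with l
    · obtain ⟨k0, k1, k2⟩ := hB z₃ z h0 ⟨by linarith [z1 z hz], l⟩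
      simp only [← mul_assoc]
      exact ⟨by gcongr, by gcongr, by gcongr⟩
    · have k := zero_of (chi_zero h0) (not_le.1 l)
      have k0 : chi z₃ z = 0 := k 0
      have k1 : deriv (chi z₃) z = 0 := k 3
      have k2 : deriv (deriv (chi z₃)) z = 0 := k 5
      simp [k0, k1, k2]

theorem u0j_jet (z₃ : ℝ) (j : Fin M.n₁) : Jet (Ici G.z₀) (G.u0j z₃ j) := by
  have h1 := contDiff_infty_iff_deriv.1 (cd_chi z₃)
  have h2 := contDiff_infty_iff_deriv.1 h1.2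
  exact ((lb_jet (fun z => (h1.1 z).hasDerivAt) (fun z => (h2.1 z).hasDerivAt) (G.yv j).2.1).add
    (jet_jet fun p _ => (((cd_ph G).comp contDiff_fst).of_le (by norm_cast)).contDiffAt)).congr
    fun i z _ θ => u0j_eq G z₃ j i _

theorem u0j_cont (z₃ : ℝ) (j : Fin M.n₁) (i : Fin 6) :
    ContinuousOn (G.u0j z₃ j i) (Ici G.z₀ ×ˢ univ) := by
  have h1 := contDiff_infty_iff_deriv.1 (cd_chi z₃)
  have h2 := contDiff_infty_iff_deriv.1 h1.2
  exact ((lb_cont (cd_chi z₃).continuous h1.2.continuous h2.2.continuous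
    (wj_cont (omH_cont G.hz (wH_cont G.hz)) _) i).add
    (jet_cont ((cd_ph G).comp contDiff_fst) i).continuousOn).congr fun p _ => u0j_eq G z₃ j i p

theorem u0j_zero (z₃ : ℝ) (j : Fin M.n₁) (p : ℝ × ℝ) : G.u0j z₃ j 0 p =
    chi z₃ p.1 * (wy p.1 * (G.yv j).1 0 p) + ph G p.1 := by
  simp [u0j_eq, lb, jet, wj, omH]

theorem omH_le {v : ℝ → ℝ} (h : 0 ≤ v z) (z1 : 1 ≤ z) (i : Fin 6) : omH v i z ≤ v z := by
  fin_cases i
  exacts [le_rfl, le_rfl, le_rfl, div_le_self h z1, le_rfl, le_rfl]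

theorem vec_le {v b₀ b₁ b₂ b₃ b₄ b₅ : ℝ → ℝ} (h₀ : v z ≤ 6 * b₀ z) (h₁ : v z ≤ 6 * b₁ z)
    (h₂ : v z ≤ 6 * b₂ z) (h₃ : v z / z ≤ 6 * b₃ z) (h₄ : v z ≤ 6 * b₄ z) (h₅ : v z ≤ 6 * b₅ z)
    (i : Fin 6) : omH v i z ≤ 6 * ![b₀, b₁, b₂, b₃, b₄, b₅] i z := by
  fin_cases i
  exacts [h₀, h₁, h₂, h₃, h₄, h₅]

theorem wt₀ {v w o₀ o₁ : ℝ → ℝ} (h : Cyl 1 R Z c) (hz : z ∈ Icc R Z) (w0 : 0 < w z)
    (n1 : v z = 0 ∨ 1 ≤ ‖rh c z‖) (vw : v z ≤ w z) (h0 : v z ≤ 6 * o₀ z) (h1 : v z ≤ 6 * o₁ z)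
    (i : Fin 6) : omH v i z ≤ 6 * nu w c Z i z ∧ omH v i z ≤ 6 * P218W.om o₀ o₁ w c Z i z := by
  have k := h.wtc one_pos hz
  have z0 := h.z0 hz
  have s0 : 0 < sg c z := by linarith [k.sg6]
  have g1 : w z * sg c z ≤ gW w c Z z :=
    mul_le_mul_of_nonneg_left (le_add_of_nonneg_right (mul_nonneg (sq_nonneg z) (ly_pos Z z).le))
      w0.le
  have g2 : w z ≤ gW w c Z z / sg c z := (le_div_iff₀ s0).2 g1
  have g0 : w z ≤ 6 * gW w c Z z := by nlinarith [k.sg6]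
  have g3 : w z ≤ 6 * (gW w c Z z * ta c z) := by nlinarith [k.ta1]
  have n₁ : v z ≤ 6 * √(w z * gW w c Z z / sg c z) := by
    have : w z ≤ √(w z * gW w c Z z / sg c z) :=
      Real.le_sqrt_of_sq_le (by rw [mul_div_assoc]; nlinarith)
    linarith
  have n₂ : v z ≤ 6 * (gW w c Z z / sg c z) := by linarith
  have n₃ : ∀ x, v z ≤ 6 * x → v z / z ≤ 6 * (x / z) := fun x hx => by
    rw [← mul_div_assoc]
    exact div_le_div_of_nonneg_right hx z0.le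
  have n₄ : v z ≤ 6 * (gW w c Z z * ta c z * √‖rh c z‖) := by
    rcases n1 with e | e
    · rw [e]
      exact mul_nonneg (by norm_num) (mul_nonneg (by linarith) (Real.sqrt_nonneg _))
    · nlinarith [Real.one_le_sqrt.2 e]
  have hn : ∀ i, omH v i z ≤ 6 * nu w c Z i z := fun i => by
    unfold nu
    refine vec_le ?_ ?_ ?_ ?_ ?_ ?_ i
    exacts [by linarith, n₁, n₂, n₃ _ (vw.trans g3), n₄, vw.trans g3]
  refine ⟨hn i, ?_⟩
  unfold P218W.om
  refine vec_le ?_ ?_ ?_ ?_ ?_ ?_ i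
  exacts [h0, hn 1, hn 2, n₃ _ h1, hn 4, h1]

/-- comparison with the heavy weights -/
theorem wt {z₃ : ℝ} (h : Cyl 1 R Z c) (R1 : 1 ≤ R) (hZ : 6 * z₃ ≤ Z) (hz : z ∈ Icc R Z)
    (i : Fin 6) : omH (vv z₃) i z ≤ 6 * nu (wK (19 / 32) c) c Z i z ∧ omH (vv z₃) i z ≤ 6 *
      P218W.om (fun z => hv c z * (rh c z).re) (fun z => hv c z * (gO c Z z + (rh c z).re))
        (wK (19 / 32) c) c Z i z := by
  have k := h.wtc one_pos hz
  have z1 : 1 ≤ z := R1.trans hz.1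
  have z0 : 0 < z := by linarith
  have w0 : 0 < wK (19 / 32) c z := ((pw_all h le_rfl).1 _).pos hz
  obtain ⟨v0, v1⟩ := vv_mem z₃ z1
  have n1 : vv z₃ z = 0 ∨ 1 ≤ ‖rh c z‖ := by
    by_cases l : z ≤ 2 * z₃
    · refine .inr ?_
      have a := norm_sub_le (rh c z) (c * (z ^ 2 - 2))
      rw [rh, add_sub_cancel_right, ← rh, norm_mul, show ((z : ℂ) ^ 2 - 2) = ((z ^ 2 - 2 : ℝ) : ℂ) by
        push_cast; rfl, Complex.norm_real, Complex.norm_ofNat] at a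
      have b : ‖z ^ 2 - 2‖ ≤ z ^ 2 := abs_le.2 ⟨by nlinarith, by linarith⟩
      have b' : 9 * z ^ 2 ≤ Z ^ 2 := by nlinarith
      nlinarith [h.cZ, norm_nonneg c, mul_le_mul_of_nonneg_left b (norm_nonneg c),
        mul_le_mul_of_nonneg_left b' (norm_nonneg c)]
    · exact .inl (if_neg l)
  have o0 : hv c z * (rh c z).re = z ^ 2 := div_mul_cancel₀ _ k.re0.ne'
  have o1 : z ^ 2 ≤ hv c z * (gO c Z z + (rh c z).re) := by
    rw [mul_add, o0]
    exact le_add_of_nonneg_left (mul_nonneg (div_nonneg (sq_nonneg z) k.re0.le) k.gO0.le)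
  refine wt₀ h hz w0 n1 ?_ (by nlinarith) (by nlinarith) i
  rcases n1 with e | e
  · exact e.trans_le w0.le
  · refine le_trans (show _ ≤ z ^ (13 / 16 : ℝ) by
      unfold vv; split_ifs; exacts [(wy_mem z1).2.1, by positivity]) ?_
    rw [wK, show (2 - 2 * (19 / 32) : ℝ) = 13 / 16 by norm_num]
    exact le_mul_of_one_le_right (by positivity) (Real.one_le_rpow e (by norm_num))

end U0v

open U0v in
/-- **U0V** -/
theorem u0v : U0V := fun M g => ⟨2, fun k G hz o => by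
  obtain ⟨K, hK⟩ := u0j_le G (by linarith)
  filter_upwards [ev_ad, ev_cyl (Y := 1) hz (by nlinarith), ev_cs (ev₀_K (6 * K)),
    ev_cs (ev₀_z fun _ _ => G.ρ + 7), ev_Z fun q _ _ => 6 * q.z₃] with p a hc h1 h2 h3 j
  have r := o.ld.hi
  have hW := h3.trans (a.hW j).1
  have z3 : 0 < p.z₃ := by linarith
  have c := hc j
  have RZ : G.z₀ < p.W j := by linarith [c.RZ]
  have l := fun i => (hK p.z₃ (by linarith) z3 j i).mono (t := Icc G.z₀ (p.W j)) Icc_subset_Ici_self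
    (fun _ _ => le_rfl) le_rfl
  have e := toE_jet RZ ((u0j_jet G p.z₃ j).mono Icc_subset_Ici_self)
    (fun i => (u0j_cont G p.z₃ j i).mono (prod_mono Icc_subset_Ici_self subset_rfl))
    (fun i => ⟨_, (l i).wt (C := p.W j) (by linarith) (by simp) fun z hz' => by
      have z1 : 1 ≤ z := by linarith [hz'.1]
      obtain ⟨v0, v1⟩ := vv_mem p.z₃ z1
      linarith [hz'.2, omH_le v0 z1 i]⟩)
    (fun θ => by
      rw [u0j_zero, chi_zero z3 _ (by linarith), ph_zero G _ (by linarith), zero_mul, zero_add])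
    fun k hk => by
      rw [funext (u0j_zero G p.z₃ j), co_add (s := univ) ((adm_z _ _).mul
        ((adm_z _ fun z => wy z).mul (((G.yv j).1 0).adm _))) (adm_z _ _) k trivial, co_mulz,
        co_mulz fun z => wy z, (G.yv j).2.2 k hk, co_z, if_neg (by rintro rfl; simp at hk)]
      simp
  obtain ⟨pK, -, pg, ph, px, -⟩ := pw_all c le_rfl
  have po := pw_om c one_pos (pK (19 / 32)) (ph.mul isCompact_Icc px)
    (ph.mul isCompact_Icc (pg.add isCompact_Icc px))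
  have pn := pw_nu c one_pos (pK (19 / 32))
  refine ⟨fun i z hz θ => e i hz θ, le_trans (xe_of_xn RZ.le po pn (fun i z hz θ => e i hz θ)
    fun i => ⟨((l i).wt (by norm_num) (fun z hz => ((po i).pos hz).le) fun z hz' =>
      (wt c (by linarith) hW hz' i).2).p0, ((l i).wt (by norm_num) (fun z hz => ((pn i).pos hz).le)
        fun z hz' => (wt c (by linarith) hW hz' i).1).pn⟩) h1⟩⟩

end Vale.Agent.P218I
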