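import Vale.Agent.P218I.Spec2

/-!
# P218, INST, row UZL: the slow direction and the shrinker in the compact zone
-/

open MeasureTheory Set Filter Topology
open scoped ContDiff RealInnerProductSpace Real ComplexConjugate

noncomputable section

namespace Vale.Agent.P218I

open Vale.Agent.P218T Vale.Agent.P218L GD
open Vale.Agent.P218H (op sa st cm f2 HH)
open Vale.Agent.P218W (W jet co low toW cl wj omH ret_cl ret_max)

namespace Uz

theorem toH_zero {F : E3 → ℂ} (h : ∀ x, F x = 0) : toH F = 0 := by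
  have k : ∃ x : HH α₀ E3, ∀ p, x p = F p := ⟨0, fun p => (h p).symm⟩
  rw [toH, dif_pos k]
  exact P272.K.LIN.Hol.ext fun p => (k.choose_spec p).trans (h p)

theorem cut_zero {a z : ℝ} (h : z ≤ a) : cut a z = 0 :=
  Real.smoothTransition.zero_of_nonpos (sub_nonpos.2 h)

theorem jet_ev {F : ℝ × ℝ → ℂ} {y : ℝ × ℝ} {c : ℂ} (h : ∀ᶠ q in 𝓝 y, F q = c) (i : Fin 6) :
    jet F i y = ![c, 0, 0, 0, 0, 0] i := by
  rw [jet_congr (G := fun _ => c) h]
  fin_cases i <;> simp [jet]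

theorem ev_lt {y : ℝ × ℝ} {a : ℝ} (h : y.1 < a) : ∀ᶠ q : ℝ × ℝ in 𝓝 y, q.1 < a :=
  continuousAt_fst.eventually (gt_mem_nhds h)

variable {M : Mod} {k : ℕ} {G : GD M k} {Z : Fin M.n₁ → ℝ} {U : G.XX Z} {c : Fin M.n₁ → ℂ}

theorem u0j_eq {z₃ : ℝ} (h0 : 0 ≤ G.ρ) (h : G.ρ + 6 ≤ z₃) (j i) {y : ℝ × ℝ} (hy : y.1 < G.ρ + 6) :
    G.u0j z₃ j i y = yj (G.yv j) i y := by
  have e : ∀ᶠ q : ℝ × ℝ in 𝓝 y, cut 1 (q.1 / z₃) = 0 ∧ cut (G.ρ + 6) q.1 = 0 :=
    (ev_lt hy).mono fun q hq =>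
      ⟨cut_zero ((div_le_one (by linarith)).2 (by linarith)), cut_zero hq.le⟩
  rw [u0j, funext (jet_ev (c := 1) (e.mono fun q hq => by simp [hq.1])),
    jet_ev (c := 0) (e.mono fun q hq => by simp [hq.1, hq.2])]
  fin_cases i <;> simp [Frm.jm]

theorem usf_eq {z₃ W : ℝ} (h0 : 0 < z₃) (j i) {y : ℝ × ℝ} (hy : y.1 < z₃) :
    jet (usf M z₃ j W) i y = 0 := by
  rw [jet_ev (c := 0) ((ev_lt hy).mono fun q hq => by
    simp [usf, cut_zero ((div_le_one h0).2 hq.le)])]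
  fin_cases i <;> simp

variable (U c) in
/-- in the compact zone `U` is a combination of slow solutions -/
structure Lk : Prop where
  v : U.1 = 0
  k : U.2.1.2 = 0
  m : ∀ i, U.2.2.1 i = if i.2 = 0 then -c i.1 else 0
  l : U.2.2.2 = 0
  e : ∀ j i z θ, G.z₀ ≤ z → z < G.ρ + 6 → (U.2.1.1 j).1 i (z, θ) = c j * yj (G.yv j) i (z, θ)

theorem Lk.wc (h : Lk U c) (η : ℝ → ℝ) (x : E3) : G.cor.wf η (f2 U.1) x = 0 := by
  rw [h.v]
  simp [P218H.Core.wf, P218H.avg, f2]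

theorem Lk.we (h : Lk U c) (o : G.toLD.Ok) {p : E3} (hp : p ∈ M.S) (h1 : G.ρ + 1 ≤ ‖p‖)
    (h2 : ‖p‖ ≤ G.ρ + 2) : we U =ᶠ[𝓝 p] fun x => ∑ j, c j * G.ph (j, 0) x := by
  have g := o.geo
  obtain ⟨e, y, y1, y2, rfl⟩ := g.far (c := G.ρ) (by linarith [o.lo, o.hi]) hp (by linarith)
  have y3 : M.R < y.1 := by linarith [o.lo, o.hi]
  have key : ∀ j, M.lift (.inl j) (fun y => q M (.inl j) y * (U.2.1.1 j).1 0 y) =ᶠ[𝓝 (M.P e y)]
      M.lift (.inl j) fun y => q M (.inl j) y * (c j * yj (G.yv j) 0 y) := fun j => by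
    by_cases he : .inl j = e
    · subst he
      refine g.lift_congr_ev ((g.per_qn _).comp₂ (fun z θ _ => W.per _ z θ) fun a b => (a : ℂ) * b)
        ((g.per_qn _).comp₂ (G := fun y => c j * yj (G.yv j) 0 y)
          (fun z θ _ => by simp only [yj, wj, W.per]) fun a b => (a : ℂ) * b) y3 ?_
      filter_upwards [ev_ht (R := G.z₀) (by linarith [o.hi]), ev_lt (a := G.ρ + 6) (by linarith)]
        with a a1 a2
      rw [h.e j 0 a.1 a.2 a1.le a2]
    · exact (g.lift_other he y3).trans (g.lift_other he y3).symm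
  filter_upwards [eventually_all.2 key] with x hx
  have e0 : ∀ l y, LD.jx U.2.1 (.inr l) 0 y = 0 := fun l y => by simp [LD.jx, h.k, wj]
  show ∑ e, M.lift e (fun y => q M e y * LD.jx U.2.1 e 0 y) x = _
  simp only [Fintype.sum_sum_type, e0, mul_zero, Mod.lift_zero, Finset.sum_const_zero, add_zero]
  exact Finset.sum_congr rfl fun j _ => (hx j).trans (LD.lift_lin _ _ _ _ 0 x).2

theorem Lk.l1 (h : Lk U c) (slow : SLOW) (o : G.toLD.Ok) : L1 U = 0 := by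
  obtain ⟨s1, C, s2⟩ := slow M k _ o
  have r0 : 0 ≤ G.ρ + 1 := by linarith [o.hi, G.hz]
  have key : ∀ p ∈ M.S, cm (sa M.w) (st (G.ρ + 1)) (GD.we U) p = ∑ j, c j * G.b (j, 0) p := by
    intro p hp
    have b0 : ¬(G.ρ + 1 ≤ ‖p‖ ∧ ‖p‖ ≤ G.ρ + 1 + 1) → ∑ j, c j * G.b (j, 0) p = 0 := fun a =>
      Finset.sum_eq_zero fun j _ => mul_eq_zero_of_right _
        (by_contra fun b => a ((s1 (j, 0)).2.2.2.2.1 p hp b).2)
    rcases lt_or_ge ‖p‖ (G.ρ + 1) with h1 | h1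
    · rw [P218H.cm_zero (P218H.st_ev_zero r0 h1), b0 fun a => h1.not_ge a.1]
    rcases lt_or_ge (G.ρ + 1 + 1) ‖p‖ with h2 | h2
    · rw [P218H.cm_one (P218H.st_ev_one r0 h2), b0 fun a => h2.not_ge a.2]
    have e := h.we o hp h1 (by linarith)
    have d := fun j => (s1 (j, 0)).2.2.2.2.2.2 p hp (by linarith [o.hi])
    rw [cm, P218H.op_congr e, P218H.op_congr (g := fun x => ∑ j, c j * G.Y (j, 0) x)
      (e.mono fun x hx => by simp [hx, LD.Y, LD.ch, Finset.mul_sum, mul_left_comm]),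
      P218H.op_sum _ fun j _ => contDiffAt_const.mul (s2 _ p hp).1,
      P218H.op_sum _ fun j _ => contDiffAt_const.mul (d j).1]
    simp [P218H.op_cmul (s2 _ p hp).1, P218H.op_cmul (d _).1, (s2 _ p hp).2.1, (d _).2]
  refine toH_zero fun x => ?_
  have e : G.cor.ext (lo U) x = 0 := by
    rcases le_or_gt (M.δ / 2) |M.w x| with h1 | h1
    · exact smul_eq_zero_of_left (mul_eq_zero_of_right _ (o.ker.eh0 _ h1)) _
    refine smul_eq_zero_of_right _ ?_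
    have hp : G.cor.pr x ∈ M.S := (o.geo.tb.foot x (by linarith [o.geo.tb.pos])).1
    rw [lo, GD.wc, h.wc, h.wc, show G.cor.ce = st (G.ρ + 1) from rfl, key _ hp, h.l]
    simp [h.m, Fintype.sum_prod_type]
  rw [e, h.v, show f2 (0 : P218H.C2a 3 α₀) = fun _ => 0 from rfl, P218H.op_zero]
  simp

theorem toY_zero (hZ : ∀ j, G.z₀ ≤ Z j) {F : M.I → ℝ × ℝ → ℂ}
    (h : ∀ e z θ, G.z₀ ≤ z → F e (z, θ) = 0) : G.toY Z F = 0 := by
  have a : ∀ j, toW (Icc G.z₀ (Z j)) (cl G.z₀ (Z j)) (F (.inl j)) = 0 := fun j =>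
    (ret_cl (hZ j)).toW_eq fun z hz θ => (h _ z θ hz.1).symm
  have b : ∀ l, toW (Ici G.z₀) (max G.z₀) (F (.inr l)) = 0 := fun l =>
    (ret_max _).toW_eq fun z hz θ => (h _ z θ hz).symm
  simp only [LD.toY, a, b]
  rfl

theorem Lk.l2 (h : Lk U c) (o : G.toLD.Ok) (hZ : ∀ j, G.z₀ ≤ Z j) : L2 U.2.1 = 0 := by
  refine toY_zero hZ ?_
  rintro (j | l) z θ hz
  · rcases lt_or_ge z (G.ρ + 6) with h1 | h1
    · have e : (fun i => LD.jx U.2.1 (.inl j) i (z, θ)) = c j • fun i => yj (G.yv j) i (z, θ) :=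
        funext fun i => h.e j i z θ hz h1
      rw [e]
      exact mul_eq_zero_of_right _
        ((map_smul _ _ _).trans (smul_eq_zero_of_right _ (o.sol j (z, θ) hz)))
    · refine mul_eq_zero_of_left ?_ _
      rw [LD.chn, Real.smoothTransition.one_of_one_le (by linarith), sub_self, Complex.ofReal_zero]
  · have e : jk (z : ℂ) (fun i => LD.jx U.2.1 (.inr l) i (z, θ)) = 0 := by
      ext i
      fin_cases i <;> simp [jk, LD.jx, h.k, wj]
    refine mul_eq_zero_of_right _ ?_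
    show DK M l (z, θ) (jk (z : ℂ) _) = 0
    rw [e, DK, map_zero, zero_div]

theorem Lk.gam (h : Lk U c) (o : G.toLD.Ok) : G.gam Z U.2.1 + G.Mm U.2.2.1 = 0 := by
  funext ⟨j, l⟩
  have e : ∀ m, co ((U.2.1.1 j).1 0) m G.z₀ = c j * ((if m = 0 then (G.z₀ : ℂ) ^ 2 - 2 else 0) +
      wy G.z₀ * co ((G.yv j).1 0) m G.z₀) := fun m => by
    rw [P218W.co_congr (G := fun p => c j * (((p.1 : ℂ) ^ 2 - 2) + wy p.1 * (G.yv j).1 0 p))
      (fun θ => h.e j 0 _ θ le_rfl (by linarith [o.hi])), P218W.co_mulz fun _ => c j,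
      P218W.co_add (P218W.adm_z univ fun z => (z : ℂ) ^ 2 - 2)
        ((P218W.adm_z univ fun z => (wy z : ℂ)).mul (W.adm _ _)) _ trivial,
      P218W.co_z fun z => (z : ℂ) ^ 2 - 2, P218W.co_mulz fun z => (wy z : ℂ)]
  fin_cases l <;> simp [LD.gam_apply, LD.Mm, LD.gy, h.m, P218W.low_0, P218W.low_1, P218W.low_2, e] <;>
    ring

theorem Lk.xi (h : Lk U c) (slow : SLOW) (kap : KAP) (o : G.Ok)
    (x : ∀ j, G.XI Z U j = (G.ka j)⁻¹ * ∫ x, uu U x * G.b (j, 0) x ∂ga M.w) : G.XI Z U = c := by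
  obtain ⟨s1, -⟩ := slow M k _ o.ld
  funext j
  have e : ∀ p ∈ M.S, uu U p * G.b (j, 0) p = c j * (G.Y (j, 0) p * G.b (j, 0) p) := by
    intro p hp
    rcases eq_or_ne (G.b (j, 0) p) 0 with h0 | h0
    · simp [h0]
    obtain ⟨⟨y, y1, rfl⟩, h1, h2⟩ := (s1 (j, 0)).2.2.2.2.1 p hp h0
    rw [if_pos rfl] at h1 h2
    have e1 : uu U (M.P (.inl j) y) = ∑ i, c i * G.Y (i, 0) (M.P (.inl j) y) := by
      rw [uu, GD.wc, h.wc, (h.we o.ld hp h1 (by linarith)).self_of_nhds]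
      simp [LD.Y, LD.ch, LD.core, Finset.mul_sum, mul_left_comm]
    rw [e1, Finset.sum_eq_single j (fun i _ hi => mul_eq_zero_of_right _ (by_contra fun a =>
      o.ld.geo.notMem_En (by simpa using hi) (fun z hz => mem_Ioi.2
        (by linarith [mem_Ici.1 hz, o.ld.lo, o.ld.hi])) (by linarith [y1.1.1, o.ld.lo, o.ld.hi])
        ((s1 (i, 0)).2.2.2.2.2.1 _ hp a))) (by simp), mul_assoc]
  have k0 : G.ka j ≠ 0 := fun a => (kap M k _ o.ld j).2.1.ne (by rw [a]; rfl)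
  rw [x j, integral_congr_ae (mem_of_superset (show M.S ∈ ae (ga M.w) from o.cor.supp) e),
    integral_const_mul, ← LD.ka, mul_left_comm, inv_mul_cancel₀ k0, mul_one]

end Uz

open Uz

/-- **UZL** -/
theorem uzl (u0v : U0V) (usv : USV) (xiv : XIV) (slow : SLOW) (kap : KAP) : UZL := by
  refine (Row.and (Row.and u0v usv) xiv).mono fun M k G o ⟨⟨h1, h2⟩, C, h3⟩ => ?_
  filter_upwards [h1, h2, ev_ad, ev_Z fun _ _ _ => G.ρ + 9, ev_cs (ev₀_z fun _ _ => G.ρ + 10)]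
    with p p1 p2 a pZ pz
  have r0 : 0 ≤ G.ρ := by linarith [o.ld.hi, G.hz]
  have w : ∀ j, G.ρ + 9 ≤ p.W j := fun j => pZ.trans (a.hW j).1
  have w' : ∀ j, G.z₀ ≤ p.W j := fun j => by linarith [w j, o.ld.hi]
  have s : ∀ j i z θ, G.z₀ ≤ z → z ≤ G.ρ + 9 → ((G.US p.W p.z₃).2.1.1 j).1 i (z, θ) = 0 :=
    fun j i z θ a b => ((p2 j).1 i z ⟨a, b.trans (w j)⟩ θ).trans
      (usf_eq (by linarith) j i (by linarith))
  have l : Lk (G.US p.W p.z₃) 0 := ⟨rfl, rfl, fun i => by simp [US], rfl,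
    fun j i z θ a b => by rw [s j i z θ a (by linarith), Pi.zero_apply, zero_mul]⟩
  refine ⟨fun c => ?_, ?_, l.l1 slow o.ld, l.l2 o.ld w', ?_⟩
  · have l : Lk (G.U0 p.W p.z₃ c) c := ⟨rfl, rfl, fun i => by
      simp only [U0, ContinuousLinearMap.prod_apply, ContinuousLinearMap.pi_apply]
      split_ifs <;> rfl, rfl, fun j i z θ a b =>
        congrArg (c j * ·) (((p1 j).1 i z ⟨a, by linarith [w j]⟩ θ).trans
          (u0j_eq r0 (by linarith) j i b))⟩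
    exact ⟨l.l1 slow o.ld, l.l2 o.ld w', l.gam o.ld, l.xi slow kap o (h3 _ w _).2.1⟩
  · have m := (ret_cl (R := G.z₀) (Z := G.ρ + 9) (by linarith [o.ld.hi])).mem
    exact norm_eq_zero.2 (Prod.ext (Prod.ext rfl (Prod.ext (funext fun j => funext fun i =>
      W.ext fun y => s j i _ y.2 (m y.1).1 (m y.1).2) rfl)) rfl)
  · simpa [US] using l.gam o.ld

end Vale.Agent.P218I
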