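import Vale.Agent.P218I.Spec

/-!
# P218, INST: the compact zone
-/

open Set Filter

noncomputable section

namespace Vale.Agent.P218I

open Vale.Agent.P218T Vale.Agent.P218L Vale.Agent.P218M
open Vale.Agent.P218H (tri le_tri)
open Vale.Agent.P218W (W cl WI XE PW nu ret_cl pw_om pw_nu pw_all)

section wt

variable {R Z B z : ℝ} {c : ℂ}

/-- the elementary factors on a bounded interval -/
theorem zon_el (h : Cyl 1 R Z c) (hz : z ∈ Icc R Z) (zB : z ≤ B) :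
    ((rh c z).re)⁻¹ ≤ B ^ 2 ∧ sg c z ≤ B ^ 2 ∧ ta c z ≤ 6 * B ^ 2 ∧ z ^ 2 * ly Z z ≤ B ^ 2 ∧
      z ^ 2 ≤ B ^ 2 := by
  have k := h.wtc one_pos hz
  have z0 := h.z0 hz
  have a0 := k.re0
  have an : (rh c z).re ≤ ‖rh c z‖ := Complex.re_le_norm _
  have n0 := a0.trans_le an
  have zz : z ^ 2 ≤ B ^ 2 := by gcongr
  have i : ((rh c z).re)⁻¹ ≤ B ^ 2 := by
    rw [← one_div, div_le_iff₀ a0]
    nlinarith [h.tip z hz]
  refine ⟨i, le_trans ?_ i, ?_, le_trans ?_ zz, zz⟩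
  · rw [k.sge, ← one_div, div_le_div_iff₀ (by positivity) a0]
    nlinarith
  · rw [ta, div_eq_mul_inv]
    exact mul_le_mul k.re6 i (by positivity) (by norm_num)
  · refine mul_le_of_le_one_right (by positivity) (Real.exp_le_one_iff.2 ?_)
    nlinarith [hz.2]

/-- the weights of the jets on a bounded interval -/
theorem zon_wt (h : Cyl 1 R Z c) (hz : z ∈ Icc R Z) (z1 : 1 ≤ z) (zB : z ≤ B)
    {w o₀ o₁ : ℝ → ℝ} {D : ℝ} (w0 : 0 ≤ w z) (wD : w z ≤ D) (oD : o₀ z ≤ D) (o0 : 0 ≤ o₁ z)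
    (oD' : o₁ z ≤ D) (i : Fin 6) :
    P218W.om o₀ o₁ w c Z i z ≤ 36 * B ^ 4 * D ∧ nu w c Z i z ≤ 36 * B ^ 4 * D := by
  obtain ⟨-, e2, e3, e4, -⟩ := zon_el h hz zB
  have k := h.wtc one_pos hz
  have B1 : 1 ≤ B ^ 2 := one_le_pow₀ (z1.trans zB)
  have B4 : B ^ 2 ≤ B ^ 4 := by nlinarith
  have D0 := w0.trans wD
  have s6 := k.sg6
  have t1 := k.ta1
  have l0 : 0 ≤ z ^ 2 * ly Z z := mul_nonneg (sq_nonneg z) (ly_pos Z z).le
  have g0 : 0 ≤ gW w c Z z := mul_nonneg w0 (by linarith)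
  have g1 : gW w c Z z ≤ D * (2 * B ^ 2) := mul_le_mul wD (by linarith) (by linarith) D0
  have g2 : gW w c Z z / sg c z ≤ 12 * B ^ 2 * D := by
    rw [div_le_iff₀ (by linarith)]
    nlinarith [mul_le_mul_of_nonneg_left s6 (mul_nonneg (sq_nonneg B) D0)]
  have g3 : gW w c Z z * ta c z ≤ 12 * B ^ 4 * D :=
    (mul_le_mul g1 e3 (by linarith) (by positivity)).trans_eq (by ring)
  have BD : D ≤ B ^ 2 * D := le_mul_of_one_le_left D0 B1
  have BD' : B ^ 2 * D ≤ B ^ 4 * D := by gcongr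
  have n : ∀ i, nu w c Z i z ≤ 36 * B ^ 4 * D := fun i => by
    fin_cases i
    · change w z ≤ _
      linarith
    · refine Real.sqrt_le_iff.2 ⟨by positivity, ?_⟩
      rw [mul_div_assoc]
      have : w z * (gW w c Z z / sg c z) ≤ 36 * B ^ 4 * D * (36 * B ^ 4 * D) :=
        mul_le_mul (by linarith) (by linarith) (div_nonneg g0 (by linarith)) (by positivity)
      linarith
    · change gW w c Z z / sg c z ≤ _
      linarith
    · change gW w c Z z * ta c z / z ≤ _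
      exact (div_le_self (by positivity) z1).trans (by linarith)
    · change gW w c Z z * ta c z * √‖rh c z‖ ≤ _
      have : √‖rh c z‖ ≤ 3 := Real.sqrt_le_iff.2 ⟨by norm_num, by linarith [k.re6]⟩
      exact (mul_le_mul g3 this (by positivity) (by positivity)).trans_eq (by ring)
    · change gW w c Z z * ta c z ≤ _
      linarith
  refine ⟨?_, n i⟩
  fin_cases i
  · change o₀ z ≤ _
    linarith
  · exact n 1
  · exact n 2
  · change o₁ z / z ≤ _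
    exact (div_le_self o0 z1).trans (by linarith)
  · exact n 4
  · change o₁ z ≤ _
    linarith

/-- the basic weights on a bounded interval -/
theorem zon_ba (h : Cyl 1 R Z c) (hz : z ∈ Icc R Z) (z1 : 1 ≤ z) (zB : z ≤ B) :
    (∀ κ ∈ Icc (0 : ℝ) 2, wK κ c z ≤ 36 * B ^ 2) ∧ (rh c z).re ≤ 6 ∧
      gO c Z z + (rh c z).re ≤ 18 * B ^ 2 ∧ hv c z ≤ B ^ 4 := by
  obtain ⟨e1, -, -, e4, e5⟩ := zon_el h hz zB
  have k := h.wtc one_pos hz
  have a0 := k.re0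
  have a6 : (rh c z).re ≤ 6 := (Complex.re_le_norm _).trans k.re6
  have B1 : 1 ≤ B ^ 2 := one_le_pow₀ (z1.trans zB)
  have l0 : 0 ≤ z ^ 2 * ly Z z := mul_nonneg (sq_nonneg z) (ly_pos Z z).le
  refine ⟨fun κ hκ => ?_, a6, ?_, ?_⟩
  · have h1 : z ^ (2 - 2 * κ) ≤ z ^ 2 := by
      rw [← Real.rpow_two]
      exact Real.rpow_le_rpow_of_exponent_le z1 (by linarith [hκ.1])
    have h2 : ‖rh c z‖ ^ κ ≤ 6 ^ (2 : ℝ) := (Real.rpow_le_rpow (norm_nonneg _) k.re6 hκ.1).trans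
      (Real.rpow_le_rpow_of_exponent_le (by norm_num) hκ.2)
    rw [Real.rpow_two] at h2
    exact (mul_le_mul (h1.trans e5) h2 (by positivity) (by positivity)).trans_eq (by ring)
  · have h1 : wO c z ≤ 6 := k.wOr.trans (by rw [Real.one_rpow]; linarith)
    have : gO c Z z ≤ 6 * (2 * B ^ 2) :=
      mul_le_mul h1 (by linarith) (by positivity) (by norm_num)
    linarith
  · rw [hv, div_eq_mul_inv]
    exact (mul_le_mul e5 e1 (by positivity) (by positivity)).trans_eq (by ring)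

/-- restriction of a jet with bounded weights -/
theorem zon_res {o₀ o₁ w : ℝ → ℝ} (h : Cyl 1 R Z c) (RB : R ≤ B) (BZ : B ≤ Z)
    (p : PW (Icc R Z) w) (p₀ : PW (Icc R Z) o₀) (p₁ : PW (Icc R Z) o₁) {E : ℝ} (E0 : 0 ≤ E)
    (b : ∀ z ∈ Icc R B, ∀ i, P218W.om o₀ o₁ w c Z i z ≤ E ∧ nu w c Z i z ≤ E) (J : XE R Z)
    (i : Fin 6) (x : WI R B) (e : ∀ z ∈ Icc R B, ∀ θ, x (z, θ) = J.1 i (z, θ)) :
    ‖x‖ ≤ 2 * E * P218W.MP.xe o₀ o₁ w c R Z J := by
  have l := ((ret_cl (RB.trans BZ)).xn_le_iff (pw_om h one_pos p p₀ p₁) (pw_nu h one_pos p)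
    (apply_nonneg _ _)).1 (le_refl (P218W.xn (Icc R Z) _ _ J.1)) i
  have l2 := ((l.mono (Icc_subset_Icc_right BZ) (fun z hz => (b z hz i).1)
    (fun z hz => (b z hz i).2) le_rfl).le (fun _ _ => le_rfl) fun _ _ => le_rfl).wt
      (ω' := fun _ => 1) E0 (by simp) (by simp)
  exact ((ret_cl RB).norm_le (l2.congr e)).trans_eq (by rw [mul_comm 2 E, mul_assoc]; rfl)

/-- both norms control the jets on a bounded interval -/
theorem zon_jet (h : Cyl 1 R Z c) (R1 : 1 ≤ R) (RB : R ≤ B) (BZ : B ≤ Z) (J : XE R Z) (i : Fin 6)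
    (x : WI R B) (e : ∀ z ∈ Icc R B, ∀ θ, x (z, θ) = J.1 i (z, θ)) :
    ‖x‖ ≤ 2 * (36 * B ^ 4 * (36 * B ^ 6)) * pN c R Z J ∧
      ‖x‖ ≤ 2 * (36 * B ^ 4 * (36 * B ^ 6)) * pH c R Z J := by
  obtain ⟨pK, -, pg, ph, px, -⟩ := pw_all h le_rfl
  have B1 : 1 ≤ B := R1.trans RB
  have b2 : 1 ≤ B ^ 2 := one_le_pow₀ B1
  have b4 : B ^ 2 ≤ B ^ 4 := pow_le_pow_right₀ B1 (by norm_num)
  have b6 : B ^ 4 ≤ B ^ 6 := pow_le_pow_right₀ B1 (by norm_num)
  have p1 := pg.add isCompact_Icc px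
  have p2 := ph.mul isCompact_Icc p1
  refine ⟨zon_res h RB BZ (pK _) px p1 (by positivity) (fun z hz i => ?_) J i x e,
    zon_res h RB BZ (pK _) (ph.mul isCompact_Icc px) p2 (by positivity) (fun z hz i => ?_) J i x e⟩
  all_goals
    have m : z ∈ Icc R Z := ⟨hz.1, hz.2.trans BZ⟩
    obtain ⟨a1, a2, a3, a4⟩ := zon_ba h m (R1.trans hz.1) hz.2
  · exact zon_wt h m (R1.trans hz.1) hz.2 ((pK _).pos m).le
      ((a1 _ ⟨by norm_num, by norm_num⟩).trans (by linarith)) (by linarith) (p1.pos m).le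
      (by linarith) i
  · exact zon_wt h m (R1.trans hz.1) hz.2 ((pK _).pos m).le
      ((a1 _ ⟨by norm_num, by norm_num⟩).trans (by linarith))
      ((mul_le_mul a4 a2 (px.pos m).le (by positivity)).trans (by linarith)) (p2.pos m).le
      ((mul_le_mul a4 a3 (p1.pos m).le (by positivity)).trans (by nlinarith)) i

end wt

section prs

variable {ι : Type} [Fintype ι] {A : ι → Type} {B : Type} [∀ j, NormedAddCommGroup (A j)]
  [∀ j, NormedSpace ℂ (A j)] [NormedAddCommGroup B] [NormedSpace ℂ B] {p : ∀ j, Seminorm ℂ (A j)}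

theorem zon_prs {x : (∀ j, A j) × B} {a : ℝ} :
    prs p x ≤ a ↔ (∀ j, p j (x.1 j) ≤ a) ∧ ‖x.2‖ ≤ a :=
  ⟨fun h => ⟨fun j => (Seminorm.le_finset_sup_apply
    (p := fun j => (p j).comp (LinearMap.proj j ∘ₗ LinearMap.fst ℂ _ B)) (Finset.mem_univ j)).trans
      ((le_max_left _ _).trans h), (le_max_right _ _).trans h⟩,
    fun h => max_le (Seminorm.finset_sup_apply_le ((norm_nonneg _).trans h.2) fun j _ => h.1 j) h.2⟩

end prs

/-- the norm of the compact zone from the bounds of the jets -/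
theorem zn_le {M : Mod} {k : ℕ} {G : GD M k} {Z : Fin M.n₁ → ℝ} (hz : G.z₀ ≤ G.ρ + 9)
    {p : ∀ j, Seminorm ℂ (XE G.z₀ (Z j))} {K : ℝ} (K1 : 1 ≤ K) (U : G.XX Z)
    (h : ∀ j i (x : WI G.z₀ (G.ρ + 9)), (∀ z ∈ Icc G.z₀ (G.ρ + 9), ∀ θ,
      x (z, θ) = (U.2.1.1 j).1 i (z, θ)) → ‖x‖ ≤ K * p j (U.2.1.1 j)) :
    GD.zn U ≤ K * tri (prs p) U := by
  obtain ⟨h1, h2, h3⟩ := le_tri (prs p) U
  obtain ⟨h4, h5⟩ := zon_prs.1 h2
  have t0 := (norm_nonneg _).trans h1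
  have t1 := le_mul_of_one_le_left t0 K1
  have t2 := t0.trans t1
  refine norm_prod_le_iff.2 ⟨norm_prod_le_iff.2 ⟨h1.trans t1, norm_prod_le_iff.2
    ⟨(pi_norm_le_iff_of_nonneg t2).2 fun j => (pi_norm_le_iff_of_nonneg t2).2 fun i => ?_,
      norm_prod_le_iff.2 ⟨h5.trans t1, (norm_fst_le U.2.2).trans (h3.trans t1)⟩⟩⟩,
    (norm_snd_le U.2.2).trans (h3.trans t1)⟩
  refine (h j i _ fun z hz' θ => ?_).trans (mul_le_mul_of_nonneg_left (h4 j) (by linarith))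
  change (U.2.1.1 j).1 i (cl G.z₀ (G.ρ + 9) z, θ) = _
  rw [(ret_cl hz).fix z hz']

/-- **the compact zone** -/
theorem zon (cy : CY) (loww : LOWW) : ZON := by
  refine fun M _ => ⟨2, fun k G z2 o => ?_⟩
  obtain ⟨C, C0, hC⟩ := loww G.z₀ (G.ρ + 6) (by linarith)
  have hi := o.ld.hi
  filter_upwards [ev_ad, ev_Z fun _ _ _ => 2 * G.ρ + 9, ev_cs (ev₀_K 1), ev_cs (ev₀_K C),
    ev_cs (ev₀_K (2 * (36 * (G.ρ + 9) ^ 4 * (36 * (G.ρ + 9) ^ 6)))),
    ev_cs (ev₀_J fun _ _ _ => 1)] with p a hZ K1 KC KE hJ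
  have h3 : (p.J₀ : ℝ) ≤ p.J := by exact_mod_cast a.hJ
  have cyl : ∀ j, Cyl 1 G.z₀ (p.W j) (p.c j) := fun j => cy p.J _ _ _ _ (a.hc j) z2
    (by linarith [(a.hW j).1]) (by nlinarith) (by linarith)
  have jet := fun (U : G.XX p.W) j i x e => zon_jet (B := G.ρ + 9) (cyl j) (by linarith)
    (by linarith) (by linarith [(a.hW j).1]) (U.2.1.1 j) i x e
  refine ⟨fun U => ⟨zn_le (by linarith) K1 U fun j i x e => (jet U j i x e).1.trans ?_,
    zn_le (by linarith) K1 U fun j i x e => (jet U j i x e).2.trans ?_⟩, fun g hg => ?_⟩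
  · exact mul_le_mul_of_nonneg_right KE (apply_nonneg _ _)
  · exact mul_le_mul_of_nonneg_right KE (apply_nonneg _ _)
  have e : ∀ j, g.1 j = ((g.1 j).1, 0) := fun j => Prod.ext rfl (hg j).1
  have l := fun j => hC _ _ (cyl j) (g.1 j).1 fun z θ h1 h2 => (hg j).2 z ⟨h1, h2⟩ θ
  have n : ∀ j, C * ‖(g.1 j).1‖ ≤ p.K * ‖g‖ := fun j => mul_le_mul KC
    ((norm_fst_le _).trans ((norm_le_pi_norm g.1 j).trans (norm_fst_le g))) (norm_nonneg _)
    (by linarith)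
  have s := (norm_snd_le g).trans (le_mul_of_one_le_left (norm_nonneg g) K1)
  exact ⟨zon_prs.2 ⟨fun j => e j ▸ (l j).1.trans (n j), s⟩,
    zon_prs.2 ⟨fun j => e j ▸ (l j).2.trans (n j), s⟩⟩

end Vale.Agent.P218I
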