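import Vale.Agent.P218I.RpA
import Vale.Agent.P218H.Basic

/-! Change of the cuts: the near zone and the equation. -/

set_option linter.all false

open Set Filter Topology MeasureTheory

noncomputable section

namespace Vale.Agent.P218I.Rp

open Vale.Agent.P218W Vale.Agent.P218T Vale.Agent.P218L GD
open Vale.Agent.P218N (V3 AD Pi' Jt jt dB dF jA jA2 Ef)
open Vale.Agent.P218H (Core dd_ev op_congr st_one)

section ad

variable {B : Type} [NormedAddCommGroup B] [NormedSpace ℝ B] {G G' : E3 × ℂ × B → V3} {x : E3}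
  {τ : B}

/-- equality up to a shift of the parameters -/
def Sh (τ : B) (x : E3) (G G' : E3 × ℂ × B → V3) : Prop :=
  ∀ φ t, G =ᶠ[𝓝 (x, φ, t)] fun w => G' (w + (0, 0, τ))

theorem Sh.val (h : Sh τ x G G') (φ : ℂ) (t : B) : G (x, φ, t) = G' (x, φ, t + τ) := by
  simpa using (h φ t).self_of_nhds

theorem Sh.der (h : Sh τ x G G') (v : E3 × ℂ × B) :
    Sh τ x (fun z => fderiv ℝ G z v) fun z => fderiv ℝ G' z v := fun φ t =>
  ((h φ t).fderiv (𝕜 := ℝ)).mono fun w hw => by simp only [hw, fderiv_comp_add_right]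

theorem Sh.jA (h : Sh τ x G G') (j : Jt) (t : B) : jA G x j t = jA G' x j (t + τ) :=
  funext fun b => congrArg₂ (fun u v => u + j none (some b) • v) ((h.der _).val _ _)
    ((h.der _).val _ _)

theorem Sh.jA2 (h : Sh τ x G G') (j : Jt) (t : B) : jA2 G x j t = jA2 G' x j (t + τ) :=
  funext fun c => funext fun b => by
    have e1 : Sh τ x (dB b G) (dB b G') := h.der _
    have e2 : Sh τ x (dF G) (dF G') := h.der _
    simp only [P218N.jA2, e1.jA, e2.jA, e2.val]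

variable {ι α : Type} [Fintype ι] [Fintype α]

theorem ad_sh (D : AD ι α) (s : ι → E3 → ℝ) (h : ∀ j, D.sh j =ᶠ[𝓝 x] fun _ => 0)
    (h' : ∀ j, s j =ᶠ[𝓝 x] fun _ => 0) (j : Jt) (t : Pi' ι α) (l : ι → ℂ) :
    ({ D with sh := s } : AD ι α).Rm x j (t.1, t.2.1, l, t.2.2.2) = D.Rm x j t ∧
    ({ D with sh := s } : AD ι α).If x j (t.1, t.2.1, l, t.2.2.2) = D.If x j t ∧
    ∀ i, ({ D with sh := s } : AD ι α).IO i x j (t.1, t.2.1, l, t.2.2.2) = D.IO i x j t := by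
  have X : Sh ((0, 0, l - t.2.2.1, 0) : Pi' ι α) x D.XX ({ D with sh := s } : AD ι α).XX :=
    fun φ t => (continuousAt_fst.eventually (eventually_all.2 fun j => (h j).and (h' j))).mono
      fun w hw => by simp [AD.XX, AD.X0, AD.ov, hw]
  have e : t + (0, 0, l - t.2.2.1, 0) = (t.1, t.2.1, l, t.2.2.2) := by simp [Prod.ext_iff]
  have F : Sh _ x (dF D.XX) (dF _) := X.der _
  simp only [AD.Rm, AD.E, AD.If, AD.IO, AD.Wj, X.val, X.jA, X.jA2, F.val, e]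
  exact ⟨rfl, rfl, fun _ => trivial⟩

end ad

theorem jt_congr {f g : E3 → ℂ} {x : E3} (h : f =ᶠ[𝓝 x] g) : jt f x = jt g x :=
  funext fun i => funext fun j => (dd_ev (dd_ev h j) i).self_of_nhds

theorem ext_congr {n k : ℕ} {ι : Type} {c : Core n k ι} (o : c.Ok0) {f f' : P218H.En n → ℂ}
    (h : ∀ p ∈ c.S, ‖p‖ < c.r + 6 → f p = f' p) : c.ext f = c.ext f' := funext fun x => by
  unfold Core.ext
  rcases lt_or_ge |c.ta x| c.de with a | a
  · rcases lt_or_ge ‖c.pr x‖ (c.r + 6) with b | b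
    · rw [h _ (o.tube.foot x a).1 b]
    · simp [st_one (c := c.r + 5) (by linarith [o.one_le, o.r_le]) (by linarith : _ ≤ ‖c.pr x‖)]
  · simp [o.ker.eh0 (c.ta x) (by linarith [o.tube.pos])]

theorem toL_fst {A B C : Type} [NormedAddCommGroup A] [NormedSpace ℂ A] [NormedAddCommGroup B]
    [NormedSpace ℂ B] [NormedAddCommGroup C] [NormedSpace ℂ C] (F : A → C) (x : A × B) :
    toL (fun x : A × B => F x.1) x = toL F x.1 := by
  by_cases h : ∃ T : A →L[ℂ] C, ∀ a, T a = F a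
  · rw [toL_apply h, toL_apply ⟨h.choose ∘L .fst ℂ _ _, fun a => h.choose_spec a.1⟩]
  · rw [toL, toL, dif_neg h, dif_neg fun ⟨T, k⟩ => h ⟨T ∘L .inl ℂ _ _, fun a => k (a, 0)⟩]
    rfl

theorem toW_congr {s : Set ℝ} {r : ℝ → ℝ} (h : Ret s r) {F F' : ℝ × ℝ → ℂ}
    (e : ∀ z ∈ s, ∀ θ, F (z, θ) = F' (z, θ)) : toW s r F = toW s r F' := by
  by_cases k : ∃ x : W r, ∀ z ∈ s, ∀ θ, x (z, θ) = F (z, θ)
  · rw [h.toW_eq k.choose_spec, h.toW_eq fun z a θ => (k.choose_spec z a θ).trans (e z a θ)]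
  · rw [toW, toW, dif_neg k, dif_neg fun ⟨x, l⟩ => k ⟨x, fun z a θ => (l z a θ).trans (e z a θ).symm⟩]

variable {M : Mod} {k : ℕ} {G : GD M k} {W W' : Fin M.n₁ → ℝ}

theorem lift_near (g : M.Geo) {V : Type} [NormedAddCommGroup V] {F F' : ℝ × ℝ → V} {a : ℝ}
    {e : M.I} {p : E3} (ha : M.R < a) (hp : p ∈ M.S) (hx : p ∉ M.En e (Ici a))
    (h : ∀ y : ℝ × ℝ, y.1 < a → F y = F' y) : M.lift e F =ᶠ[𝓝 p] M.lift e F' :=
  (g.lift_ev_zero' (F := fun y => F y - F' y) isClosed_Ici (fun _ k => ha.trans_le k)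
    (fun y _ k => sub_eq_zero.2 (h y (not_le.1 k))) hp hx).mono fun x k => by
      rwa [Mod.lift_sub, sub_eq_zero] at k

/-- the parameters before the change of the cuts -/
abbrev y₀ (W' : Fin M.n₁ → ℝ) (U : G.XX W) (c : Fin M.n₁ → ℂ) (v : ℝ) :
    G.XX W × Pm (Fin M.n₁) := (U, c, fun l => (W' l - W l : ℝ), 0, v)

/-- the parameters after the change of the cuts -/
abbrev y₁ (W' : Fin M.n₁ → ℝ) (U : G.XX W) (c : Fin M.n₁ → ℂ) (v : ℝ) :
    G.XX W' × Pm (Fin M.n₁) := (rp W' U, bs c v)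

/-- the standing assumptions -/
structure St (z₃ : ℝ) (W' : Fin M.n₁ → ℝ) (U : G.XX W) : Prop where
  ok : G.Ok
  z0 : 0 < z₃
  hi : ∀ j, G.ρ + 20 ≤ W j ∧ 2 * z₃ + 4 ≤ W j ∧ |W' j - W j| ≤ 1 / 2
  rl : ∀ j, Rl G.z₀ (W j) (W' j) (U.2.1.1 j) ((rp W' U).2.1.1 j)

/-- points away from the cuts -/
def Nb (W : Fin M.n₁ → ℝ) (p : E3) : Prop :=
  p ∈ M.S ∧ ∀ j, p ∉ M.En (.inl j) (Ici (W j - 5 / 2))

namespace St

variable {z₃ : ℝ} {U : G.XX W} (h : St z₃ W' U) {p : E3} (c : Fin M.n₁ → ℂ) (v : ℝ)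
  (m : Fin M.n₁ → ℝ)
include h

theorem lt (j : Fin M.n₁) : M.R + 23 ≤ W j := by linarith [h.ok.ld.lo, h.ok.ld.hi, h.hi j]

theorem nb (hp : p ∈ M.S) (l : ‖p‖ < G.ρ + 10) : Nb W p := ⟨hp, fun j k => by
  obtain ⟨z, a, b, -⟩ := h.ok.ld.geo.norm_En (fun z (a : _ ≤ z) =>
    show M.R < z by linarith [h.lt j]) k
  linarith [mem_Ici.1 a, h.hi j]⟩

theorem we_ev (n : Nb W p) : we (rp W' U) =ᶠ[𝓝 p] we U := by
  refine (eventually_all.2 fun e : M.I => show ∀ᶠ x in 𝓝 p, M.lift e (fun y => q M e y *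
    LD.jx (rp W' U).2.1 e 0 y) x = M.lift e (fun y => q M e y * LD.jx U.2.1 e 0 y) x from ?_).mono
    fun x k => Finset.sum_congr (s₁ := Finset.univ) rfl fun e _ => k e
  rcases e with j | l
  · exact lift_near h.ok.ld.geo (by linarith [h.lt j]) n.1 (n.2 j) fun y k =>
      congrArg _ ((h.rl j).lo 0 (by linarith) y.2)
  · exact .of_forall fun _ => rfl

theorem uu_ev (n : Nb W p) : uu (rp W' U) =ᶠ[𝓝 p] uu U := (h.we_ev n).mono fun x k => by
  rw [uu, uu, k]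
  rfl

theorem ft_ev (n : Nb W p) : ft z₃ (y₁ W' U c v) =ᶠ[𝓝 p] ft z₃ (y₀ W' U c v) := by
  filter_upwards [h.uu_ev n, eventually_all.2 fun j => lift_near (F := fun y => q M (.inl j) y *
    (G.Vj z₃ j (W' j) (c j) 0 0 y - VS (M.f j) y)) (F' := fun y => q M (.inl j) y *
    (G.Vj z₃ j (W j) (c j) (W' j - W j : ℝ) 0 y - VS (M.f j) y)) h.ok.ld.geo (by linarith [h.lt j])
    n.1 (n.2 j) fun y k => by
      simp [Vj, P218N.rj, zt, cut_zero (show y.1 ≤ W j - 2 by linarith)]] with x a b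
  exact congrArg₂ (· + ·) a (Finset.sum_congr rfl fun j _ => b j)

theorem ad_eq (n : Nb W p) (j : Jt) :
    (G.ad W').Rm p j (par m (y₁ W' U c v)) = (G.ad W).Rm p j (par m (y₀ W' U c v)) ∧
    (G.ad W').If p j (par m (y₁ W' U c v)) = (G.ad W).If p j (par m (y₀ W' U c v)) ∧
    ∀ i, (G.ad W').IO i p j (par m (y₁ W' U c v)) = (G.ad W).IO i p j (par m (y₀ W' U c v)) := by
  have key : ∀ j Z, W j - 5 / 2 ≤ Z - 2 →
      (M.lift (.inl j) fun y => cut (Z - 2) y.1) =ᶠ[𝓝 p] fun _ => 0 := fun j Z k =>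
    h.ok.ld.geo.lift_ev_zero' isClosed_Ici (fun z (a : _ ≤ z) => show M.R < z by linarith [h.lt j])
      (fun y _ a => cut_zero ((not_le.1 a).le.trans k)) n.1 (n.2 j)
  exact ad_sh (G.ad W) (G.ad W').sh (fun j => key j _ (by linarith))
    (fun j => key j _ (by linarith [abs_le.1 (h.hi j).2.2])) j (par m (y₀ W' U c v)) 0

theorem L1_eq : L1 (rp W' U) = L1 U := by
  have : G.cor.ext (lo (rp W' U)) = G.cor.ext (lo U) := ext_congr h.ok.cor.toOk0 fun p hp l => by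
    have e := h.we_ev (h.nb hp (lt_of_lt_of_le (b := G.ρ + 2 + 6) l (by linarith)))
    simp only [lo, P218H.cm, op_congr e, op_congr (show (fun y => G.cor.ce y • we (rp W' U) y)
      =ᶠ[𝓝 p] fun y => G.cor.ce y • we U y from e.mono fun _ k => congrArg _ k)]
    rfl
  rw [L1, this]
  rfl

theorem N1_eq : N1 m (y₁ W' U c v) = N1 m (y₀ W' U c v) :=
  congrArg toH (ext_congr h.ok.cor.toOk0 fun p hp l => by
    have n := h.nb hp (lt_of_lt_of_le (b := G.ρ + 2 + 6) l (by linarith))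
    have e := h.we_ev n
    simp only [Qc, jt_congr e, jt_congr (h.uu_ev n), (h.ad_eq c v m n _).1,
      jt_congr (show (fun y => G.cor.ce y • we (rp W' U) y)
      =ᶠ[𝓝 p] fun y => G.cor.ce y • we U y from e.mono fun _ k => congrArg _ k)]
    rfl)

theorem Qn_eq (n : Nb W p) : Qn m (y₁ W' U c v) p = Qn m (y₀ W' U c v) p := by
  simp only [Qn, jt_congr (h.we_ev n), jt_congr (h.uu_ev n), (h.ad_eq c v m n _).1]
  rfl

theorem ge (j : Fin M.n₁) {z a : ℝ} (l : a < W j - 2) (k : a ≤ z) :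
    a ≤ zf (W j) (W' j - W j) z :=
  let ⟨_, r⟩ := (h.rl j).rep
  (zf_lo l).1.ge.trans (r.mono.monotone k)

omit h in
theorem zt_eq (Z l z : ℝ) : zt Z l z = zf Z l z ∧ zt₁ Z l z = zf₁ Z l z ∧ zt₂ Z l z = zf₂ Z l z := by
  simp [zt, zt₁, zt₂, zf, zf₁, zf₂]

theorem bt_zero (j : Fin M.n₁) (a : ℂ) {y : ℝ × ℝ} (l : W j - 7 / 2 < y.1) (i : Fin 6) :
    jet (G.bt z₃ j a) i y = 0 := by
  have e : G.bt z₃ j a =ᶠ[𝓝 y] fun _ => 0 := (ev_ht l).mono fun y k => by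
    simp [bt, cut_one (show G.ρ + 6 + 1 ≤ y.1 by linarith [h.hi j]),
      cut_one (show 1 + 1 ≤ y.1 / z₃ from (le_div_iff₀ h.z0).2 (by linarith [h.hi j]))]
  have e1 := e.fderiv (𝕜 := ℝ)
  have e2 := e1.fderiv_eq (𝕜 := ℝ)
  fin_cases i <;> simp [jet, e.self_of_nhds, e1.self_of_nhds, e2]

theorem Vt_eq (j : Fin M.n₁) {z : ℝ} (hz : z ∈ Icc G.z₀ (W j)) (θ : ℝ) (i : Fin 6) :
    Vt z₃ (y₀ W' U c v) j (z, θ) i = pj (zf (W j) (W' j - W j)) (zf₁ (W j) (W' j - W j))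
      (zf₂ (W j) (W' j - W j)) (fun i p => Vt z₃ (y₁ W' U c v) j p i) i (z, θ) := by
  simp only [Vt, Vj, zt_eq, (h.rl j).fw i z hz θ]
  rcases lt_or_ge z (W j - 2) with a | a
  · fin_cases i <;> simp [pj, P218N.rj, zf_lo a, zt, zt₁, zt₂, bs]
  · have b := fun θ => h.bt_zero j (c j) (y := (z, θ)) (by linarith)
    have b' := fun θ => h.bt_zero j (c j) (y := (zf (W j) (W' j - W j) z, θ))
      (by linarith [h.ge j (a := W j - 3) (z := z) (by linarith) (by linarith)])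
    fin_cases i <;> simp [pj, P218N.rj, b, b', zt, zt₁, zt₂, bs] <;> ring

theorem Ec_eq (j : Fin M.n₁) {z : ℝ} (hz : z ∈ Icc G.z₀ (W j)) (θ : ℝ) :
    Ec z₃ m (y₁ W' U c v) j (zf (W j) (W' j - W j) z, θ) = Ec z₃ m (y₀ W' U c v) j (z, θ) := by
  obtain ⟨_, r⟩ := (h.rl j).rep
  have n : (zf₁ (W j) (W' j - W j) z : ℂ) ≠ 0 := Complex.ofReal_ne_zero.2 (r.pos z).ne'
  simp only [Ec, Ef, zt_eq, h.Vt_eq c v j hz θ]
  simp only [pj, zt, zt₁, zt₂, bs, Matrix.cons_val, Pi.zero_apply, zero_mul, add_zero]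
  congr 1 <;> field_simp
  ring

theorem chn_eq (j : Fin M.n₁) (z : ℝ) : G.chn (zf (W j) (W' j - W j) z) = G.chn z := by
  rcases lt_or_ge z (W j - 2) with a | a
  · rw [(zf_lo a).1]
  · have := h.hi j
    have := h.ge j (a := W j - 3) (z := z) (by linarith) (by linarith)
    rw [LD.chn, LD.chn, Real.smoothTransition.one_of_one_le (by linarith),
      Real.smoothTransition.one_of_one_le (by linarith)]

theorem Zb_eq (j : Fin M.n₁) : Zb (y₁ W' U c v) j = Zb (y₀ W' U c v) j := by simp [Zb, bs]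

theorem Vb_eq (j : Fin M.n₁) : Vb (y₁ W' U c v) j = Vb (y₀ W' U c v) j := by
  rw [Vb, h.Zb_eq]
  rfl

theorem Bj_eq (J₀ J : ℕ) (j : Fin M.n₁) :
    Bj J₀ J m (y₁ W' U c v) j = Bj J₀ J m (y₀ W' U c v) j := by
  have : pb (y₁ W' U c v) j = pb (y₀ W' U c v) j := funext fun θ => by
    rw [pb, pb, h.Zb_eq, (h.rl j).fw 3 _ ⟨by linarith [(h.rl j).lt], le_rfl⟩]
    simp [pj, zf_hi, zf_hi₁, bs]
  rw [Bj, this, h.Zb_eq, h.Vb_eq]
  rfl

theorem Fe_zero (inj : INJ) {J₀ J : ℕ} (e : Fe z₃ J₀ J m (y₀ W' U c v) = 0) :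
    Fe z₃ J₀ J m (y₁ W' U c v) = 0 := by
  choose φ r using fun j => (h.rl j).rep
  have hR := fun j => (zf_lo (l := W' j - W j) (h.rl j).lt).1
  have RZ : ∀ j, G.z₀ ≤ W j := fun j => by linarith [(h.rl j).lt]
  let T : G.Y' W →+ G.Y' W' :=
    { toFun g := (fun j => (rs (r j).cont _ _ _ (g.1 j).1, (g.1 j).2), g.2)
      map_zero' := Prod.ext (funext fun j => Prod.ext (map_zero _) rfl) rfl
      map_add' a b := Prod.ext (funext fun j => Prod.ext (map_add _ _ _) rfl) rfl }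
  have key : ∀ F F' : M.I → ℝ × ℝ → ℂ, (∀ e y, G.chn y.1 = 0 → F e y = 0 ∧ F' e y = 0) →
      (∀ e y, G.z₀ ≤ y.1 → y.1 < G.ρ + 6 → F' e y = F e y) → G.toY W' F' = T (G.toY W F) := by
    intro F F' a b
    have z0 : ∀ z, G.ρ + 6 ≤ z → G.chn z = 0 := fun z k => by
      rw [LD.chn, Real.smoothTransition.one_of_one_le (by linarith), sub_self]
    have b' : ∀ e z θ, G.z₀ ≤ z → F' e (z, θ) = F e (z, θ) := fun e z θ k =>
      (lt_or_ge z (G.ρ + 6)).elim (b e (z, θ) k) fun l => by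
        rw [(a e (z, θ) (z0 z l)).1, (a e (z, θ) (z0 z l)).2]
    refine Prod.ext (funext fun j => Prod.ext (toW_rs (r j) (hR j) zf_hi (RZ j) fun z hz θ => ?_)
      rfl) (funext fun l => ?_)
    · rcases lt_or_ge z (W j - 2) with k | k
      · rw [(zf_lo k).1, b' _ _ _ hz.1]
      · have := z0 z (by linarith [h.hi j])
        exact (a _ (_, θ) ((h.chn_eq j z).trans this)).2.trans (a _ (z, θ) this).1.symm
    · exact toW_congr (ret_max _) fun z k θ => b' _ _ _ k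
  obtain ⟨C, -, i⟩ := inj M k G.toLD h.ok.ld
  rw [← T.map_zero, ← e, Fe, Fe, map_add, map_add, map_add,
    (i W (fun j => by linarith [h.hi j]) _).1,
    (i W' (fun j => by linarith [h.hi j, abs_le.1 (h.hi j).2.2]) _).1]
  refine congrArg₂ _ (congrArg₂ _ (congrArg₂ _ (key _ _ ?_ fun _ _ _ _ => rfl) (key _ _ ?_ ?_))
    (key _ _ ?_ ?_)) (Prod.ext (funext fun j => Prod.ext ?_ (h.Bj_eq c v m J₀ J j)) rfl)
  · exact fun e y k => by simp [k]
  · exact fun e y k => by simp [k]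
  · rintro (j | l) y a b
    · exact congrArg (fun u => _ * DL M _ y u) (funext fun i =>
        (h.rl j).lo i (by linarith [h.hi j]) y.2)
    · rfl
  · exact fun e y k => by simp [k]
  · intro e y a b
    have lo : M.R < y.1 := by linarith [h.ok.ld.lo]
    rw [h.Qn_eq c v m (h.nb (h.ok.ld.geo.mem e y lo)
      (by linarith [((h.ok.ld.geo.cht e).rad y lo).2]))]
  · show n3c z₃ m j (y₁ W' U c v) = rs (r j).cont _ _ _ (n3c z₃ m j (y₀ W' U c v))
    refine toW_rs (r j) (hR j) zf_hi (RZ j) fun z hz θ => ?_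
    rw [h.Ec_eq c v m j hz, h.chn_eq]

theorem FF_eq (inj : INJ) {J₀ J : ℕ} {a : Fin k → ℂ}
    (e : FF z₃ J₀ J m (y₀ W' U c v) = (0, 0, 0, a)) : FF z₃ J₀ J m (y₁ W' U c v) = (0, 0, 0, a) := by
  simp only [FF, Prod.mk.injEq] at e ⊢
  refine ⟨by rw [h.L1_eq, h.N1_eq, e.1], h.Fe_zero c v m inj e.2.1, ?_, ?_⟩
  · refine Eq.trans (congrArg (· + _) (funext fun i => ?_)) e.2.2.1
    have := fun l => co_congr (fun θ => (h.rl i.1).lo 0 (h.rl i.1).lt θ) l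
    rw [LD.gam_apply, LD.gam_apply]
    generalize i.2 = n
    fin_cases n <;> simp [low_0, low_1, low_2, this]
  · exact ((toL_fst (fun (u : P218H.C2a 3 α₀) i => ∫ p, G.cor.wf G.et (P218H.f2 u) p * G.ψ i p
      ∂ga M.w) (rp W' U)).trans (toL_fst _ U).symm).trans e.2.2.2

theorem coo_eq : G.coo W' (rp W' U) = G.coo W U :=
  Prod.ext rfl (Prod.ext (funext fun j => funext fun i => P218W.W.ext fun p =>
    (h.rl j).lo i (max_lt (h.rl j).lt ((min_le_left _ _).trans_lt (by linarith [h.hi j]))) p.2) rfl)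

theorem uu_int (j : Fin M.n₁) : ∫ x, uu (rp W' U) x * G.b (j, 0) x ∂ga M.w =
    ∫ x, uu U x * G.b (j, 0) x ∂ga M.w := by
  have o := h.ok.cor.toOk0
  refine integral_congr_ae (mem_of_superset (mem_ae_iff.2 o.supp) fun x hx => ?_)
  rcases eq_or_ne (G.b (j, 0) x) 0 with a | a
  · simp [a]
  · have : ‖x‖ < G.ρ + 2 + 3 := not_le.1 fun l => by
      simpa [(o.cc0 x hx l).1.self_of_nhds] using (o.bb (j, 0)).2 x hx a
    exact congrArg (· * _) (h.uu_ev (h.nb hx (by linarith))).self_of_nhds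

end St

end Vale.Agent.P218I.Rp
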