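import Vale.Agent.P218L.All
import Vale.Agent.P218I.Asm
import Vale.Agent.P218I.Adn
import Vale.Agent.P218I.Bca
import Vale.Agent.P218I.Bcb
import Vale.Agent.P218I.Cj
import Vale.Agent.P218I.Eqn
import Vale.Agent.P218I.Fara
import Vale.Agent.P218I.Farc
import Vale.Agent.P218I.Fard
import Vale.Agent.P218I.Fark
import Vale.Agent.P218I.Prof
import Vale.Agent.P218N.Mid
import Vale.Agent.P218I.Fv
import Vale.Agent.P218I.Rp
import Vale.Agent.P218I.Sound
import Vale.Agent.P218I.U0v
import Vale.Agent.P218I.Usv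
import Vale.Agent.P218I.Uzl
import Vale.Agent.P218I.Xiv
import Vale.Agent.P218I.Zon
import Vale.Agent.P218N.Evj
import Vale.Agent.P218N.Fl
import Vale.Agent.P218N.Fva
import Vale.Agent.P218N.Sibp
import Vale.Agent.P218N.Gds
import Vale.Agent.P218N.Hb
import Vale.Agent.P218N.Hi
import Vale.Agent.P218N.Jn
import Vale.Agent.P218N.Jth
import Vale.Agent.P218N.Mpc
import Vale.Agent.P218N.Mpn
import Vale.Agent.P218N.Near
import Vale.Agent.P218N.Smc
import Vale.Agent.P218N.Stc
import Vale.Agent.P218N.Stk
import Vale.Agent.P218N.Tub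
import Vale.Agent.P218R.All0
import Vale.Agent.P218C.Conw

/-!
# P218, INST: the rows without hypotheses
-/

namespace Vale.Agent.P218I.R

open Vale.Agent.P218T Vale.Agent.P218L

theorem eqn' : EQN := eqn cy
theorem zon' : ZON := zon cy loww
theorem usv' : USV := usv sdec' eqs
theorem xiv'' : XIV := xiv' slow'
theorem uzl' : UZL := uzl u0v usv' xiv'' slow' kap''
theorem qc' : QC := qc adn evj
theorem qn' : QN := qn adn (jn' evj)
theorem fara' : FARA := fara eqs sdec'
theorem fark' : FARK := fark (conw conj') conj' eqs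
theorem jth' : JTH := jth evj
theorem stc' : STC := stc adn
theorem stk' : STK := stk adn evj jth'
theorem snd' : SOUND := sound zon' adn evj jth' stc' stk' smc smk qc' qn' fara' fark'
theorem tub' : P218N.TUB := P218N.tub P218N.lin0
theorem nrz' : NRZ := nrz tub' adn evj
theorem gds' : GDS := gds nrz' adn jth' stc' stk' smc smk zon'
theorem flc' : FLC := flc stc' smc
theorem hb' : HB := hb flc'
theorem hi' : HI := hi gds' gau jth' eqn'
theorem mpn' : MPN := mpn tub' adn evj jth' stk' smk zon' uzl'
theorem mpc' : MPC := mpc stc' smc usv'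
theorem fv' : Fld Obj.FV := fv (P218N.fva (P218N.sibp P218R.fv' P218R.low')) jth' gds' hi' hb' flc'
  (flk stk' smk) (lag' adn jth' xiv'' kap'') snd'

theorem obsi' : OBSI := obsi gds' stc' stk' smc smk hi' gau

theorem all (farb : FARB) : Fld Obj.All :=
  all_of eqn' zon' u0v usv' xiv'' uzl' qc' qn' fara' farb farc (fard eqs sdec' fara' u0v)
    (fare usv') fark' (bca cy) (bcb cy (bca cy)) (hola hi' hb') (holb flc') fv'
    (cj slow' (gdr gds' (gn nrz' zon') flc')) nc (rp ind xiv'' (inj' qb)) (prof snd' obsi')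
    (dfv snd' obsi') (mid midw mpn' mpc' gau hi' hb')

end Vale.Agent.P218I.R
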