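import Vale.Agent.P218I.Defs
import Vale.Agent.P218L.Spec
import Vale.Agent.P218T.Spec

/-!
# P218, INST: the statements of the rows
-/

open MeasureTheory Set Filter Topology
open scoped ContDiff RealInnerProductSpace Real ComplexConjugate

noncomputable section

namespace Vale.Agent.P218I

open Vale.Agent.P218T Vale.Agent.P218L Vale.Agent.P218M
open Vale.Agent.P218H (tri)
open Vale.Agent.P218N (jt)
open Vale.Agent.P218W (W jet low cst cI WI XK T0)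

namespace GD

variable {M : Mod} {k : ℕ} (G : GD M k)

/-- the box at a base point -/
abbrev Bx (p : Pt (Fin M.n₁)) := (G.obj p.toCs).Bx p

/-- the natural norm -/
abbrev Nn (p : Pt (Fin M.n₁)) : Seminorm ℂ (G.XX p.W) := tri (G.pn p.W p.c)

/-- the heavy norm -/
abbrev Nh (p : Pt (Fin M.n₁)) : Seminorm ℂ (G.XX p.W) := tri (G.ph' p.W p.c)

/-- the switch to the far zone -/
abbrev fc (Z : ℝ) : WI G.z₀ Z := cI G.z₀ Z fun z => (1 - G.chn z : ℝ)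

/-- the same on a conical end -/
abbrev fk : W (max G.z₀) := cst (Ici G.z₀) (max G.z₀) fun z => (1 - G.chn z : ℝ)

variable {G} {Z : Fin M.n₁ → ℝ}

/-- the norm of what is seen in the compact zone -/
def zn (U : G.XX Z) : ℝ := ‖(G.coo Z U, U.2.2.2)‖

/-- `F` are the values of the datum `g` -/
def Val (g : G.Y' Z) (F : M.I → ℝ × ℝ → ℂ) : Prop :=
  ∀ e z θ, G.z₀ ≤ z → (∀ j, e = .inl j → z ≤ Z j) → LD.fy g e (z, θ) = F e (z, θ)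

/-- a remainder in the compact zone: holomorphic, bounded, quadratic when the observables are
switched off; `V` says what its values are -/
def Near {B : (Fin M.n₁ → ℝ) → Type} [∀ Z, NormedAddCommGroup (B Z)] [∀ Z, NormedSpace ℂ (B Z)]
    (F : ∀ Z, (Fin M.n₁ → ℝ) → G.XX Z × Pm (Fin M.n₁) → B Z)
    (V : ∀ Z, (Fin M.n₁ → ℝ) → G.XX Z × Pm (Fin M.n₁) → Prop) : Prop :=
  ∃ r₀ C Z₀ : ℝ, 0 < r₀ ∧ ∀ Z m, (∀ j, Z₀ ≤ Z j ∧ Z₀ ≤ m j) → ∀ y, zn y.1 < r₀ →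
    ‖y.2.2.2.1‖ < r₀ → DifferentiableAt ℂ (F Z m) y ∧ ‖F Z m y‖ ≤ C ∧ V Z m y ∧
      (y.2.2.2.1 = 0 → (zn y.1 = 0 → F Z m y = 0) ∧ ∀ y' : G.XX Z × Pm (Fin M.n₁),
        y'.2.2.2.1 = 0 → ‖fderiv ℂ (F Z m) y y'‖ ≤ C * zn y.1 * zn y'.1)

end GD

open GD

/-! ### the linear theory -/

/-- the domain of the openings -/
def CY : Prop := ∀ (J : ℕ) (Z R Y : ℝ) (c : ℂ), c ∈ P218Q.dsc (7 / 5 * P218Q.nu J) Z → 2 ≤ R →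
  2 * R + 2 ≤ Z → Y ≤ R ^ 2 → Y ≤ 5 * J → Cyl Y R Z c

/-- the linearisation at the reference surface -/
def PT : Prop := ∀ M : Mod, M.Geo → ∀ δ₀ : ℝ, 0 < δ₀ → ∃ z₁ : ℝ, ∀ k (G : GD M k), z₁ ≤ G.z₀ →
  G.toLD.Ok → ∀ R ε : ℝ, 0 < ε → ∀ᶠ p in ev (Fin M.n₁), ∀ j v,
    ((G.Tj p j v).2 = low (p.W j) (v.1 3) ∧ ∀ z ∈ Icc G.z₀ (p.W j), ∀ θ,
      (G.Tj p j v).1 (z, θ) = fderiv ℂ (vJ 1 z) (fun i => G.Vj p.z₃ j (p.W j) (p.c j) 0 i (z, θ))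
        fun i => v.1 i (z, θ)) ∧
    qN (p.c j) G.z₀ (p.W j) (G.Tj p j v - T0 (p.c j) G.z₀ (p.W j) v)
      ≤ δ₀ * pN (p.c j) G.z₀ (p.W j) v ∧
    qH (p.c j) G.z₀ (p.W j) (G.Tj p j v - T0 (p.c j) G.z₀ (p.W j) v)
      ≤ δ₀ * pH (p.c j) G.z₀ (p.W j) v ∧
    ∀ y : ℝ × ℝ, y.1 ∈ Icc G.z₀ R →
      ‖(G.Tj p j v).1 y - DL M (.inl j) y fun i => v.1 i y‖ ≤ ε * ‖fun i => v.1 i y‖

/-- **the fixed data exist** -/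
def LEX : Prop := ∀ M : Mod, M.Geo → ∀ z₁ : ℝ, ∃ (k : ℕ) (G : GD M k), z₁ ≤ G.z₀ ∧ G.Ok

/-- polynomial comparison of the norms -/
def EQN : Prop := RowP fun _ _ G p =>
  (∀ U, ‖U‖ ≤ p.Z ^ 20 * G.Nn p U ∧ G.Nn p U ≤ p.Z ^ 20 * ‖U‖ ∧ G.Nn p U ≤ p.Z ^ 20 * G.Nh p U ∧
    G.Nh p U ≤ p.Z ^ 20 * ‖U‖) ∧ ∀ g : G.YY p.W, tri (G.qn p.W p.c) g ≤ p.Z ^ 20 * ‖g‖

/-- the compact zone -/
def ZON : Prop := RowP fun _ _ G p =>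
  (∀ U, zn U ≤ p.K * G.Nn p U ∧ zn U ≤ p.K * G.Nh p U) ∧ ∀ g : G.Y' p.W,
    (∀ j, (g.1 j).2 = 0 ∧ ∀ z ∈ Icc (G.ρ + 6) (p.W j), ∀ θ, (g.1 j).1 (z, θ) = 0) →
    G.qn p.W p.c g ≤ p.K * ‖g‖ ∧ G.qh p.W p.c g ≤ p.K * ‖g‖

/-- the slow direction -/
def U0V : Prop := RowP fun _ _ G p => ∀ j,
  (∀ i, ∀ z ∈ Icc G.z₀ (p.W j), ∀ θ, (G.u0 p.W p.z₃ j).1 i (z, θ) = G.u0j p.z₃ j i (z, θ)) ∧
    pH (p.c j) G.z₀ (p.W j) (G.u0 p.W p.z₃ j) ≤ p.K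

/-- the shrinker -/
def USV : Prop := RowP fun M _ G p => ∀ j,
  (∀ i, ∀ z ∈ Icc G.z₀ (p.W j), ∀ θ,
    ((G.US p.W p.z₃).2.1.1 j).1 i (z, θ) = jet (usf M p.z₃ j (p.W j)) i (z, θ)) ∧
    pN (p.c j) G.z₀ (p.W j) ((G.US p.W p.z₃).2.1.1 j) ≤ p.r ^ 2

/-- the projections -/
def XIV : Prop := Row fun M _ G => ∃ C : ℝ, ∀ Z : Fin M.n₁ → ℝ, (∀ j, G.ρ + 9 ≤ Z j) →
  ∀ U : G.XX Z, ‖G.XI Z U‖ ≤ C * zn U ∧
    (∀ j, G.XI Z U j = (G.ka j)⁻¹ * ∫ x, uu U x * G.b (j, 0) x ∂ga M.w) ∧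
    ∀ j, Integrable (fun x => uu U x * G.b (j, 0) x) (ga M.w)

/-! ### the pieces of the equation -/

/-- core row -/
def QC : Prop := Row fun _ _ G => Near (G := G) (fun _ m => N1 m)
  fun _ m y => ∀ x, N1 m y x = G.cor.ext (Qc m y) x

/-- end row, near zone -/
def QN : Prop := Row fun M _ G => Near (G := G) (fun _ m => N2 m) fun _ m y =>
  Val (N2 m y) fun e p => G.chn p.1 * cut (G.ρ - 1) p.1 * Qn m y (M.P e p) / kp M e p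

/-- cylindrical ends, far zone: holomorphy -/
def FARA : Prop := RowP fun _ _ G p => ∀ j, ∀ y ∈ G.Bx p,
  DifferentiableAt ℂ (n3c p.z₃ p.m j) y ∧
    ‖n3c p.z₃ p.m j y - G.fc _ * (G.Tj p j (y.1.2.1.1 j)).1‖ ≤ p.Z ^ 20 ∧
    ∀ z ∈ Icc G.z₀ (p.W j), ∀ θ,
      n3c p.z₃ p.m j y (z, θ) = (1 - G.chn z : ℝ) * Ec p.z₃ p.m y j (z, θ)

/-- cylindrical ends, far zone: the derivative -/
def FARB : Prop := RowP fun _ _ G p => ∀ j U, G.Nn p U < p.r → ∀ U' g,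
  g = fderiv ℂ (n3c p.z₃ p.m j) (U, bs p.c p.v) (U', 0) - G.fc _ * (G.Tj p j (U'.2.1.1 j)).1 →
    qN (p.c j) G.z₀ (p.W j) (g, 0) ≤ p.K * p.r * pN (p.c j) G.z₀ (p.W j) (U'.2.1.1 j) ∧
    qH (p.c j) G.z₀ (p.W j) (g, 0) ≤ p.K * p.r * pH (p.c j) G.z₀ (p.W j) (U'.2.1.1 j)

/-- cylindrical ends, far zone: the residual of the reference surface -/
def FARC : Prop := RowP fun _ _ G p => ∀ j,
  qN (p.c j) G.z₀ (p.W j) (n3c p.z₃ p.m j ((0 : G.XX p.W), bs p.c p.v), 0) ≤ p.r ^ 2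

/-- cylindrical ends, far zone: the derivative in the opening -/
def FARD : Prop := RowP fun _ _ G p => ∀ j U, G.Nn p U < p.r → ∀ c',
  qH (p.c j) G.z₀ (p.W j) (fderiv ℂ (n3c p.z₃ p.m j) (U, bs p.c p.v)
    (G.U0 p.W p.z₃ c', c', 0), 0) ≤ p.K * p.r * ‖c'‖

/-- cylindrical ends, far zone: the residual of the shrinker -/
def FARE : Prop := RowP fun _ _ G p => p.c = 0 → ∀ j, qH (p.c j) G.z₀ (p.W j)
  (n3c p.z₃ p.m j (G.US p.W p.z₃, bs p.c p.v), 0) ≤ p.K₂ / p.K / p.Z ^ 2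

/-- conical ends, far zone -/
def FARK : Prop := Row fun _ _ G => ∃ r₀ C : ℝ, 0 < r₀ ∧ ∀ l, n3k l (0 : XK G.z₀) = 0 ∧
  ∀ J : XK G.z₀, ‖J‖ < r₀ → DifferentiableAt ℂ (n3k l) J ∧ ‖n3k l J - G.fk * G.TS l J‖ ≤ C ∧
    (∀ z, G.z₀ ≤ z → ∀ θ, n3k l J (z, θ) = (1 - G.chn z : ℝ) * Ek l J (z, θ)) ∧
    ∀ J', ‖fderiv ℂ (n3k l) J J' - G.fk * G.TS l J'‖ ≤ C * ‖J‖ * ‖J'‖

/-- boundary rows: holomorphy and derivative -/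
def BCA : Prop := RowP fun _ _ G p => ∀ j,
  (∀ y ∈ G.Bx p, DifferentiableAt ℂ (fun y => Bj p.J₀ p.J p.m y j) y ∧
    ‖Bj p.J₀ p.J p.m y j - low (p.W j) ((y.1.2.1.1 j).1 3)‖ ≤ p.Z ^ 20) ∧
  ∀ U, G.Nn p U < p.r → ∀ U' g, g = fderiv ℂ (fun y => Bj p.J₀ p.J p.m y j) (U, bs p.c p.v) (U', 0)
      - low (p.W j) ((U'.2.1.1 j).1 3) →
    qN (p.c j) G.z₀ (p.W j) (0, g) ≤ p.K * p.r * pN (p.c j) G.z₀ (p.W j) (U'.2.1.1 j) ∧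
    qH (p.c j) G.z₀ (p.W j) (0, g) ≤ p.K * p.r * pH (p.c j) G.z₀ (p.W j) (U'.2.1.1 j)

/-- boundary rows: residuals, derivative in the opening -/
def BCB : Prop := RowP fun _ _ G p => ∀ j,
  (∀ U : G.XX p.W, (∀ θ, (U.2.1.1 j).1 3 (p.W j, θ) = 0) →
    qN (p.c j) G.z₀ (p.W j) (0, Bj p.J₀ p.J p.m (U, bs p.c p.v) j) ≤ p.r ^ 2 ∧ (p.c = 0 →
      qH (p.c j) G.z₀ (p.W j) (0, Bj p.J₀ p.J p.m (U, bs p.c p.v) j) ≤ p.K₂ / p.K / p.Z ^ 2)) ∧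
  ∀ U, G.Nn p U < p.r → ∀ (U' : G.XX p.W) c', (∀ θ, (U'.2.1.1 j).1 3 (p.W j, θ) = 0) →
    qH (p.c j) G.z₀ (p.W j)
      (0, fderiv ℂ (fun y => Bj p.J₀ p.J p.m y j) (U, bs p.c p.v) (U', c', 0)) ≤ p.K * p.r * ‖c'‖

/-- **solutions of the system solve the equation** -/
def SOUND : Prop := RowP fun M _ G p => ∀ y ∈ G.Bx p,
  (∀ x ∈ SW p.W, ContDiffAt ℝ 2 (ft p.z₃ y) x) ∧ ∀ a, FF p.z₃ p.J₀ p.J p.m y = (0, 0, 0, a) →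
    (∀ x ∈ SW p.W, (G.ad p.W).E x (jt (ft p.z₃ y) x) (par p.m y) = 0) ∧
    (∀ j, Bj p.J₀ p.J p.m y j = 0 ∧
      ∀ z ∈ Icc (G.ρ + 5) (p.W j), ∀ θ, Ec p.z₃ p.m y j (z, θ) = 0) ∧
    ∀ l : Fin M.n₂, ∀ z, G.ρ + 5 ≤ z → ∀ θ, Ek l (y.1.2.1.2 l) (z, θ) = 0

/-! ### the fields -/

/-- a field of `Obj.At` -/
def Fld (F : ∀ {α ι : Type} [Fintype α] [Fintype ι] {X Y : (ι → ℝ) → Type} {C : Type}
    [∀ W, NormedAddCommGroup (X W)] [∀ W, NormedSpace ℂ (X W)] [∀ W, NormedAddCommGroup (Y W)]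
    [∀ W, NormedSpace ℂ (Y W)] [NormedAddCommGroup C] [NormedSpace ℂ C],
    Obj α ι X Y C → Pt ι → Prop) : Prop := RowP fun _ _ G p => F (G.obj p.toCs) p

/-- independence -/
def IND : Prop := ∀ (M : Mod) k (G : GD M k) (a : Cs), (G.obj a).IND a.J₀

/-- **the geometric meaning of the real solutions** -/
def LFDR : Prop := Row fun M _ G => ∀ᶠ a in ev₀, ∀ K₂, ∃ Z₁, ∀ Zs, Z₁ ≤ Zs a.J₀ →
  ((G.obj a).cs a K₂ Zs).PDE → ∃ w₀ δ₀ C₀ ψ w wc c₀ c₁ δ a₀ K' h₀ e₀,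
    ((G.obj a).cs a K₂ Zs).LFD M.S w₀ δ₀ C₀ ψ w wc c₀ c₁ δ a₀ K' h₀ e₀

theorem Row.and {Q Q' : ∀ (M : Mod) (k : ℕ), GD M k → Prop} (h : Row Q) (h' : Row Q') :
    Row fun M k G => Q M k G ∧ Q' M k G := fun M g =>
  let ⟨a, h⟩ := h M g
  let ⟨b, h'⟩ := h' M g
  ⟨max a b, fun k G z o => ⟨h k G (le_of_max_le_left z) o, h' k G (le_of_max_le_right z) o⟩⟩

theorem Row.mono {Q Q' : ∀ (M : Mod) (k : ℕ), GD M k → Prop} (h : Row Q)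
    (e : ∀ M k (G : GD M k), G.Ok → Q M k G → Q' M k G) : Row Q' := fun M g =>
  let ⟨a, h⟩ := h M g
  ⟨a, fun k G z o => e M k G o (h k G z o)⟩

/-- **INST from the fields** -/
theorem inst_of (geo : GEO) (lex : LEX) (ind : IND) (all : Fld Obj.All) (lfd : LFDR) : INST := by
  intro S hS
  obtain ⟨M, rfl, g⟩ := geo S hS
  obtain ⟨z, h⟩ := Row.and all lfd M g
  obtain ⟨k, G, hz, o⟩ := lex M g z
  obtain ⟨a, ⟨K₂, h1⟩, h2⟩ :=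
    ((Obj.pde_of G.obj (ind M k G) (h k G hz o).1).and (h k G hz o).2).exists
  obtain ⟨Z₁, h2⟩ := h2 K₂
  obtain ⟨Zs, l, h1⟩ := h1 Z₁
  exact ⟨_, _, _, _, G.XX, G.YY, G.CC, _, _, fun _ => inferInstance, _, _, _, _, _, h1,
    h2 Zs l h1⟩

end Vale.Agent.P218I
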