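import Vale.Agent.P218I.Spec

/-!
# P218, INST: more rows
-/

noncomputable section

namespace Vale.Agent.P218I

open Vale.Agent.P218T Vale.Agent.P218L GD

/-- the slow direction and the shrinker in the compact zone -/
def UZL : Prop := RowP fun _ _ G p =>
  (∀ c', L1 (G.U0 p.W p.z₃ c') = 0 ∧ L2 (G.U0 p.W p.z₃ c').2.1 = 0 ∧
    G.gam p.W (G.U0 p.W p.z₃ c').2.1 + G.Mm (G.U0 p.W p.z₃ c').2.2.1 = 0 ∧
    G.XI p.W (G.U0 p.W p.z₃ c') = c') ∧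
  zn (G.US p.W p.z₃) = 0 ∧ L1 (G.US p.W p.z₃) = 0 ∧ L2 (G.US p.W p.z₃).2.1 = 0 ∧
    G.gam p.W (G.US p.W p.z₃).2.1 = 0

end Vale.Agent.P218I
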