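import Vale.Agent.P218I.Spec
import Vale.Agent.P218I.Cd
import Vale.Agent.P218I.RpW
import Vale.Agent.P218L.Sdec

/-!
# P218, INST, row USV: the shrinker in the natural norm
-/

open Set Filter Topology
open scoped ContDiff

noncomputable section

namespace Vale.Agent.P218I

open Vale.Agent.P218T Vale.Agent.P218L Vale.Agent.P218M Vale.Agent.P218W GD

namespace Usv

variable {s t : Set ℝ} {F : ℝ × ℝ → ℂ} {o o' : ℝ → ℝ} {M R Z A B : ℝ} {c c₁ c₂ d d₁ d₂ : ℝ → ℂ}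

/-- extension by zero -/
theorem le_ext (h : Le t F o M) (w0 : ∀ z ∈ s, 0 ≤ o z)
    (h0 : ∀ z ∈ s, z ∉ t → ∀ θ, F (z, θ) = 0) : Le s F o M := by
  obtain ⟨a, ha, e⟩ := h.ex
  refine ⟨fun z hz => ?_, w0, a, ha, fun k z hz => ?_⟩ <;> by_cases m : z ∈ t
  · exact h.adm z m
  · simp only [h0 z hz m, implies_true, and_true]
    exact continuous_const
  · exact e k z m
  · simpa [co, c1, h0 z hz m] using mul_nonneg (ha.a0 k) (w0 z hz)

theorem jet_zero {y : ℝ × ℝ} (h : F =ᶠ[𝓝 y] fun _ => 0) (i : Fin 6) : jet F i y = 0 := by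
  fin_cases i <;> simp [jet, h.eq_of_nhds, h.fderiv_eq, h.fderiv.fderiv_eq]

/-- the element of `XE` with a given jet -/
theorem toE_jet (RZ : R < Z) {u : Fin 6 → ℝ × ℝ → ℂ} (hj : Jet (Icc R Z) u)
    (hc : ∀ i, ContinuousOn (u i) (Icc R Z ×ˢ univ))
    (b : ∀ i, Le (Icc R Z) (u i) (fun _ => 1) M) (hZ : ∀ θ, u 0 (Z, θ) = 0)
    (hR : ∀ k, 2 ≤ |k| → co (u 0) k R = 0) (i : Fin 6) {z : ℝ} (hz : z ∈ Icc R Z) (θ : ℝ) :
    (toE R Z Z id (u 0)).1 i (z, θ) = u i (z, θ) := by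
  have e := fun i z hz θ => (ret_cl RZ.le).toW_apply (hc i) (b i) (z := z) hz θ
  let J : XE R Z := ⟨fun i => toW (Icc R Z) (cl R Z) (u i), hj.congr e,
    fun θ => (e 0 Z (right_mem_Icc.2 RZ.le) θ).trans (hZ θ),
    fun k hk => (co_congr (e 0 R (left_mem_Icc.2 RZ.le)) k).trans (hR k hk)⟩
  have h : ∃ J : XE R Z, ∀ z ∈ Icc R Z, ∀ θ, J.1 0 (id z, θ) = u 0 (z, θ) := ⟨J, e 0⟩
  rw [toE, dif_pos h, Rp.xe_ext (J' := J) RZ fun z hz θ =>
    (h.choose_spec z hz θ).trans (e 0 z hz θ).symm]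
  exact e i z hz θ

/-- slowly varying functions -/
structure Slw (A : ℝ) (c c₁ c₂ : ℝ → ℂ) : Prop where
  d : ∀ z, HasDerivAt c (c₁ z) z
  d₁ : ∀ z, HasDerivAt c₁ (c₂ z) z
  cont : Continuous c₂
  b : ∀ z : ℝ, ‖c z‖ ≤ A ∧ ‖z * c₁ z‖ ≤ A ∧ ‖z ^ 2 * c₂ z‖ ≤ A

theorem Slw.c0 (h : Slw A c c₁ c₂) : Continuous c :=
  continuous_iff_continuousAt.2 fun z => (h.d z).continuousAt

theorem Slw.c1 (h : Slw A c c₁ c₂) : Continuous c₁ :=
  continuous_iff_continuousAt.2 fun z => (h.d₁ z).continuousAt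

theorem Slw.scale (h : Slw A c c₁ c₂) (l : ℝ) : Slw A (fun z => c (l * z))
    (fun z => l * c₁ (l * z)) fun z => l ^ 2 * c₂ (l * z) := by
  have e : ∀ z, HasDerivAt (fun z => l * z) l z := fun z => by
    simpa using (hasDerivAt_id z).const_mul l
  have := h.cont
  refine ⟨fun z => (h.d _).scomp z (e z), fun z => ?_, by fun_prop, fun z => ?_⟩
  · simpa [sq, mul_assoc] using ((h.d₁ _).scomp z (e z)).const_mul (l : ℂ)
  · have := h.b (l * z)
    push_cast at this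
    refine ⟨this.1, this.2.1.trans_eq' ?_, this.2.2.trans_eq' ?_⟩ <;> congr 1 <;> ring

theorem Slw.one_sub (h : Slw A c c₁ c₂) :
    Slw (1 + A) (fun z => 1 - c z) (fun z => -c₁ z) fun z => -c₂ z := by
  refine ⟨fun z => (h.d z).const_sub 1, fun z => (h.d₁ z).neg, h.cont.neg, fun z => ?_⟩
  have := h.b z
  have := norm_sub_le 1 (c z)
  simp only [mul_neg, norm_neg, norm_one] at *
  refine ⟨?_, ?_, ?_⟩ <;> linarith

theorem Slw.mul (h : Slw A c c₁ c₂) (k : Slw B d d₁ d₂) : Slw (4 * (A * B)) (fun z => c z * d z)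
    (fun z => c₁ z * d z + c z * d₁ z) fun z => c₂ z * d z + 2 * (c₁ z * d₁ z) + c z * d₂ z := by
  have := h.c0; have := h.c1; have := h.cont; have := k.c0; have := k.c1; have := k.cont
  refine ⟨fun z => (h.d z).mul (k.d z), fun z => (((h.d₁ z).mul (k.d z)).add
    ((h.d z).mul (k.d₁ z))).congr_deriv (by ring), by fun_prop, fun z => ?_⟩
  obtain ⟨a0, a1, a2⟩ := h.b z
  obtain ⟨b0, b1, b2⟩ := k.b z
  have p := mul_nonneg ((norm_nonneg _).trans a0) ((norm_nonneg _).trans b0)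
  refine ⟨(norm_mul_le_of_le a0 b0).trans (by linarith), ?_, ?_⟩
  · refine ((norm_add_le_of_le (norm_mul_le_of_le a1 b0) (norm_mul_le_of_le a0 b1)).trans_eq'
      (by congr 1; ring)).trans (by linarith)
  · refine ((norm_add_le_of_le (norm_add_le_of_le (norm_add_le_of_le (norm_mul_le_of_le a2 b0)
      (norm_mul_le_of_le a1 b1)) (norm_mul_le_of_le a1 b1)) (norm_mul_le_of_le a0 b2)).trans_eq'
      (by congr 1; ring)).trans (by linarith)

theorem slw_cut (a : ℝ) : ∃ A c₁ c₂, Slw A (fun z => cut a z) c₁ c₂ := by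
  have h : ContDiff ℝ ∞ fun z : ℝ => (cut a z : ℂ) := Complex.ofRealCLM.contDiff.comp
    (Real.smoothTransition.contDiff.comp (contDiff_id.sub contDiff_const))
  generalize hc : (fun z : ℝ => (cut a z : ℂ)) = c at h
  have h1 := contDiff_infty_iff_deriv.1 h
  have h2 := contDiff_infty_iff_deriv.1 h1.2
  have c1 := h1.2.continuous
  have c2 := h2.2.continuous
  obtain ⟨B, hB⟩ := (isCompact_Icc (a := a) (b := a + 1)).exists_bound_of_continuousOn
    (f := fun z : ℝ => ((z * deriv c z, z ^ 2 * deriv (deriv c) z) : ℂ × ℂ)) (by fun_prop)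
  have e : ∀ z, z ∉ Icc a (a + 1) → ∃ x, c =ᶠ[𝓝 z] fun _ => x := fun z hz => by
    rcases not_and_or.1 hz with l | l <;> rw [not_le] at l
    · exact ⟨0, mem_of_superset (Iio_mem_nhds l) fun t (ht : t < a) => by
        simp [← hc, cut, ht.le]⟩
    · exact ⟨1, mem_of_superset (Ioi_mem_nhds l) fun t (ht : a + 1 < t) => by
        simp [← hc, cut, show 1 ≤ t - a by linarith]⟩
  refine ⟨max 1 B, _, _, fun z => (h1.1 z).hasDerivAt, fun z => (h2.1 z).hasDerivAt, c2,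
    fun z => ⟨le_max_of_le_left ?_, ?_⟩⟩
  · rw [← hc, Complex.norm_real, cut, Real.norm_of_nonneg (Real.smoothTransition.nonneg _)]
    exact Real.smoothTransition.le_one _
  · by_cases m : z ∈ Icc a (a + 1)
    · have := norm_prod_le_iff.1 (hB z m)
      exact ⟨le_max_of_le_right this.1, le_max_of_le_right this.2⟩
    · obtain ⟨x, e⟩ := e z m
      simp [e.deriv_eq, e.deriv.deriv_eq]

/-- the cutoff of `usf` -/
theorem slw_us : ∃ A, ∀ z₃ Z : ℝ, ∃ c₁ c₂,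
    Slw A (fun z => (cut 1 (z / z₃) * (1 - cut 2 (4 * z / Z)) : ℝ)) c₁ c₂ := by
  obtain ⟨A, _, _, h⟩ := slw_cut 1
  obtain ⟨B, _, _, k⟩ := slw_cut 2
  refine ⟨4 * (A * (1 + B)), fun z₃ Z => ?_⟩
  simp only [div_eq_inv_mul, ← mul_assoc _ (4 : ℝ), Complex.ofReal_mul, Complex.ofReal_sub,
    Complex.ofReal_one]
  exact ⟨_, _, (h.scale z₃⁻¹).mul (k.scale (Z⁻¹ * 4)).one_sub⟩

theorem jet_lb {u : ℝ × ℝ → ℂ} (h : Slw A c c₁ c₂) (hu : ContDiff ℝ ∞ u) :
    jet (fun p => c p.1 * u p) = Sdec.lb c c₁ c₂ (jet u) := by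
  ext i y
  refine (((Frm.lj_z (.of_forall h.d) (h.d₁ _)).mul
    (Frm.lj (hu.contDiffAt.of_le (ENat.LEInfty.out)))).jet i).trans ?_
  fin_cases i <;> simp [Frm.jm, Sdec.lb] <;> ring

theorem le_lb {J : Fin 6 → ℝ × ℝ → ℂ} (h : Slw A c c₁ c₂) (t1 : ∀ z ∈ t, 1 ≤ z)
    (k : ∀ i, Le t (J i) o M) (k3 : Le t (fun y => y.1 * J 3 y) o M) (i : Fin 6) :
    Le t (Sdec.lb c c₁ c₂ J i) (omH o i) (4 * (A * M)) := by
  have A0 := (norm_nonneg _).trans (h.b 0).1
  have p := mul_nonneg A0 (k 0).M0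
  have w0 := k3.w0
  have b1 : ∀ z ∈ t, ‖c₁ z‖ ≤ A / z := fun z hz => by
    have := (h.b z).2.1
    rwa [norm_mul, Complex.norm_real, Real.norm_of_nonneg (by linarith [t1 z hz]), mul_comm,
      ← le_div_iff₀ (by linarith [t1 z hz])] at this
  have b2 : ∀ z ∈ t, ‖c₂ z‖ ≤ A := fun z hz => by
    have := (h.b z).2.2
    rw [norm_mul, norm_pow, Complex.norm_real, Real.norm_of_nonneg (by linarith [t1 z hz])] at this
    nlinarith [mul_nonneg (sub_nonneg.2 (one_le_pow₀ (n := 2) (t1 z hz))) (norm_nonneg (c₂ z))]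
  have m : ∀ {φ : ℝ → ℂ} i, (∀ z ∈ t, ‖φ z‖ ≤ A) → Le t (fun p => φ p.1 * J i p) o (A * M) :=
    fun i e => (k i).mulz A0 w0 fun z hz => mul_le_mul_of_nonneg_right (e z hz) (w0 z hz)
  have m0 := fun i => m i fun z _ => (h.b z).1
  have m1 := fun i => m i fun z hz => (b1 z hz).trans (div_le_self A0 (t1 z hz))
  have w1 : ∀ z ∈ t, 0 ≤ o z / z := fun z hz => div_nonneg (w0 z hz) (by linarith [t1 z hz])
  have n0 := k3.mulz (φ := fun z => c z / z) A0 w1 fun z hz => by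
    rw [norm_div, Complex.norm_real, Real.norm_of_nonneg (by linarith [t1 z hz]), div_mul_comm,
      mul_comm]
    exact mul_le_mul_of_nonneg_right (h.b z).1 (w1 z hz)
  have n1 := (k 0).mulz A0 w1 fun z hz =>
    (mul_le_mul_of_nonneg_right (b1 z hz) (w0 z hz)).trans_eq (by ring)
  have up : ∀ {F G v N}, Le t F v N → N ≤ 4 * (A * M) → (∀ z ∈ t, ∀ θ, G (z, θ) = F (z, θ)) →
      Le t G v (4 * (A * M)) := fun l a e => (l.mono subset_rfl (fun _ _ => le_rfl) a).congr e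
  fin_cases i
  · exact up (m0 0) (by linarith) (by simp [Sdec.lb])
  · exact up (m0 1) (by linarith) (by simp [Sdec.lb])
  · exact up (m0 2) (by linarith) (by simp [Sdec.lb])
  · refine up (n0.add n1) (by linarith) fun z hz θ => ?_
    have : (z : ℂ) ≠ 0 := by exact_mod_cast (by linarith [t1 z hz] : z ≠ 0)
    simp [Sdec.lb]
    field_simp
  · exact up ((m0 4).add (m1 1)) (by linarith) (by simp [Sdec.lb])
  · exact up ((m0 5).add (((m1 3).add (m1 3)).add (m 0 b2))) (by linarith)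
      (by simp [Sdec.lb, two_mul, mul_add])

/-- lower bounds of the natural weights below the height `3 Z / 4` -/
theorem wt {a : ℂ} (h : Cyl 1 R Z a) (R2 : 2 ≤ R) {z : ℝ} (hz : z ∈ Icc R Z) (l : z ≤ 3 * Z / 4)
    (i : Fin 6) : omH (fun z => z ^ (-15 / 8 : ℝ)) i z ≤ 10 * P218W.om (fun z => (rh a z).re)
      (fun z => gO a Z z + (rh a z).re) (wK (31 / 16) a) a Z i z ∧
    omH (fun z => z ^ (-15 / 8 : ℝ)) i z ≤ 10 * P218W.nu (wK (31 / 16) a) a Z i z := by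
  have k := h.wtc one_pos hz
  have z2 := R2.trans hz.1
  have e : ∀ z : ℝ, (rh a z).re = 2 + a.re * (z ^ 2 - 2) := fun z => by simp [rh, sq]
  have r1 : 7 / 8 ≤ (rh a z).re := by
    have := h.re0 one_pos (right_mem_Icc.2 (hz.1.trans hz.2))
    have := pow_le_pow_left₀ (by linarith) l 2
    rw [e] at *
    rcases le_total 0 a.re with b | b
    · nlinarith [mul_nonneg b (show 0 ≤ z ^ 2 - 2 by nlinarith)]
    · nlinarith
  have r2 := r1.trans (Complex.re_le_norm _)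
  have x0 := Real.rpow_pos_of_pos (h.z0 hz) (-15 / 8)
  have x1 : z ^ (-15 / 8 : ℝ) ≤ 1 :=
    Real.rpow_le_one_of_one_le_of_nonpos (by linarith) (by norm_num)
  have w1 : 3 / 4 * z ^ (-15 / 8 : ℝ) ≤ wK (31 / 16) a z := by
    rw [wK, mul_comm, show (2 - 2 * (31 / 16) : ℝ) = -15 / 8 by norm_num]
    refine mul_le_mul_of_nonneg_left (le_trans ?_ (Real.rpow_le_rpow (by norm_num) r2
      (by norm_num))) x0.le
    refine le_trans ?_ (Real.rpow_le_rpow_of_exponent_ge (y := 2) (by norm_num) (by norm_num)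
      (by norm_num))
    norm_num
  have s6 := k.sg6
  have t1 := k.ta1
  have g0 := k.gO0
  have q1 : 7 / 8 ≤ √‖rh a z‖ := Real.le_sqrt_of_sq_le (by linarith)
  have g1 : wK (31 / 16) a z * sg a z ≤ gW (wK (31 / 16) a) a Z z :=
    mul_le_mul_of_nonneg_left (le_add_of_nonneg_right (mul_nonneg (sq_nonneg z) (ly_pos Z z).le))
      (by linarith)
  have dv : ∀ {x y : ℝ}, x ≤ 10 * y → x / z ≤ 10 * (y / z) := fun b => by
    rw [← mul_div_assoc]; gcongr
  have n : ∀ i, omH (fun z => z ^ (-15 / 8 : ℝ)) i z ≤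
      10 * P218W.nu (wK (31 / 16) a) a Z i z := fun i => by
    have g2 : wK (31 / 16) a z ≤ gW (wK (31 / 16) a) a Z z / sg a z :=
      (le_div_iff₀ (by linarith)).2 g1
    have g3 : wK (31 / 16) a z ≤ √(wK (31 / 16) a z * gW (wK (31 / 16) a) a Z z / sg a z) :=
      Real.le_sqrt_of_sq_le (by rw [sq, mul_div_assoc]; gcongr; linarith)
    have g4 : z ^ (-15 / 8 : ℝ) / 8 ≤ gW (wK (31 / 16) a) a Z z * ta a z := by
      nlinarith [mul_nonneg (sub_nonneg.2 s6) (show 0 ≤ wK (31 / 16) a z by linarith)]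
    have g5 := mul_le_mul g4 q1 (by norm_num) (by linarith)
    fin_cases i <;> simp only [omH, P218W.nu, Fin.reduceFinMk, Matrix.cons_val]
    exacts [by linarith, by linarith, by linarith, dv (by linarith), by linarith, by linarith]
  refine ⟨?_, n i⟩
  fin_cases i
  exacts [show z ^ (-15 / 8 : ℝ) ≤ 10 * (rh a z).re by linarith, n 1, n 2,
    dv (show _ ≤ 10 * (gO a Z z + (rh a z).re) by linarith), n 4,
    show z ^ (-15 / 8 : ℝ) ≤ 10 * (gO a Z z + (rh a z).re) by linarith]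

theorem core {u : ℝ × ℝ → ℂ} {a : ℂ} {R₁ z₃ : ℝ} (hu : ContDiff ℝ ∞ u) (h : Slw A c c₁ c₂)
    (k : ∀ i, Le (Ici R₁) (jet u i) (fun z => z ^ (-31 / 16 : ℝ)) M)
    (k3 : Le (Ici R₁) (fun y => y.1 * jet u 3 y) (fun z => z ^ (-31 / 16 : ℝ)) M)
    (cy : Cyl 1 R Z a) (R2 : 2 ≤ R) (h1 : R ≤ z₃) (h2 : R₁ ≤ z₃)
    (h0 : ∀ z, z ≤ z₃ ∨ 3 * Z / 4 ≤ z → c z = 0) (hF : F = fun p => c p.1 * u p) :
    (∀ i, ∀ z ∈ Icc R Z, ∀ θ, (toE R Z Z id F).1 i (z, θ) = jet F i (z, θ)) ∧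
      pN a R Z (toE R Z Z id F) ≤ 10 * z₃ ^ (-1 / 16 : ℝ) * (4 * (A * M)) := by
  have RZ : R < Z := by linarith [cy.RZ]
  have e : jet F = _ := hF ▸ jet_lb h hu
  have sub : Icc z₃ (3 * Z / 4) ⊆ Icc R Z := Icc_subset_Icc h1 (by linarith)
  have mo := fun {G} (l : Le (Ici R₁) G (fun z => z ^ (-31 / 16 : ℝ)) M) =>
    l.mono (t := Icc z₃ (3 * Z / 4)) (fun z hz => h2.trans hz.1) (fun _ _ => le_rfl) le_rfl
  have x0 := Real.rpow_pos_of_pos (show 0 < z₃ by linarith) (-1 / 16)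
  have key : ∀ i (v : ℝ → ℝ), (∀ z ∈ Icc R Z, 0 ≤ v z) → (∀ z ∈ Icc R Z, z ≤ 3 * Z / 4 →
      omH (fun z => z ^ (-15 / 8 : ℝ)) i z ≤ 10 * v z) →
      Le (Icc R Z) (jet F i) v (10 * z₃ ^ (-1 / 16 : ℝ) * (4 * (A * M))) := fun i v v0 hv => by
    have l := le_lb h (fun z hz => by linarith [hz.1]) (fun i => mo (k i)) (mo k3) i
    rw [← e] at l
    refine le_ext (l.wt (by positivity) (fun z hz => v0 z (sub hz)) fun z hz => ?_) v0
      fun z _ hz θ => jet_zero ?_ i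
    · have z0 := cy.z0 (sub hz)
      have b := hv z (sub hz) hz.2
      have b1 : z ^ (-1 / 16 : ℝ) ≤ z₃ ^ (-1 / 16 : ℝ) :=
        Real.rpow_le_rpow_of_nonpos (by linarith) hz.1 (by norm_num)
      have b2 : omH (fun z => z ^ (-31 / 16 : ℝ)) i z =
          z ^ (-1 / 16 : ℝ) * omH (fun z => z ^ (-15 / 8 : ℝ)) i z := by
        rw [Sdec.omH_eq, Sdec.omH_eq (fun z => z ^ (-15 / 8 : ℝ)), ← mul_assoc, ← Real.rpow_add z0]
        norm_num
      rw [b2, mul_comm 10, mul_assoc]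
      exact mul_le_mul b1 b (omH_pos z0 (fun z hz => Real.rpow_pos_of_pos (z0.trans_le hz) _) i
        self_mem_Ici).le x0.le
    · refine mem_of_superset (((isClosed_Icc.preimage continuous_fst).isOpen_compl).mem_nhds hz)
        fun p hp => ?_
      have := not_and_or.1 hp
      simp [hF, h0 p.1 (this.imp (fun b => (not_le.1 b).le) fun b => (not_le.1 b).le)]
  have cJ := Sdec.jet_cont hu
  have cv : ∀ i, Continuous (jet F i) := fun i => by
    have := cJ 0; have := cJ 1; have := cJ 3; have := cJ i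
    have := h.c0; have := h.c1; have := h.cont
    rw [e]
    unfold Sdec.lb
    fin_cases i <;> simp <;> fun_prop
  have z0 : ∀ z θ, z ≤ z₃ ∨ 3 * Z / 4 ≤ z → jet F 0 (z, θ) = 0 := fun z θ b => by
    simp [jet, hF, h0 z b]
  have ev : ∀ i, ∀ z ∈ Icc R Z, ∀ θ, (toE R Z Z id F).1 i (z, θ) = jet F i (z, θ) :=
    fun i z hz θ => toE_jet (u := jet F) RZ (e ▸ Sdec.lb_jet h.d h.d₁ (jet_jet fun _ _ =>
      hu.contDiffAt.of_le (ENat.LEInfty.out))) (fun i => (cv i).continuousOn)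
      (fun i => key i _ (by simp) fun z hz _ => by
        have := Sdec.om_le (R := R) (by linarith) i hz.1
        have := Real.rpow_le_one_of_one_le_of_nonpos (show 1 ≤ z by linarith [hz.1])
          (show (-15 / 8 : ℝ) ≤ 0 by norm_num)
        have := Real.rpow_pos_of_pos (cy.z0 hz) (-15 / 8)
        rw [Sdec.omH_eq]
        nlinarith)
      (fun θ => z0 _ θ (.inr (by linarith))) (fun k _ => by simp [co, c1, z0 R _ (.inl h1)]) i hz θ
  obtain ⟨pK, -, pg, -, px, -⟩ := pw_all cy le_rfl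
  have po := pw_om cy one_pos (pK (31 / 16)) px (pg.add isCompact_Icc px)
  have pn := pw_nu cy one_pos (pK (31 / 16))
  refine ⟨ev, ((ret_cl RZ.le).xn_le_iff po pn (key 0 _ (fun z hz => ((pn 0).pos hz).le)
    fun z hz l => (wt cy R2 hz l 0).2).M0).2 fun i => L2.congr ⟨Le.p0 (key i _ ?_ ?_),
      Le.pn (key i _ ?_ ?_)⟩ (ev i)⟩
  exacts [fun z hz => ((po i).pos hz).le, fun z hz l => (wt cy R2 hz l i).1,
    fun z hz => ((pn i).pos hz).le, fun z hz l => (wt cy R2 hz l i).2]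

end Usv

/-- **the row USV** -/
theorem usv (sdec : SDEC) (eqs : EQS) : USV := fun M g => by
  choose R K _ h h3 using fun j => sdec (M.f j) (g.ended.cyl j) M.R ((eqs M g).1 j)
  obtain ⟨A, hA⟩ := Usv.slw_us
  refine ⟨2, fun k G hz _ => ?_⟩
  filter_upwards [ev_cyl (Y := 1) hz (by nlinarith), ev_cs (ev₀_r (f := fun _ => 1) (by simp)),
    ev_cs (ev₀_z fun _ _ => G.z₀), ev_cs (ev₀_z fun _ _ => ∑ j, |R j|),
    ev_cs (ev₀_z fun _ r => (40 * (|A| * ∑ j, |K j|) / r ^ 2) ^ 16)] with p cy hr z1 z2 z3 j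
  obtain ⟨c₁, c₂, s⟩ := hA p.z₃ (p.W j)
  have sm : ∀ f : Fin M.n₁ → ℝ, f j ≤ ∑ j, |f j| := fun f => (le_abs_self _).trans
    (Finset.single_le_sum (f := fun j => |f j|) (fun _ _ => abs_nonneg _) (Finset.mem_univ j))
  have z0 : 0 < p.z₃ := by linarith
  have Z0 : 0 < p.W j := by linarith [(cy j).RZ]
  have := Usv.core (F := usf M p.z₃ j (p.W j))
    ((cylw _ (g.ended.cyl j)).1.sub contDiff_const) s (h j) ((h3 j).congr fun z _ θ => by
      simp [Sdec.jet_sub (VS (M.f j)) 3]) (cy j) hz z1 ((sm R).trans z2) (fun z b => by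
      rcases b with b | b
      · simp [cut, (div_le_one z0).2 b]
      · simp [cut, Real.smoothTransition.one_of_one_le (show 1 ≤ 4 * z / p.W j - 2 by
          rw [le_sub_iff_add_le, le_div_iff₀ Z0]; linarith)]) rfl
  refine ⟨this.1, this.2.trans ?_⟩
  have r2 := pow_pos hr.1 2
  have b : A * K j ≤ |A| * ∑ j, |K j| :=
    mul_le_mul (le_abs_self _) (sm K) (h3 j).M0 (abs_nonneg _)
  have b1 : 40 * (|A| * ∑ j, |K j|) / p.r ^ 2 ≤ p.z₃ ^ (16 : ℝ)⁻¹ :=
    (Real.le_rpow_inv_iff_of_pos (by positivity) z0.le (by norm_num)).2 (by exact_mod_cast z3)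
  rw [div_le_iff₀ r2] at b1
  rw [neg_div, Real.rpow_neg z0.le, mul_comm 10, mul_assoc, one_div,
    inv_mul_le_iff₀ (Real.rpow_pos_of_pos z0 _)]
  linarith

end Vale.Agent.P218I
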